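-- KEEP
import Mathlib

/-! PACKED FILE (helper10, closed unit): parts S3m.Prob, S3m.Expo, S3m.Chain.  Each part is wrapped in its own `section`. -/

section PkS3mProb

/-!
# ROW 252 (S0492), unit S3m = L3.3 TWO-COLOUR MATCHING (03-comparison.tex l.283-775), architect helper93.     CONTRACT file: the `sorry`s are the leaves L-252-K3M-P*.

File Prob: FINITE PROBABILITY TOOLKIT (paper-free, Mathlib only).   Prefix `k3m`.

`Ω` is a FINITE type, a law is a function `p : Ω → ℝ` (`K3mLaw p`: `p ≥ 0`, `∑ p = 1`).  No measure theory, no decidability instances: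
events are `Set Ω`, `k3mP p A = ∑ ω, A.indicator p ω`; numbers of values are `Set.ncard` of images.
`k3mCav p X φ ω` = conditional average of `φ` given `X = X ω` (`0/0 = 0`) = "draw a fresh event with the same value of `X`".

## Exits (used by `Step.lean`, `Sum.lean`)
* `k3m_select`  : uniformisation of the atom masses of a nested family of states (03 l.431-462): new law `p' ≤ c p`, exponents `u k`, number of children `≤ N^(u k' - u k + η)`.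
* `k3m_palette` : a label `Z` with few values per atom of the first state is, on most steps `k → k + C`, not much more concentrated given the fine state than given the coarse state
                  (03 l.470-512; here WITHOUT entropy: `E[X_k / X_{k+C}] ≤ 1`, `E[1 / X_{k0}] ≤ M`, Markov, telescoping product).
* `k3m_chain`   : the switching experiment (03 l.514-672), in the SIMPLIFIED form with ONE switch:
                  `ω0 ~ p`, `ω1 ~ p(· | X1 = X1 ω0)`, `ωt ~ p(· | G = G ω1)`, `ω2 ~ p(· | X2 col = X2 col ωt)`; all four have law `p`.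
-/

set_option autoImplicit false

namespace Claimed.Agent.R252

open scoped BigOperators
open Finset

noncomputable section

variable {Ω : Type} [Fintype Ω]

/-! ## 1. Definitions -/

/-- a finite law -/
structure K3mLaw (p : Ω → ℝ) : Prop where
  nonneg : ∀ ω, 0 ≤ p ω
  sum_one : ∑ ω, p ω = 1

/-- probability of an event -/
def k3mP (p : Ω → ℝ) (A : Set Ω) : ℝ := ∑ ω, A.indicator p ω

/-- conditional average of `φ` given `X = s` -/
def k3mCv {S : Type} (p : Ω → ℝ) (X : Ω → S) (s : S) (φ : Ω → ℝ) : ℝ :=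
  (∑ ω', {ω' | X ω' = s}.indicator (fun ω' => p ω' * φ ω') ω') / k3mP p {ω' | X ω' = s}

/-- conditional average of `φ` given `X = X ω` -/
def k3mCav {S : Type} (p : Ω → ℝ) (X : Ω → S) (φ : Ω → ℝ) (ω : Ω) : ℝ := k3mCv p X (X ω) φ

open Classical in
/-- indicator of a proposition -/
def k3mI (P : Prop) : ℝ := if P then 1 else 0

/-- conditional probability of the own value of `Z` given the own value of `X` -/
def k3mX {S SZ : Type} (p : Ω → ℝ) (X : Ω → S) (Z : Ω → SZ) (ω : Ω) : ℝ :=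
  k3mP p {ω' | X ω' = X ω ∧ Z ω' = Z ω} / k3mP p {ω' | X ω' = X ω}

theorem k3m_prob_eqns_cite : True := by
  have := @k3mP.eq_1
  have := @k3mCv.eq_1
  have := @k3mCav.eq_1
  have := @k3mI.eq_1
  have := @k3mX.eq_1
  trivial

/-! ## 2. API of `k3mP`      (leaf L-252-K3M-P1) -/

section api
variable {p : Ω → ℝ}

theorem k3mP_nonneg (hp : K3mLaw p) (A : Set Ω) : 0 ≤ k3mP p A := by
  exact Finset.sum_nonneg fun ω _ => Set.indicator_nonneg (fun x _ => hp.nonneg x) ω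

theorem k3mP_mono (hp : K3mLaw p) {A B : Set Ω} (h : A ⊆ B) : k3mP p A ≤ k3mP p B := by
  exact Finset.sum_le_sum fun ω _ => Set.indicator_le_indicator_of_subset h hp.nonneg ω

/-- only the support matters -/
theorem k3mP_mono_supp (hp : K3mLaw p) {A B : Set Ω} (h : ∀ ω ∈ A, p ω ≠ 0 → ω ∈ B) : k3mP p A ≤ k3mP p B := by
  refine Finset.sum_le_sum fun ω _ => ?_
  have hB : 0 ≤ B.indicator p ω := Set.indicator_nonneg (fun x _ => hp.nonneg x) ω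
  by_cases hA : ω ∈ A
  · by_cases h0 : p ω = 0
    · rw [Set.indicator_of_mem hA, h0]
      exact hB
    · rw [Set.indicator_of_mem hA, Set.indicator_of_mem (h ω hA h0)]
  · rw [Set.indicator_of_notMem hA]
    exact hB

theorem k3mP_univ (hp : K3mLaw p) : k3mP p Set.univ = 1 := by
  unfold k3mP
  rw [Set.indicator_univ]
  exact hp.sum_one

theorem k3mP_le_one (hp : K3mLaw p) (A : Set Ω) : k3mP p A ≤ 1 := by
  exact (k3mP_mono hp (Set.subset_univ A)).trans_eq (k3mP_univ hp)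

theorem k3mP_empty (p : Ω → ℝ) : k3mP p ∅ = 0 := by
  simp [k3mP]

theorem k3mP_union_le (hp : K3mLaw p) (A B : Set Ω) : k3mP p (A ∪ B) ≤ k3mP p A + k3mP p B := by
  unfold k3mP
  rw [← Finset.sum_add_distrib]
  refine Finset.sum_le_sum fun ω _ => ?_
  have hA : 0 ≤ A.indicator p ω := Set.indicator_nonneg (fun x _ => hp.nonneg x) ω
  have hB : 0 ≤ B.indicator p ω := Set.indicator_nonneg (fun x _ => hp.nonneg x) ω
  by_cases h1 : ω ∈ A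
  · rw [Set.indicator_of_mem (Set.mem_union_left B h1), Set.indicator_of_mem h1]
    linarith
  · by_cases h2 : ω ∈ B
    · rw [Set.indicator_of_mem (Set.mem_union_right A h2), Set.indicator_of_mem h2]
      linarith
    · rw [Set.indicator_of_notMem (fun hh : ω ∈ A ∪ B => hh.elim h1 h2)]
      linarith

theorem k3mP_compl (hp : K3mLaw p) (A : Set Ω) : k3mP p Aᶜ = 1 - k3mP p A := by
  have h1 : k3mP p Aᶜ + k3mP p A = 1 := by
    unfold k3mP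
    rw [← Finset.sum_add_distrib, ← hp.sum_one]
    exact Finset.sum_congr rfl fun ω _ => Set.indicator_compl_add_self_apply A p ω
  linarith

theorem k3mP_pos (hp : K3mLaw p) {A : Set Ω} {ω : Ω} (hω : ω ∈ A) (h : p ω ≠ 0) : 0 < k3mP p A := by
  refine Finset.sum_pos' (fun x _ => Set.indicator_nonneg (fun x _ => hp.nonneg x) x) ⟨ω, Finset.mem_univ _, ?_⟩
  rw [Set.indicator_of_mem hω]
  exact lt_of_le_of_ne (hp.nonneg ω) (Ne.symm h)

theorem k3mP_eq_sum_mul (p : Ω → ℝ) (A : Set Ω) : k3mP p A = ∑ ω, p ω * A.indicator (fun _ => (1 : ℝ)) ω := by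
  refine Finset.sum_congr rfl fun ω _ => ?_
  by_cases h : ω ∈ A
  · rw [Set.indicator_of_mem h, Set.indicator_of_mem h, mul_one]
  · rw [Set.indicator_of_notMem h, Set.indicator_of_notMem h, mul_zero]

/-- the probability of an event is the sum over the values `s ∈ T` of a label, if the label takes its values (on the event, on the support) in the finite set `T` -/
theorem k3mP_eq_sum_fiber {S : Type} [DecidableEq S] (hp : K3mLaw p) (A : Set Ω) (X : Ω → S) (T : Finset S)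
    (hT : ∀ ω ∈ A, p ω ≠ 0 → X ω ∈ T) : k3mP p A = ∑ s ∈ T, k3mP p {ω | ω ∈ A ∧ X ω = s} := by
  unfold k3mP
  rw [Finset.sum_comm]
  refine Finset.sum_congr rfl fun ω _ => ?_
  have e : ∀ s, ({ω | ω ∈ A ∧ X ω = s} : Set Ω).indicator p ω = if X ω = s then A.indicator p ω else 0 := by
    intro s
    by_cases h1 : X ω = s
    · rw [if_pos h1]
      by_cases h2 : ω ∈ A
      · rw [Set.indicator_of_mem h2, Set.indicator_of_mem (show ω ∈ {ω | ω ∈ A ∧ X ω = s} from ⟨h2, h1⟩)]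
      · rw [Set.indicator_of_notMem h2, Set.indicator_of_notMem (fun hh : ω ∈ {ω | ω ∈ A ∧ X ω = s} => h2 hh.1)]
    · rw [if_neg h1, Set.indicator_of_notMem (fun hh : ω ∈ {ω | ω ∈ A ∧ X ω = s} => h1 hh.2)]
  simp only [e]
  rw [Finset.sum_ite_eq]
  split_ifs with hm
  · rfl
  · by_cases h2 : ω ∈ A
    · by_cases h0 : p ω = 0
      · rw [Set.indicator_of_mem h2, h0]
      · exact absurd (hT ω h2 h0) hm
    · rw [Set.indicator_of_notMem h2]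

/-- Markov's inequality -/
theorem k3m_markov (hp : K3mLaw p) (φ : Ω → ℝ) (hφ : ∀ ω, p ω ≠ 0 → 0 ≤ φ ω) {c t : ℝ} (hc : ∑ ω, p ω * φ ω ≤ c) (ht : 0 < t) :
    k3mP p {ω | t < φ ω} ≤ c / t := by
  rw [le_div_iff₀ ht]
  refine le_trans ?_ hc
  unfold k3mP
  rw [Finset.sum_mul]
  refine Finset.sum_le_sum fun ω _ => ?_
  have h0 : 0 ≤ p ω * φ ω := by
    by_cases h0 : p ω = 0
    · rw [h0, zero_mul]
    · exact mul_nonneg (hp.nonneg ω) (hφ ω h0)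
  by_cases h : t < φ ω
  · rw [Set.indicator_of_mem (show ω ∈ {ω | t < φ ω} from h)]
    exact mul_le_mul_of_nonneg_left h.le (hp.nonneg ω)
  · rw [Set.indicator_of_notMem (fun hh : ω ∈ {ω | t < φ ω} => h hh), zero_mul]
    exact h0

/-- expected number of events which occur -/
theorem k3m_sum_P_eq (p : Ω → ℝ) (L : ℕ) (B : ℕ → Set Ω) :
    ∑ k ∈ range L, k3mP p (B k) = ∑ ω, p ω * (({k | k < L ∧ ω ∈ B k} : Set ℕ).ncard : ℝ) := by
  classical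
  unfold k3mP
  rw [Finset.sum_comm]
  refine Finset.sum_congr rfl fun ω _ => ?_
  have e1 : ({k | k < L ∧ ω ∈ B k} : Set ℕ) = (((range L).filter fun k => ω ∈ B k : Finset ℕ) : Set ℕ) := by
    ext k
    simp
  rw [e1, Set.ncard_coe_finset, Finset.card_eq_sum_ones, Finset.sum_filter, Nat.cast_sum, Finset.mul_sum]
  refine Finset.sum_congr rfl fun k _ => ?_
  by_cases h : ω ∈ B k
  · rw [Set.indicator_of_mem h, if_pos h]
    simp
  · rw [Set.indicator_of_notMem h, if_neg h]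
    simp

theorem k3mI_true {P : Prop} (h : P) : k3mI P = 1 := by
  exact if_pos h

theorem k3mI_false {P : Prop} (h : ¬ P) : k3mI P = 0 := by
  exact if_neg h

theorem k3mI_nonneg (P : Prop) : 0 ≤ k3mI P := by
  by_cases h : P
  · rw [k3mI_true h]
    exact zero_le_one
  · rw [k3mI_false h]

theorem k3mI_le_one (P : Prop) : k3mI P ≤ 1 := by
  by_cases h : P
  · rw [k3mI_true h]
  · rw [k3mI_false h]
    exact zero_le_one

theorem k3mI_mono {P Q : Prop} (h : P → Q) : k3mI P ≤ k3mI Q := by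
  by_cases hP : P
  · rw [k3mI_true hP, k3mI_true (h hP)]
  · rw [k3mI_false hP]
    exact k3mI_nonneg Q

theorem k3mI_and (P Q : Prop) : k3mI (P ∧ Q) = k3mI P * k3mI Q := by
  by_cases hP : P
  · by_cases hQ : Q
    · rw [k3mI_true hP, k3mI_true hQ, k3mI_true ⟨hP, hQ⟩, one_mul]
    · rw [k3mI_false hQ, k3mI_false (fun hh : P ∧ Q => hQ hh.2), mul_zero]
  · rw [k3mI_false hP, k3mI_false (fun hh : P ∧ Q => hP hh.1), zero_mul]

theorem k3mI_not (P : Prop) : k3mI (¬ P) = 1 - k3mI P := by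
  by_cases hP : P
  · rw [k3mI_true hP, k3mI_false (not_not.2 hP), sub_self]
  · rw [k3mI_false hP, k3mI_true hP, sub_zero]

theorem k3mP_eq_sum_I (p : Ω → ℝ) (A : Set Ω) : k3mP p A = ∑ ω, p ω * k3mI (ω ∈ A) := by
  refine Finset.sum_congr rfl fun ω _ => ?_
  by_cases h : ω ∈ A
  · rw [Set.indicator_of_mem h, k3mI_true h, mul_one]
  · rw [Set.indicator_of_notMem h, k3mI_false h, mul_zero]

/-- a sum of indicators over a range is the number of solutions -/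
theorem k3m_sum_I_eq (L : ℕ) (P : ℕ → Prop) : ∑ k ∈ range L, k3mI (P k) = (({k | k < L ∧ P k} : Set ℕ).ncard : ℝ) := by
  classical
  have e1 : ({k | k < L ∧ P k} : Set ℕ) = (((range L).filter fun k => P k : Finset ℕ) : Set ℕ) := by
    ext k
    simp
  rw [e1, Set.ncard_coe_finset, Finset.card_eq_sum_ones, Finset.sum_filter, Nat.cast_sum]
  refine Finset.sum_congr rfl fun k _ => ?_
  by_cases h : P k
  · rw [k3mI_true h, if_pos h]
    simp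
  · rw [k3mI_false h, if_neg h]
    simp

end api

/-! ## 3. API of `k3mCav`      (leaf L-252-K3M-P2) -/

section cav
variable {p : Ω → ℝ} {S : Type}

theorem k3m_cv_mono_aux (hp : K3mLaw p) (X : Ω → S) (s : S) {φ ψ : Ω → ℝ} (h : ∀ ω', p ω' ≠ 0 → X ω' = s → φ ω' ≤ ψ ω') :
    k3mCv p X s φ ≤ k3mCv p X s ψ := by
  refine div_le_div_of_nonneg_right (Finset.sum_le_sum fun ω _ => ?_) (k3mP_nonneg hp _)
  by_cases h1 : X ω = s
  · rw [Set.indicator_of_mem (show ω ∈ {ω' | X ω' = s} from h1), Set.indicator_of_mem (show ω ∈ {ω' | X ω' = s} from h1)]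
    by_cases h0 : p ω = 0
    · rw [h0, zero_mul, zero_mul]
    · exact mul_le_mul_of_nonneg_left (h ω h0 h1) (hp.nonneg ω)
  · rw [Set.indicator_of_notMem (fun hh : ω ∈ {ω' | X ω' = s} => h1 hh), Set.indicator_of_notMem (fun hh : ω ∈ {ω' | X ω' = s} => h1 hh)]

theorem k3m_cv_zero_aux (p : Ω → ℝ) (X : Ω → S) (s : S) : k3mCv p X s (fun _ => 0) = 0 := by
  simp [k3mCv]

theorem k3m_cv_const_aux (p : Ω → ℝ) (X : Ω → S) (s : S) (c : ℝ) (h : k3mP p {ω' | X ω' = s} ≠ 0) : k3mCv p X s (fun _ => c) = c := by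
  unfold k3mCv
  rw [div_eq_iff h]
  unfold k3mP
  rw [Finset.mul_sum]
  refine Finset.sum_congr rfl fun ω _ => ?_
  by_cases h1 : X ω = s
  · rw [Set.indicator_of_mem (show ω ∈ {ω' | X ω' = s} from h1), Set.indicator_of_mem (show ω ∈ {ω' | X ω' = s} from h1), mul_comm]
  · rw [Set.indicator_of_notMem (fun hh : ω ∈ {ω' | X ω' = s} => h1 hh), Set.indicator_of_notMem (fun hh : ω ∈ {ω' | X ω' = s} => h1 hh), mul_zero]

theorem k3m_cv_add_aux (p : Ω → ℝ) (X : Ω → S) (s : S) (φ ψ : Ω → ℝ) :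
    k3mCv p X s (fun ω' => φ ω' + ψ ω') = k3mCv p X s φ + k3mCv p X s ψ := by
  unfold k3mCv
  rw [← add_div, ← Finset.sum_add_distrib]
  congr 1
  refine Finset.sum_congr rfl fun ω _ => ?_
  by_cases h1 : X ω = s
  · simp only [Set.indicator_of_mem (show ω ∈ {ω' | X ω' = s} from h1)]
    ring
  · simp only [Set.indicator_of_notMem (fun hh : ω ∈ {ω' | X ω' = s} => h1 hh)]
    ring

theorem k3m_cv_const_mul_aux (p : Ω → ℝ) (X : Ω → S) (s : S) (c : ℝ) (φ : Ω → ℝ) :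
    k3mCv p X s (fun ω' => c * φ ω') = c * k3mCv p X s φ := by
  unfold k3mCv
  rw [← mul_div_assoc, Finset.mul_sum]
  congr 1
  refine Finset.sum_congr rfl fun ω _ => ?_
  by_cases h1 : X ω = s
  · simp only [Set.indicator_of_mem (show ω ∈ {ω' | X ω' = s} from h1)]
    ring
  · simp only [Set.indicator_of_notMem (fun hh : ω ∈ {ω' | X ω' = s} => h1 hh)]
    ring

theorem k3mCv_nonneg (hp : K3mLaw p) (X : Ω → S) (s : S) {φ : Ω → ℝ} (hφ : ∀ ω, p ω ≠ 0 → X ω = s → 0 ≤ φ ω) : 0 ≤ k3mCv p X s φ := by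
  have h := k3m_cv_mono_aux hp X s (φ := fun _ => 0) (ψ := φ) hφ
  rwa [k3m_cv_zero_aux] at h

theorem k3mCv_le_const (hp : K3mLaw p) (X : Ω → S) (s : S) {φ : Ω → ℝ} {c : ℝ} (hc : 0 ≤ c)
    (h : ∀ ω', p ω' ≠ 0 → X ω' = s → φ ω' ≤ c) : k3mCv p X s φ ≤ c := by
  by_cases h0 : k3mP p {ω' | X ω' = s} = 0
  · unfold k3mCv
    rw [h0, div_zero]
    exact hc
  · have h1 := k3m_cv_mono_aux hp X s (φ := φ) (ψ := fun _ => c) h
    rwa [k3m_cv_const_aux p X s c h0] at h1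

theorem k3mCv_sum {ι : Type} (p : Ω → ℝ) (X : Ω → S) (s : S) (t : Finset ι) (φ : ι → Ω → ℝ) :
    k3mCv p X s (fun ω' => ∑ i ∈ t, φ i ω') = ∑ i ∈ t, k3mCv p X s (φ i) := by
  unfold k3mCv
  rw [← Finset.sum_div, Finset.sum_comm]
  congr 1
  refine Finset.sum_congr rfl fun ω _ => ?_
  by_cases h1 : X ω = s
  · simp only [Set.indicator_of_mem (show ω ∈ {ω' | X ω' = s} from h1)]
    rw [Finset.mul_sum]
  · simp only [Set.indicator_of_notMem (fun hh : ω ∈ {ω' | X ω' = s} => h1 hh)]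
    rw [Finset.sum_const_zero]

theorem k3mCav_nonneg (hp : K3mLaw p) (X : Ω → S) {φ : Ω → ℝ} (hφ : ∀ ω, p ω ≠ 0 → 0 ≤ φ ω) (ω : Ω) : 0 ≤ k3mCav p X φ ω := by
  exact k3mCv_nonneg hp X _ fun ω' h0 _ => hφ ω' h0

/-- monotone; only the support and the fibre matter -/
theorem k3mCav_mono (hp : K3mLaw p) (X : Ω → S) {φ ψ : Ω → ℝ} (ω : Ω) (h : ∀ ω', p ω' ≠ 0 → X ω' = X ω → φ ω' ≤ ψ ω') :
    k3mCav p X φ ω ≤ k3mCav p X ψ ω := by
  exact k3m_cv_mono_aux hp X _ h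

theorem k3mCav_add (p : Ω → ℝ) (X : Ω → S) (φ ψ : Ω → ℝ) (ω : Ω) :
    k3mCav p X (fun ω' => φ ω' + ψ ω') ω = k3mCav p X φ ω + k3mCav p X ψ ω := by
  exact k3m_cv_add_aux p X _ φ ψ

theorem k3mCav_sub (p : Ω → ℝ) (X : Ω → S) (φ ψ : Ω → ℝ) (ω : Ω) :
    k3mCav p X (fun ω' => φ ω' - ψ ω') ω = k3mCav p X φ ω - k3mCav p X ψ ω := by
  have h1 := k3m_cv_add_aux p X (X ω) (fun ω' => φ ω' - ψ ω') ψ
  simp only [sub_add_cancel] at h1
  unfold k3mCav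
  linarith

theorem k3mCav_const_mul (p : Ω → ℝ) (X : Ω → S) (c : ℝ) (φ : Ω → ℝ) (ω : Ω) :
    k3mCav p X (fun ω' => c * φ ω') ω = c * k3mCav p X φ ω := by
  exact k3m_cv_const_mul_aux p X _ c φ

theorem k3mCav_sum {ι : Type} (p : Ω → ℝ) (X : Ω → S) (s : Finset ι) (φ : ι → Ω → ℝ) (ω : Ω) :
    k3mCav p X (fun ω' => ∑ i ∈ s, φ i ω') ω = ∑ i ∈ s, k3mCav p X (φ i) ω := by
  exact k3mCv_sum p X _ s φ

theorem k3mCav_one (hp : K3mLaw p) (X : Ω → S) {ω : Ω} (h : p ω ≠ 0) : k3mCav p X (fun _ => 1) ω = 1 := by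
  exact k3m_cv_const_aux p X _ 1 (k3mP_pos hp (show ω ∈ {ω' | X ω' = X ω} from rfl) h).ne'

theorem k3mCav_le_const (hp : K3mLaw p) (X : Ω → S) {φ : Ω → ℝ} {c : ℝ} (hc : 0 ≤ c) (ω : Ω)
    (h : ∀ ω', p ω' ≠ 0 → X ω' = X ω → φ ω' ≤ c) : k3mCav p X φ ω ≤ c := by
  exact k3mCv_le_const hp X _ hc h

/-- the average depends on `ω` only through `X ω` -/
theorem k3mCav_congr (p : Ω → ℝ) (X : Ω → S) (φ : Ω → ℝ) {ω ω' : Ω} (h : X ω = X ω') : k3mCav p X φ ω = k3mCav p X φ ω' := by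
  unfold k3mCav
  rw [h]

/-- **invariance**: resampling given `X` preserves the law -/
theorem k3m_inv (hp : K3mLaw p) (X : Ω → S) (φ : Ω → ℝ) : ∑ ω, p ω * k3mCav p X φ ω = ∑ ω, p ω * φ ω := by
  classical
  have e1 : ∀ ω, p ω * k3mCav p X φ ω
      = ∑ ω', (if X ω = X ω' then p ω * ((p ω' * φ ω') / k3mP p {ω'' | X ω'' = X ω'}) else 0) := by
    intro ω
    unfold k3mCav k3mCv
    rw [Finset.sum_div, Finset.mul_sum]
    refine Finset.sum_congr rfl fun ω' _ => ?_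
    by_cases h1 : X ω = X ω'
    · rw [if_pos h1, Set.indicator_of_mem (show ω' ∈ {ω' | X ω' = X ω} from h1.symm), h1]
    · rw [if_neg h1, Set.indicator_of_notMem (fun hh : ω' ∈ {ω' | X ω' = X ω} => h1 hh.symm), zero_div, mul_zero]
  simp only [e1]
  rw [Finset.sum_comm]
  refine Finset.sum_congr rfl fun ω' _ => ?_
  have e2 : ∑ ω, (if X ω = X ω' then p ω * ((p ω' * φ ω') / k3mP p {ω'' | X ω'' = X ω'}) else 0)
      = k3mP p {ω'' | X ω'' = X ω'} * ((p ω' * φ ω') / k3mP p {ω'' | X ω'' = X ω'}) := by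
    generalize (p ω' * φ ω') / k3mP p {ω'' | X ω'' = X ω'} = q
    unfold k3mP
    rw [Finset.sum_mul]
    refine Finset.sum_congr rfl fun ω _ => ?_
    by_cases h1 : X ω = X ω'
    · rw [if_pos h1, Set.indicator_of_mem (show ω ∈ {ω'' | X ω'' = X ω'} from h1)]
    · rw [if_neg h1, Set.indicator_of_notMem (fun hh : ω ∈ {ω'' | X ω'' = X ω'} => h1 hh), zero_mul]
  rw [e2]
  by_cases h0 : p ω' = 0
  · rw [h0, zero_mul, zero_div, mul_zero]
  · rw [mul_div_cancel₀ _ (k3mP_pos hp (show ω' ∈ {ω'' | X ω'' = X ω'} from rfl) h0).ne']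

/-- invariance inside a conditional average: if `G` refines nothing in particular, `∑ p * Cav G (Cav X φ) = ∑ p φ` follows from two uses of `k3m_inv`;
this is the version with a parameter: a bound which does not depend on the outer variable -/
theorem k3m_inv_le (hp : K3mLaw p) (X : Ω → S) (φ : Ω → Ω → ℝ) (ψ : Ω → ℝ)
    (h : ∀ ω ω', p ω ≠ 0 → p ω' ≠ 0 → X ω' = X ω → φ ω ω' ≤ ψ ω') :
    ∑ ω, p ω * k3mCav p X (φ ω) ω ≤ ∑ ω, p ω * ψ ω := by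
  rw [← k3m_inv hp X ψ]
  refine Finset.sum_le_sum fun ω _ => ?_
  by_cases h0 : p ω = 0
  · rw [h0, zero_mul, zero_mul]
  · exact mul_le_mul_of_nonneg_left (k3mCav_mono hp X ω fun ω' h1 h2 => h ω ω' h0 h1 h2) (hp.nonneg ω)

theorem k3m_inv_ge (hp : K3mLaw p) (X : Ω → S) (φ : Ω → Ω → ℝ) (ψ : Ω → ℝ)
    (h : ∀ ω ω', p ω ≠ 0 → p ω' ≠ 0 → X ω' = X ω → ψ ω' ≤ φ ω ω') :
    ∑ ω, p ω * ψ ω ≤ ∑ ω, p ω * k3mCav p X (φ ω) ω := by
  rw [← k3m_inv hp X ψ]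
  refine Finset.sum_le_sum fun ω _ => ?_
  by_cases h0 : p ω = 0
  · rw [h0, zero_mul, zero_mul]
  · exact mul_le_mul_of_nonneg_left (k3mCav_mono hp X ω fun ω' h1 h2 => h ω ω' h0 h1 h2) (hp.nonneg ω)

/-- group a sum by the value of a label -/
theorem k3m_group_aux {SZ : Type} [DecidableEq SZ] (p : Ω → ℝ) (A : Set Ω) (Z : Ω → SZ) (T : Finset SZ) (hT : ∀ ω, Z ω ∈ T) (Ψ : SZ → ℝ) :
    ∑ ω, A.indicator (fun ω => p ω * Ψ (Z ω)) ω = ∑ z ∈ T, Ψ z * k3mP p {ω | ω ∈ A ∧ Z ω = z} := by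
  unfold k3mP
  simp only [Finset.mul_sum]
  rw [Finset.sum_comm]
  refine Finset.sum_congr rfl fun ω _ => ?_
  have e : ∀ z, Ψ z * ({ω | ω ∈ A ∧ Z ω = z} : Set Ω).indicator p ω = if Z ω = z then A.indicator (fun ω => p ω * Ψ (Z ω)) ω else 0 := by
    intro z
    by_cases h1 : Z ω = z
    · rw [if_pos h1]
      by_cases h2 : ω ∈ A
      · rw [Set.indicator_of_mem h2, Set.indicator_of_mem (show ω ∈ {ω | ω ∈ A ∧ Z ω = z} from ⟨h2, h1⟩), h1, mul_comm]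
      · rw [Set.indicator_of_notMem h2, Set.indicator_of_notMem (fun hh : ω ∈ {ω | ω ∈ A ∧ Z ω = z} => h2 hh.1), mul_zero]
    · rw [if_neg h1, Set.indicator_of_notMem (fun hh : ω ∈ {ω | ω ∈ A ∧ Z ω = z} => h1 hh.2), mul_zero]
  simp only [e]
  rw [Finset.sum_ite_eq, if_pos (hT ω)]

/-- **domination of the time**: if, given `X = X ω`, every time cell has conditional probability `≤ κ`, then the average of a function of the time
is at most `κ` times its sum -/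
theorem k3m_dom_time (hp : K3mLaw p) (X : Ω → S) (tc : Ω → ℕ) (Tn : ℕ) (htc : ∀ ω, tc ω < Tn) {κ : ℝ} (hκ : 0 ≤ κ) (ω : Ω)
    (hd : ∀ c, k3mP p {ω' | X ω' = X ω ∧ tc ω' = c} ≤ κ * k3mP p {ω' | X ω' = X ω})
    (Ψ : ℕ → ℝ) (hΨ : ∀ c, 0 ≤ Ψ c) :
    k3mCav p X (fun ω' => Ψ (tc ω')) ω ≤ κ * ∑ c ∈ range Tn, Ψ c := by
  have hS : 0 ≤ κ * ∑ c ∈ range Tn, Ψ c := mul_nonneg hκ (Finset.sum_nonneg fun c _ => hΨ c)
  by_cases h0 : k3mP p {ω' | X ω' = X ω} = 0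
  · unfold k3mCav k3mCv
    rw [h0, div_zero]
    exact hS
  · have hD : 0 < k3mP p {ω' | X ω' = X ω} := lt_of_le_of_ne (k3mP_nonneg hp _) (Ne.symm h0)
    unfold k3mCav k3mCv
    rw [div_le_iff₀ hD, k3m_group_aux p {ω' | X ω' = X ω} tc (range Tn) (fun ω' => Finset.mem_range.2 (htc ω')) Ψ, mul_assoc,
      Finset.sum_mul, Finset.mul_sum]
    refine Finset.sum_le_sum fun c _ => ?_
    calc Ψ c * k3mP p {ω' | ω' ∈ {ω' | X ω' = X ω} ∧ tc ω' = c} ≤ Ψ c * (κ * k3mP p {ω' | X ω' = X ω}) :=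
          mul_le_mul_of_nonneg_left (hd c) (hΨ c)
      _ = κ * (Ψ c * k3mP p {ω' | X ω' = X ω}) := by ring

/-- **domination of the palette**: off the bad set the fine conditional law of `Z` is `≤ Γ` times the coarse one -/
theorem k3m_dom_pal {SG SF SZ : Type} (hp : K3mLaw p) (G : Ω → SG) (Fc : Ω → SF) (Z : Ω → SZ)
    (hGF : ∀ ω ω', G ω = G ω' → Fc ω = Fc ω') {Γ : ℝ} (hΓ : 0 ≤ Γ) (Bad : Set Ω)
    (hpal : ∀ ω, ω ∉ Bad → p ω ≠ 0 → k3mX p G Z ω ≤ Γ * k3mX p Fc Z ω)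
    (Ψ : SZ → ℝ) (hΨ : ∀ z, 0 ≤ Ψ z) (ω1 : Ω) :
    k3mCav p G (fun ω' => k3mI (ω' ∉ Bad) * Ψ (Z ω')) ω1 ≤ Γ * k3mCav p Fc (fun ω' => Ψ (Z ω')) ω1 := by
  classical
  have hR : 0 ≤ Γ * k3mCav p Fc (fun ω' => Ψ (Z ω')) ω1 := mul_nonneg hΓ (k3mCav_nonneg hp Fc (fun ω' _ => hΨ _) ω1)
  by_cases h0 : k3mP p {ω' | G ω' = G ω1} = 0
  · unfold k3mCav k3mCv at hR ⊢
    rw [h0, div_zero]
    exact hR
  · have hD : 0 < k3mP p {ω' | G ω' = G ω1} := lt_of_le_of_ne (k3mP_nonneg hp _) (Ne.symm h0)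
    have e1 : ∑ ω', ({ω' | G ω' = G ω1} : Set Ω).indicator (fun ω' => p ω' * (k3mI (ω' ∉ Bad) * Ψ (Z ω'))) ω'
        = ∑ ω', ({ω' | G ω' = G ω1 ∧ ω' ∉ Bad} : Set Ω).indicator (fun ω' => p ω' * Ψ (Z ω')) ω' := by
      refine Finset.sum_congr rfl fun ω' _ => ?_
      by_cases h1 : G ω' = G ω1
      · by_cases h2 : ω' ∈ Bad
        · rw [Set.indicator_of_mem (show ω' ∈ {ω' | G ω' = G ω1} from h1),
            Set.indicator_of_notMem (fun hh : ω' ∈ {ω' | G ω' = G ω1 ∧ ω' ∉ Bad} => hh.2 h2), k3mI_false (not_not.2 h2), zero_mul, mul_zero]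
        · rw [Set.indicator_of_mem (show ω' ∈ {ω' | G ω' = G ω1} from h1),
            Set.indicator_of_mem (show ω' ∈ {ω' | G ω' = G ω1 ∧ ω' ∉ Bad} from ⟨h1, h2⟩), k3mI_true h2, one_mul]
      · rw [Set.indicator_of_notMem (fun hh : ω' ∈ {ω' | G ω' = G ω1} => h1 hh),
          Set.indicator_of_notMem (fun hh : ω' ∈ {ω' | G ω' = G ω1 ∧ ω' ∉ Bad} => h1 hh.1)]
    unfold k3mCav k3mCv
    rw [e1, div_le_iff₀ hD,
      k3m_group_aux p {ω' | G ω' = G ω1 ∧ ω' ∉ Bad} Z (Finset.univ.image Z) (fun ω' => Finset.mem_image_of_mem Z (Finset.mem_univ _)) Ψ,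
      k3m_group_aux p {ω' | Fc ω' = Fc ω1} Z (Finset.univ.image Z) (fun ω' => Finset.mem_image_of_mem Z (Finset.mem_univ _)) Ψ,
      Finset.sum_div, Finset.mul_sum, Finset.sum_mul]
    refine Finset.sum_le_sum fun z _ => ?_
    have hz : k3mP p {ω' | ω' ∈ {ω' | G ω' = G ω1 ∧ ω' ∉ Bad} ∧ Z ω' = z}
        ≤ Γ * (k3mP p {ω' | ω' ∈ {ω' | Fc ω' = Fc ω1} ∧ Z ω' = z} / k3mP p {ω' | Fc ω' = Fc ω1}) * k3mP p {ω' | G ω' = G ω1} := by
      by_cases hex : ∃ ω', (G ω' = G ω1 ∧ ω' ∉ Bad) ∧ Z ω' = z ∧ p ω' ≠ 0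
      · obtain ⟨ω', ⟨hG, hB⟩, hZ, hp0⟩ := hex
        have h1 := hpal ω' hB hp0
        unfold k3mX at h1
        rw [hG, hZ, hGF _ _ hG, div_le_iff₀ hD] at h1
        refine le_trans (k3mP_mono hp fun x hx => ?_) h1
        exact ⟨hx.1.1, hx.2⟩
      · have h1 : k3mP p {ω' | ω' ∈ {ω' | G ω' = G ω1 ∧ ω' ∉ Bad} ∧ Z ω' = z} ≤ k3mP p ∅ :=
          k3mP_mono_supp hp fun x hx hx0 => (hex ⟨x, hx.1, hx.2, hx0⟩).elim
        rw [k3mP_empty] at h1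
        refine h1.trans ?_
        exact mul_nonneg (mul_nonneg hΓ (div_nonneg (k3mP_nonneg hp _) (k3mP_nonneg hp _))) hD.le
    calc Ψ z * k3mP p {ω' | ω' ∈ {ω' | G ω' = G ω1 ∧ ω' ∉ Bad} ∧ Z ω' = z}
        ≤ Ψ z * (Γ * (k3mP p {ω' | ω' ∈ {ω' | Fc ω' = Fc ω1} ∧ Z ω' = z} / k3mP p {ω' | Fc ω' = Fc ω1}) * k3mP p {ω' | G ω' = G ω1}) :=
          mul_le_mul_of_nonneg_left hz (hΨ z)
      _ = Γ * (Ψ z * k3mP p {ω' | ω' ∈ {ω' | Fc ω' = Fc ω1} ∧ Z ω' = z} / k3mP p {ω' | Fc ω' = Fc ω1}) * k3mP p {ω' | G ω' = G ω1} := by ring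

end cav

end

end Claimed.Agent.R252

end PkS3mProb

section PkS3mExpo

/-!
# ROW 252, unit S3m (L3.3 two-colour matching, architect helper93), file Expo.     CONTRACT file: the `sorry`s are the leaves L-252-K3M-E*.

THE EXPONENT CALCULUS (03 l.323-392), on a GRID: paper-free real arithmetic, Mathlib only.
`β j` (`1 ≤ j ≤ J`) = exponent of the `j`-th derivative gap, `β 0 = 1`.  Levels `k = 0..n`, value scale `N^(-a k)`, `a k = k/n` (step `b = 1/n`).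
* `k3mR J β x = max_{1 ≤ j ≤ J} (x - β j)/j`                : time radius exponent `r(x)`;
* `k3mL J n β j k = max_{k' ≤ k} (a k' - j r(a k'))`          : accuracy exponent `l_j` of the `j`-th derivative at level `k` (maximum over GRID levels only);
* `K3mUs J n β q C k m` : the step `k` is usable with active order `m`: `r` is the `m`-th line on all levels of `[k - q, k + C]`.
-/

set_option autoImplicit false

namespace Claimed.Agent.R252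

open scoped BigOperators
open Finset

noncomputable section

/-- `r(x) = max_{1 ≤ j ≤ J} (x - β j)/j` -/
def k3mR (J : ℕ) (β : ℕ → ℝ) (x : ℝ) : ℝ := (Finset.Icc 1 J).fold max (x - β 1) (fun j : ℕ => (x - β j) / j)

/-- the level `a k = k/n` -/
def k3mA (n k : ℕ) : ℝ := (k : ℝ) / n

/-- `l_j(k) = max_{k' ≤ k} (a k' - j r(a k'))` -/
def k3mL (J n : ℕ) (β : ℕ → ℝ) (j k : ℕ) : ℝ :=
  (Finset.range (k + 1)).fold max (-(j : ℝ) * k3mR J β 0) (fun k' : ℕ => k3mA n k' - j * k3mR J β (k3mA n k'))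

/-- admissible exponents -/
structure K3mBeta (D J : ℕ) (β : ℕ → ℝ) : Prop where
  hD : 1 ≤ D
  hJ : D < J
  b0 : β 0 = 1
  nonneg : ∀ j, 0 ≤ β j
  zero : ∃ j, 1 ≤ j ∧ j ≤ D ∧ β j = 0

/-- usable step -/
def K3mUs (J n : ℕ) (β : ℕ → ℝ) (q C k m : ℕ) : Prop :=
  1 ≤ m ∧ m ≤ J ∧ q ≤ k ∧ k + C ≤ n ∧ ∀ k', k - q ≤ k' → k' ≤ k + C → k3mR J β (k3mA n k') = (k3mA n k' - β m) / m

theorem k3m_expo_eqns_cite : True := by
  have := @k3mR.eq_1
  have := @k3mA.eq_1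
  have := @k3mL.eq_1
  have := @K3mUs.eq_1
  trivial

variable {D J n : ℕ} {β : ℕ → ℝ}

/-! ## 1. `r`      (leaf L-252-K3M-E1)     tools: `Finset.le_fold_max`, `Finset.fold_max_le` -/

theorem k3mR_ge (β : ℕ → ℝ) (x : ℝ) {j : ℕ} (h1 : 1 ≤ j) (h2 : j ≤ J) : (x - β j) / j ≤ k3mR J β x := by
  unfold k3mR
  exact (Finset.le_fold_max _).2 (Or.inr ⟨j, Finset.mem_Icc.2 ⟨h1, h2⟩, le_rfl⟩)

theorem k3mR_exists (hJ : 1 ≤ J) (β : ℕ → ℝ) (x : ℝ) : ∃ j, 1 ≤ j ∧ j ≤ J ∧ k3mR J β x = (x - β j) / j := by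
  have h : k3mR J β x ≤ x - β 1 ∨ ∃ j ∈ Finset.Icc 1 J, k3mR J β x ≤ (x - β j) / j := by
    have := (Finset.le_fold_max (s := Finset.Icc 1 J) (b := x - β 1)
      (f := fun j : ℕ => (x - β j) / j) (k3mR J β x)).1 le_rfl
    exact this
  rcases h with h | ⟨j, hj, h⟩
  · refine ⟨1, le_rfl, hJ, le_antisymm ?_ (k3mR_ge β x le_rfl hJ)⟩
    simpa using h
  · rw [Finset.mem_Icc] at hj
    exact ⟨j, hj.1, hj.2, le_antisymm h (k3mR_ge β x hj.1 hj.2)⟩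

theorem k3mR_zero (h : K3mBeta D J β) : k3mR J β 0 = 0 := by
  apply le_antisymm
  · unfold k3mR
    rw [Finset.fold_max_le]
    refine ⟨by linarith [h.nonneg 1], fun j _ => ?_⟩
    exact div_nonpos_of_nonpos_of_nonneg (by linarith [h.nonneg j]) (Nat.cast_nonneg _)
  · obtain ⟨j, h1, h2, h3⟩ := h.zero
    have := k3mR_ge (J := J) β 0 h1 (le_trans h2 h.hJ.le)
    rw [h3] at this
    simpa using this

theorem k3mR_sub_le (hJ : 1 ≤ J) (β : ℕ → ℝ) {x y : ℝ} (hxy : x ≤ y) : k3mR J β y - k3mR J β x ≤ y - x := by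
  obtain ⟨j, h1, h2, h3⟩ := k3mR_exists hJ β y
  have h4 := k3mR_ge (J := J) β x h1 h2
  have hj : (1 : ℝ) ≤ j := by exact_mod_cast h1
  have h5 : (y - β j) / j - (x - β j) / j = (y - x) / j := by ring
  have h6 : (y - x) / j ≤ y - x := div_le_self (by linarith) hj
  linarith

theorem k3mR_sub_ge (hJ : 1 ≤ J) (β : ℕ → ℝ) {x y : ℝ} (hxy : x ≤ y) : (y - x) / J ≤ k3mR J β y - k3mR J β x := by
  obtain ⟨j, h1, h2, h3⟩ := k3mR_exists hJ β x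
  have h4 := k3mR_ge (J := J) β y h1 h2
  have hj : (0 : ℝ) < j := by exact_mod_cast h1
  have hjJ : (j : ℝ) ≤ J := by exact_mod_cast h2
  have h5 : (y - β j) / j - (x - β j) / j = (y - x) / j := by ring
  have h6 : (y - x) / J ≤ (y - x) / j := div_le_div_of_nonneg_left (by linarith) hj hjJ
  linarith

theorem k3mR_mono (hJ : 1 ≤ J) (β : ℕ → ℝ) {x y : ℝ} (hxy : x ≤ y) : k3mR J β x ≤ k3mR J β y := by
  have h1 := k3mR_sub_ge hJ β hxy
  have h2 : 0 ≤ (y - x) / J := div_nonneg (by linarith) (Nat.cast_nonneg _)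
  linarith

theorem k3mR_ge_div (h : K3mBeta D J β) {x : ℝ} (hx : 0 ≤ x) : x / D ≤ k3mR J β x := by
  obtain ⟨j, h1, h2, h3⟩ := h.zero
  have h4 := k3mR_ge (J := J) β x h1 (le_trans h2 h.hJ.le)
  rw [h3, sub_zero] at h4
  have hj : (0 : ℝ) < j := by exact_mod_cast h1
  have hjD : (j : ℝ) ≤ D := by exact_mod_cast h2
  exact le_trans (div_le_div_of_nonneg_left hx hj hjD) h4

theorem k3mR_le_self (h : K3mBeta D J β) {x : ℝ} (hx : 0 ≤ x) : k3mR J β x ≤ x := by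
  unfold k3mR
  rw [Finset.fold_max_le]
  refine ⟨by linarith [h.nonneg 1], fun j hj => ?_⟩
  rw [Finset.mem_Icc] at hj
  have hj1 : (1 : ℝ) ≤ j := by exact_mod_cast hj.1
  have h1 : (x - β j) / j ≤ x / j :=
    div_le_div_of_nonneg_right (by linarith [h.nonneg j]) (by linarith)
  exact le_trans h1 (div_le_self hx hj1)

theorem k3mR_nonneg (h : K3mBeta D J β) {x : ℝ} (hx : 0 ≤ x) : 0 ≤ k3mR J β x :=
  le_trans (div_nonneg hx (Nat.cast_nonneg _)) (k3mR_ge_div h hx)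

/-- the set where the `m`-th line is active is an interval (each line is affine, `r` is their maximum) -/
theorem k3mR_between (hJ : 1 ≤ J) (β : ℕ → ℝ) {m : ℕ} (hm : 1 ≤ m) {x1 x x2 : ℝ} (h1 : x1 ≤ x) (h2 : x ≤ x2)
    (e1 : k3mR J β x1 = (x1 - β m) / m) (e2 : k3mR J β x2 = (x2 - β m) / m) (hmJ : m ≤ J) : k3mR J β x = (x - β m) / m := by
  refine le_antisymm ?_ (k3mR_ge β x hm hmJ)
  obtain ⟨j, j1, j2, j3⟩ := k3mR_exists hJ β x
  rw [j3]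
  have a1 := k3mR_ge (J := J) β x1 j1 j2
  have a2 := k3mR_ge (J := J) β x2 j1 j2
  rw [e1] at a1
  rw [e2] at a2
  rw [div_eq_mul_one_div] at a1 a2 ⊢
  rw [div_eq_mul_one_div _ (m : ℝ)] at a1 a2 ⊢
  generalize (1 : ℝ) / j = a at *
  generalize (1 : ℝ) / m = b at *
  rcases le_total a b with hab | hab
  · nlinarith [mul_nonneg (sub_nonneg.2 h1) (sub_nonneg.2 hab)]
  · nlinarith [mul_nonneg (sub_nonneg.2 h2) (sub_nonneg.2 hab)]

/-! ## 2. `l`      (leaf L-252-K3M-E2) -/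

theorem k3mA_nonneg (n k : ℕ) : 0 ≤ k3mA n k := by
  exact div_nonneg (Nat.cast_nonneg _) (Nat.cast_nonneg _)

theorem k3mA_mono (n : ℕ) {k k' : ℕ} (h : k ≤ k') : k3mA n k ≤ k3mA n k' := by
  exact div_le_div_of_nonneg_right (Nat.cast_le.2 h) (Nat.cast_nonneg _)

theorem k3mA_le_one {n k : ℕ} (h : k ≤ n) : k3mA n k ≤ 1 := by
  exact div_le_one_of_le₀ (Nat.cast_le.2 h) (Nat.cast_nonneg _)

theorem k3mA_add (n k i : ℕ) : k3mA n (k + i) = k3mA n k + (i : ℝ) / n := by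
  unfold k3mA
  rw [Nat.cast_add, add_div]

theorem k3mL_ge (J n : ℕ) (β : ℕ → ℝ) (j : ℕ) {k' k : ℕ} (h : k' ≤ k) : k3mA n k' - j * k3mR J β (k3mA n k') ≤ k3mL J n β j k := by
  unfold k3mL
  rw [Finset.le_fold_max]
  exact Or.inr ⟨k', Finset.mem_range.2 (Nat.lt_succ_of_le h), le_rfl⟩

theorem k3m_e2_fold_max_mem {ι : Type} (s : Finset ι) (b : ℝ) (f : ι → ℝ) : s.fold max b f = b ∨ ∃ x ∈ s, s.fold max b f = f x := by
  classical
  induction s using Finset.induction_on with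
  | empty =>
    left
    simp
  | insert a s ha ih =>
    rw [Finset.fold_insert ha]
    rcases le_total (f a) (s.fold max b f) with h | h
    · rw [max_eq_right h]
      rcases ih with ih | ⟨x, hx, ih⟩
      · exact Or.inl ih
      · exact Or.inr ⟨x, Finset.mem_insert_of_mem hx, ih⟩
    · rw [max_eq_left h]
      exact Or.inr ⟨a, Finset.mem_insert_self _ _, rfl⟩

theorem k3m_e2_A_zero (n : ℕ) : k3mA n 0 = 0 := by
  simp [k3mA]

theorem k3mL_exists (J n : ℕ) (β : ℕ → ℝ) (j k : ℕ) : ∃ k', k' ≤ k ∧ k3mL J n β j k = k3mA n k' - j * k3mR J β (k3mA n k') := by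
  rcases k3m_e2_fold_max_mem (Finset.range (k + 1)) (-(j : ℝ) * k3mR J β 0)
    (fun k' : ℕ => k3mA n k' - j * k3mR J β (k3mA n k')) with h | ⟨x, hx, h⟩
  · refine ⟨0, Nat.zero_le _, ?_⟩
    unfold k3mL
    rw [h, k3m_e2_A_zero]
    ring
  · exact ⟨x, Nat.lt_succ_iff.1 (Finset.mem_range.1 hx), h⟩

theorem k3mL_mono (J n : ℕ) (β : ℕ → ℝ) (j : ℕ) {k k' : ℕ} (h : k ≤ k') : k3mL J n β j k ≤ k3mL J n β j k' := by
  obtain ⟨k'', h1, h2⟩ := k3mL_exists J n β j k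
  rw [h2]
  exact k3mL_ge J n β j (h1.trans h)

theorem k3mL_order_zero (J n : ℕ) (β : ℕ → ℝ) (k : ℕ) : k3mL J n β 0 k = k3mA n k := by
  apply le_antisymm
  · obtain ⟨k', h1, h2⟩ := k3mL_exists J n β 0 k
    rw [h2]
    have := k3mA_mono n h1
    simpa using this
  · have := k3mL_ge J n β 0 (le_refl k)
    simpa using this

theorem k3mL_nonneg (h : K3mBeta D J β) (n j k : ℕ) : 0 ≤ k3mL J n β j k := by
  have h1 := k3mL_ge J n β j (Nat.zero_le k)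
  rw [k3m_e2_A_zero, k3mR_zero h] at h1
  simpa using h1

/-- `l_j ≤ β_j` (for `j = 0`: `a k ≤ 1 = β 0`) -/
theorem k3mL_le_beta (h : K3mBeta D J β) {n j k : ℕ} (hj : j ≤ J) (hk : k ≤ n) : k3mL J n β j k ≤ β j := by
  rcases Nat.eq_zero_or_pos j with rfl | hj0
  · rw [k3mL_order_zero, h.b0]
    exact k3mA_le_one hk
  · obtain ⟨k', h1, h2⟩ := k3mL_exists J n β j k
    rw [h2]
    have h3 := k3mR_ge (J := J) β (k3mA n k') hj0 hj
    have hjp : (0 : ℝ) < j := Nat.cast_pos.2 hj0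
    rw [div_le_iff₀ hjp] at h3
    linarith

/-- (a02:translation-exponents): evaluate `l_{j+i}` at the maximiser of `l_j`; `r` is monotone -/
theorem k3mL_shift (h : K3mBeta D J β) (n j i k : ℕ) : k3mL J n β j k ≤ k3mL J n β (j + i) k + i * k3mR J β (k3mA n k) := by
  have hJ : 1 ≤ J := h.hD.trans h.hJ.le
  obtain ⟨k', h1, h2⟩ := k3mL_exists J n β j k
  have h3 := k3mL_ge J n β (j + i) h1
  have h4 := k3mR_mono hJ β (k3mA_mono n h1)
  have h5 : (i : ℝ) * k3mR J β (k3mA n k') ≤ i * k3mR J β (k3mA n k) := mul_le_mul_of_nonneg_left h4 (Nat.cast_nonneg _)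
  rw [h2]
  push_cast at h3
  linarith

/-- (a02:remainder-gap), quantitative.  With `x = a k'` the maximiser: `(J+1-j) r(a) - l_j = (J+1-j)(r(a) - r(x)) + (J+1) r(x) - x ≥ (a - x)/J + x (J+1-D)/D ≥ a/J`. -/
theorem k3mL_rem (h : K3mBeta D J β) (n : ℕ) {j : ℕ} (hj : j ≤ J) (k : ℕ) :
    k3mL J n β j k + k3mA n k / J ≤ ((J : ℝ) + 1 - j) * k3mR J β (k3mA n k) := by
  have hJ : 1 ≤ J := h.hD.trans h.hJ.le
  obtain ⟨k', h1, h2⟩ := k3mL_exists J n β j k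
  have hxa : k3mA n k' ≤ k3mA n k := k3mA_mono n h1
  have hx0 : 0 ≤ k3mA n k' := k3mA_nonneg n k'
  have h3 := k3mR_sub_ge hJ β hxa
  have h4 := k3mR_ge_div h hx0
  rw [h2]
  generalize k3mR J β (k3mA n k') = Rx at *
  generalize k3mR J β (k3mA n k) = Ra at *
  generalize k3mA n k' = x at *
  generalize k3mA n k = a at *
  have hJp : (0 : ℝ) < J := Nat.cast_pos.2 hJ
  have hDp : (0 : ℝ) < D := Nat.cast_pos.2 h.hD
  have hDJ : (D : ℝ) ≤ J := Nat.cast_le.2 h.hJ.le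
  have hj' : (1 : ℝ) ≤ (J : ℝ) + 1 - j := by
    have : (j : ℝ) ≤ J := Nat.cast_le.2 hj
    linarith
  have h5 : 0 ≤ (a - x) / J := div_nonneg (sub_nonneg.2 hxa) hJp.le
  have h6 : (a - x) / J ≤ ((J : ℝ) + 1 - j) * (Ra - Rx) := by
    have h7 : 0 ≤ Ra - Rx := h5.trans h3
    nlinarith
  have h8 : x / J ≤ Rx := (div_le_div_of_nonneg_left hx0 hDp hDJ).trans h4
  have h9 : x + x / J = ((J : ℝ) + 1) * (x / J) := by
    field_simp
  have h10 : ((J : ℝ) + 1) * (x / J) ≤ ((J : ℝ) + 1) * Rx := mul_le_mul_of_nonneg_left h8 (by linarith)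
  have h11 : a / J = (a - x) / J + x / J := by ring
  nlinarith

/-! ## 3. usable steps      (leaf L-252-K3M-E3) -/

variable {q C k m : ℕ}

/-- (a02:active-piece), `j ≤ m`: for `x ≤ a`: `r(a) - r(x) ≤ (a - x)/m` because `r(a)` is the `m`-th line and `r(x)` is above it -/
theorem K3mUs.l_low (h : K3mBeta D J β) (hn : 1 ≤ n) (hu : K3mUs J n β q C k m) {j k' : ℕ} (hj : j ≤ m) (h1 : k - q ≤ k') (h2 : k' ≤ k + C) :
    k3mL J n β j k' = k3mA n k' - j * k3mR J β (k3mA n k') := by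
  obtain ⟨hm1, hmJ, hqk, hkn, hact⟩ := hu
  apply le_antisymm
  · obtain ⟨k'', g1, g2⟩ := k3mL_exists J n β j k'
    rw [g2]
    have hxa := k3mA_mono n g1
    have hRa := hact k' h1 h2
    have hRx := k3mR_ge (J := J) β (k3mA n k'') hm1 hmJ
    have hmp : (0 : ℝ) < m := Nat.cast_pos.2 hm1
    have h3 : k3mR J β (k3mA n k') - k3mR J β (k3mA n k'') ≤ (k3mA n k' - k3mA n k'') / m := by
      rw [hRa]
      have : (k3mA n k' - β m) / m - (k3mA n k'' - β m) / m = (k3mA n k' - k3mA n k'') / m := by ring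
      linarith
    have h4 : (j : ℝ) * ((k3mA n k' - k3mA n k'') / m) ≤ k3mA n k' - k3mA n k'' := by
      have hjm : (j : ℝ) ≤ m := Nat.cast_le.2 hj
      rw [← mul_div_assoc, div_le_iff₀ hmp, mul_comm]
      exact mul_le_mul_of_nonneg_left hjm (sub_nonneg.2 hxa)
    have h5 := mul_le_mul_of_nonneg_left h3 (Nat.cast_nonneg (α := ℝ) j)
    linarith
  · exact k3mL_ge J n β j le_rfl

theorem K3mUs.l_m (h : K3mBeta D J β) (hn : 1 ≤ n) (hu : K3mUs J n β q C k m) {k' : ℕ} (h1 : k - q ≤ k') (h2 : k' ≤ k + C) :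
    k3mL J n β m k' = β m := by
  have hmp : (m : ℝ) ≠ 0 := Nat.cast_ne_zero.2 (by have := hu.1; omega)
  rw [hu.l_low h hn le_rfl h1 h2, hu.2.2.2.2 k' h1 h2, mul_div_cancel₀ _ hmp]
  ring

theorem K3mUs.m_mul_r (hu : K3mUs J n β q C k m) {k' : ℕ} (h1 : k - q ≤ k') (h2 : k' ≤ k + C) :
    (m : ℝ) * k3mR J β (k3mA n k') = k3mA n k' - β m := by
  have hmp : (m : ℝ) ≠ 0 := Nat.cast_ne_zero.2 (by have := hu.1; omega)
  rw [hu.2.2.2.2 k' h1 h2, mul_div_cancel₀ _ hmp]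

/-- the strict gap of the higher orders: evaluate `l_{m+i}` at the level `k' - q` -/
theorem K3mUs.l_high (h : K3mBeta D J β) (hn : 1 ≤ n) (hu : K3mUs J n β q C k m) {i k' : ℕ} (h1 : k ≤ k') (h2 : k' ≤ k + C) :
    β m + ((q : ℝ) / n) * ((i : ℝ) / m) ≤ k3mL J n β (m + i) k' + i * k3mR J β (k3mA n k') := by
  obtain ⟨hm1, hmJ, hqk, hkn, hact⟩ := hu
  have hmp : (m : ℝ) ≠ 0 := Nat.cast_ne_zero.2 (by omega)
  have hnp : (n : ℝ) ≠ 0 := Nat.cast_ne_zero.2 (by omega)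
  have g1 := k3mL_ge J n β (m + i) (Nat.sub_le k' q)
  have hx := hact (k' - q) (by omega) (by omega)
  have ha := hact k' (by omega) h2
  have hax : k3mA n k' = k3mA n (k' - q) + (q : ℝ) / n := by
    rw [← k3mA_add]
    congr 1
    omega
  rw [hx] at g1
  rw [ha, hax]
  push_cast at g1
  generalize k3mA n (k' - q) = x at *
  have e : x - ((m : ℝ) + i) * ((x - β m) / m) + i * ((x + (q : ℝ) / n - β m) / m) = β m + (q : ℝ) / n * ((i : ℝ) / m) := by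
    field_simp
    ring
  linarith

theorem K3mUs.beta_le_one (h : K3mBeta D J β) (hn : 1 ≤ n) (hu : K3mUs J n β q C k m) : β m ≤ 1 := by
  obtain ⟨hm1, hmJ, hqk, hkn, hact⟩ := hu
  have h1 := hact k (Nat.sub_le _ _) (Nat.le_add_right _ _)
  have h2 := k3mR_nonneg h (k3mA_nonneg n k)
  rw [h1] at h2
  have hmp : (0 : ℝ) < m := Nat.cast_pos.2 hm1
  have h3 : 0 ≤ k3mA n k - β m := by
    by_contra hneg
    push Not at hneg
    exact absurd h2 (not_le.2 (div_neg_of_neg_of_pos hneg hmp))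
  have h4 := k3mA_le_one (show k ≤ n by omega)
  linarith

theorem K3mUs.r_step (hn : 1 ≤ n) (hC : 1 ≤ C) (hu : K3mUs J n β q C k m) :
    k3mR J β (k3mA n (k + 1)) - k3mR J β (k3mA n k) = 1 / ((n : ℝ) * m) := by
  obtain ⟨hm1, hmJ, hqk, hkn, hact⟩ := hu
  rw [hact (k + 1) (by omega) (by omega), hact k (by omega) (by omega), k3mA_add, ← div_div]
  push_cast
  ring

/-- fine level: `l_j (k + C) + j r(a k) = a k + (C/n)(1 - j/m)` for `j ≤ m` -/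
theorem K3mUs.l_fine (h : K3mBeta D J β) (hn : 1 ≤ n) (hu : K3mUs J n β q C k m) {j : ℕ} (hj : j ≤ m) :
    k3mL J n β j (k + C) + j * k3mR J β (k3mA n k) = k3mA n k + ((C : ℝ) / n) * (1 - (j : ℝ) / m) := by
  have hmp : (m : ℝ) ≠ 0 := Nat.cast_ne_zero.2 (by have := hu.1; omega)
  rw [hu.l_low h hn hj (by omega) le_rfl, hu.2.2.2.2 (k + C) (by omega) le_rfl, hu.2.2.2.2 k (by omega) (by omega), k3mA_add]
  field_simp
  ring

/-! ## 4. counting and summation      (leaf L-252-K3M-E4) -/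

/-- all but `(J + 1)(q + C)` steps are usable.
PROOF. `k < q` : `q` steps; `k + C > n` : `< C` steps.  Otherwise let `m` be active at the level `k - q` (`k3mR_exists`) and `e m` the LAST level `≤ n` where the `m`-th line is active.
By `k3mR_between` it is active on all levels of `[k - q, e m]`; if `k` is not usable then `k - q ≤ e m < k + C`: at most `q + C` values of `k` for each `m ≤ J`. -/
theorem k3m_unusable_card (h : K3mBeta D J β) (hn : 1 ≤ n) (q C : ℕ) :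
    ({k | k < n ∧ ¬ ∃ m, K3mUs J n β q C k m} : Set ℕ).ncard ≤ (J + 1) * (q + C) := by
  classical
  have hJ : 1 ≤ J := h.hD.trans h.hJ.le
  obtain ⟨Act, hAct⟩ : ∃ Act : ℕ → Finset ℕ, Act = fun m =>
      (Finset.range (n + 1)).filter (fun l => k3mR J β (k3mA n l) = (k3mA n l - β m) / m) := ⟨_, rfl⟩
  obtain ⟨e, he⟩ : ∃ e : ℕ → ℕ, e = fun m => (Act m).sup id := ⟨_, rfl⟩
  have hsub : ({k | k < n ∧ ¬ ∃ m, K3mUs J n β q C k m} : Set ℕ) ⊆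
      ((Finset.range q ∪ Finset.Ico (n + 1 - C) n ∪ (Finset.Icc 1 J).biUnion (fun m => Finset.Icc (e m + 1 - C) (e m + q)) : Finset ℕ) : Set ℕ) := by
    rintro k ⟨hkn, hk⟩
    rw [Finset.mem_coe, Finset.mem_union, Finset.mem_union]
    by_cases h1 : k < q
    · exact Or.inl (Or.inl (Finset.mem_range.2 h1))
    by_cases h2 : n < k + C
    · exact Or.inl (Or.inr (Finset.mem_Ico.2 ⟨by omega, hkn⟩))
    right
    push Not at h1 h2
    obtain ⟨m, hm1, hmJ, hm⟩ := k3mR_exists hJ β (k3mA n (k - q))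
    have hmem : k - q ∈ Act m := by
      rw [hAct]
      exact Finset.mem_filter.2 ⟨Finset.mem_range.2 (by omega), hm⟩
    have hle : k - q ≤ e m := by
      rw [he]
      exact Finset.le_sup (f := id) hmem
    obtain ⟨l, hl, hle'⟩ := Finset.exists_mem_eq_sup (Act m) ⟨_, hmem⟩ id
    have hel : e m = l := by
      rw [he]
      exact hle'
    rw [hAct] at hl
    have hl' := Finset.mem_filter.1 hl
    refine Finset.mem_biUnion.2 ⟨m, Finset.mem_Icc.2 ⟨hm1, hmJ⟩, Finset.mem_Icc.2 ⟨?_, by omega⟩⟩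
    by_contra hcon
    apply hk
    refine ⟨m, hm1, hmJ, h1, h2, fun k' g1 g2 => ?_⟩
    exact k3mR_between hJ β hm1 (k3mA_mono n g1) (k3mA_mono n (show k' ≤ l by omega)) hm hl'.2 hmJ
  refine (Set.ncard_le_ncard hsub (Finset.finite_toSet _)).trans ?_
  rw [Set.ncard_coe_finset]
  have c1 : ((Finset.Icc 1 J).biUnion (fun m => Finset.Icc (e m + 1 - C) (e m + q))).card ≤ J * (q + C) := by
    refine Finset.card_biUnion_le.trans ?_
    calc ∑ m ∈ Finset.Icc 1 J, (Finset.Icc (e m + 1 - C) (e m + q)).card ≤ ∑ _m ∈ Finset.Icc 1 J, (q + C) := by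
          refine Finset.sum_le_sum fun m _ => ?_
          rw [Nat.card_Icc]
          omega
      _ = J * (q + C) := by
          rw [Finset.sum_const, Nat.card_Icc, smul_eq_mul]
          simp
  have c2 : (Finset.range q ∪ Finset.Ico (n + 1 - C) n).card ≤ q + C := by
    refine (Finset.card_union_le _ _).trans ?_
    rw [Finset.card_range, Nat.card_Ico]
    omega
  refine (Finset.card_union_le _ _).trans ?_
  calc _ ≤ (q + C) + J * (q + C) := add_le_add c2 c1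
    _ = (J + 1) * (q + C) := by ring

/-- **summation** (03 l.748-765).  `u` nondecreasing, `u 0 ≥ 0`; on the good steps the increment is `≥ (1/n)(1 + 1/m) - δ`; at most `Bd` steps are not good.
PROOF. `u n ≥ ∑_{good} (u (k+1) - u k) ≥ ∑_{good} (1/n + (r(a (k+1)) - r(a k)) - δ)` (`K3mUs.r_step`); `∑_{all k < n} (r(a(k+1)) - r(a k)) = r(1)`, each term `≤ 1/n` (`k3mR_sub_le`). -/
theorem k3m_sum (h : K3mBeta D J β) (hn : 1 ≤ n) (hC : 1 ≤ C) (u : ℕ → ℝ) (hu : ∀ k, k < n → u k ≤ u (k + 1)) (hu0 : 0 ≤ u 0) (Gd : Set ℕ) {δ Bd : ℝ} (hδ : 0 ≤ δ)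
    (hG : ∀ k ∈ Gd, k < n ∧ ∃ m, K3mUs J n β q C k m ∧ (1 / (n : ℝ)) * (1 + 1 / m) - δ ≤ u (k + 1) - u k)
    (hB : (({k | k < n ∧ k ∉ Gd} : Set ℕ).ncard : ℝ) ≤ Bd) :
    1 + k3mR J β 1 - 2 * Bd / n - n * δ ≤ u n := by
  classical
  have hJ : 1 ≤ J := h.hD.trans h.hJ.le
  have hnp : (0 : ℝ) < n := Nat.cast_pos.2 hn
  have ht2 : ∀ k, 1 / (n : ℝ) + (k3mR J β (k3mA n (k + 1)) - k3mR J β (k3mA n k)) ≤ 2 / n := by
    intro k
    have h1 := k3mR_sub_le hJ β (k3mA_mono n (Nat.le_succ k))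
    have e : k3mA n (k + 1) - k3mA n k = 1 / n := by
      rw [k3mA_add]
      simp
    have e2 : (2 : ℝ) / n = 1 / n + 1 / n := by ring
    rw [Nat.succ_eq_add_one, e] at h1
    linarith
  have hpt : ∀ k ∈ range n, (1 / (n : ℝ) + (k3mR J β (k3mA n (k + 1)) - k3mR J β (k3mA n k))) - δ - (if k ∉ Gd then 2 / (n : ℝ) else 0)
      ≤ u (k + 1) - u k := by
    intro k hk
    have hkn := Finset.mem_range.1 hk
    by_cases hg : k ∈ Gd
    · obtain ⟨_, m, hus, hinc⟩ := hG k hg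
      rw [if_neg (not_not.2 hg), sub_zero, hus.r_step hn hC]
      have e : (1 / (n : ℝ)) * (1 + 1 / m) = 1 / n + 1 / ((n : ℝ) * m) := by
        rw [mul_add, mul_one, one_div_mul_one_div]
      linarith
    · rw [if_pos hg]
      have h1 := hu k hkn
      have h2 := ht2 k
      linarith
  have hsum := Finset.sum_le_sum hpt
  rw [Finset.sum_range_sub, Finset.sum_sub_distrib, Finset.sum_sub_distrib, Finset.sum_add_distrib,
    Finset.sum_range_sub (fun k => k3mR J β (k3mA n k)), k3m_e2_A_zero, k3mR_zero h] at hsum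
  have e0 : k3mA n n = 1 := div_self hnp.ne'
  have e1 : ∑ _k ∈ range n, 1 / (n : ℝ) = 1 := by
    rw [Finset.sum_const, Finset.card_range, nsmul_eq_mul]
    field_simp
  have e2 : ∑ _k ∈ range n, δ = n * δ := by
    rw [Finset.sum_const, Finset.card_range, nsmul_eq_mul]
  have e3 : ∑ k ∈ range n, (if k ∉ Gd then 2 / (n : ℝ) else 0) = (({k | k < n ∧ k ∉ Gd} : Set ℕ).ncard : ℝ) * (2 / n) := by
    have e4 : ({k | k < n ∧ k ∉ Gd} : Set ℕ) = (((range n).filter fun k => k ∉ Gd : Finset ℕ) : Set ℕ) := by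
      ext k
      simp
    rw [e4, Set.ncard_coe_finset, ← Finset.sum_filter, Finset.sum_const, nsmul_eq_mul]
  rw [e0, e1, e2, e3] at hsum
  have h5 : (({k | k < n ∧ k ∉ Gd} : Set ℕ).ncard : ℝ) * (2 / n) ≤ Bd * (2 / n) :=
    mul_le_mul_of_nonneg_right hB (by positivity)
  have e5 : 2 * Bd / n = Bd * (2 / n) := by ring
  rw [e5]
  linarith

end

end Claimed.Agent.R252

end PkS3mExpo

section PkS3mChain

/-!
# ROW 252, unit S3m (L3.3 two-colour matching, architect helper93), file Chain.     CONTRACT file: the `sorry`s are the leaves L-252-K3M-C*.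

THE SWITCHING EXPERIMENT (03 l.514-672), abstract and finite, in the simplified form with ONE switch (enough for the increment `b (1 + 1/m)`):
  `ω0 ~ p`;   `ω1 ~ p(· | X1 = X1 ω0)` (same first arm, same coarse interval);   `ωt ~ p(· | G = G ω1)` (refresh on the fine state);
  `ω2 ~ p(· | X2 col = X2 col ωt)` (arm of colour `col` of the refreshed event, same coarse interval).
All four events have law `p` (`k3m_inv`).  `K3mCh` = the data, `K3mCh.OK` = the hypotheses, `k3m_chain` = the exit: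
  `1 - 3 ζ1 - ζ2 - 2 ζ3 ≤ 2 κ² Γ Nn V`.
-/

set_option autoImplicit false
set_option linter.unusedSectionVars false

namespace Claimed.Agent.R252

open scoped BigOperators
open Finset

noncomputable section

variable {Ω : Type} [Fintype Ω]

/-- data of a switching experiment -/
structure K3mCh (Ω S1 S2 SG SF SZ : Type) where
  p : Ω → ℝ
  X1 : Ω → S1
  X2 : Bool → Ω → S2
  G : Ω → SG
  Fc : Ω → SF
  Z : Ω → SZ
  tc : Ω → ℕ
  Tn : ℕ
  sep : ℕ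
  κ : ℝ
  Γ : ℝ
  ζ1 : ℝ
  ζ2 : ℝ
  ζ3 : ℝ
  V : ℝ
  Nn : ℝ
  Lt1 : Set Ω
  Lt2 : Bool → Set Ω
  Bad : Set Ω
  Sel : Bool → Ω → Ω → Prop
  Nb : Ω → Finset SF
  Tst : Bool → Ω → ℕ → SF → SZ → ℕ → Prop

variable {S1 S2 SG SF SZ : Type}

/-- hypotheses of a switching experiment -/
structure K3mCh.OK (c : K3mCh Ω S1 S2 SG SF SZ) : Prop where
  law : K3mLaw c.p
  tc_lt : ∀ ω, c.tc ω < c.Tn
  κ_nonneg : 0 ≤ c.κ
  Γ_nonneg : 0 ≤ c.Γ
  V_nonneg : 0 ≤ c.V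
  refine : ∀ ω ω', c.G ω = c.G ω' → c.Fc ω = c.Fc ω'
  light1 : k3mP c.p c.Lt1 ≤ c.ζ1
  light2 : ∀ col, k3mP c.p (c.Lt2 col) ≤ c.ζ1
  bad : k3mP c.p c.Bad ≤ c.ζ2
  /-- time density of the first traversal -/
  dens1 : ∀ ω, ω ∉ c.Lt1 → ∀ t, k3mP c.p {ω' | c.X1 ω' = c.X1 ω ∧ c.tc ω' = t} ≤ c.κ * k3mP c.p {ω' | c.X1 ω' = c.X1 ω}
  /-- time density of the second traversal -/
  dens2 : ∀ col ω, ω ∉ c.Lt2 col → ∀ t, k3mP c.p {ω' | c.X2 col ω' = c.X2 col ω ∧ c.tc ω' = t} ≤ c.κ * k3mP c.p {ω' | c.X2 col ω' = c.X2 col ω}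
  /-- palette likelihood -/
  pal : ∀ ω, ω ∉ c.Bad → c.p ω ≠ 0 → k3mX c.p c.G c.Z ω ≤ c.Γ * k3mX c.p c.Fc c.Z ω
  /-- one of the two colours is selectable -/
  sel : ∀ ω0 ω1 ωt, c.p ω0 ≠ 0 → c.p ω1 ≠ 0 → c.p ωt ≠ 0 → c.X1 ω1 = c.X1 ω0 → c.G ωt = c.G ω1 → c.Sel true ω0 ωt ∨ c.Sel false ω0 ωt
  /-- the necessary test -/
  nec : ∀ col ω0 ω1 ωt ω2, c.p ω0 ≠ 0 → c.p ω1 ≠ 0 → c.p ωt ≠ 0 → c.p ω2 ≠ 0 → c.X1 ω1 = c.X1 ω0 → c.G ωt = c.G ω1 →
    c.X2 col ω2 = c.X2 col ωt → c.Sel col ω0 ωt → c.sep ≤ Nat.dist (c.tc ω1) (c.tc ω2) →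
    c.Fc ωt ∈ c.Nb ω0 ∧ c.Tst col ω0 (c.tc ω1) (c.Fc ωt) (c.Z ωt) (c.tc ω2)
  nb_card : ∀ ω0, ((c.Nb ω0).card : ℝ) ≤ c.Nn
  /-- number of pairs of times which pass the test, for FIXED control data -/
  count : ∀ col ω0 A z, ∑ t1 ∈ range c.Tn, ∑ t2 ∈ range c.Tn, k3mI (c.Tst col ω0 t1 A z t2) ≤ c.V
  close : c.κ * (2 * c.sep) ≤ c.ζ3

/-- indicator of success -/
def K3mCh.suc (c : K3mCh Ω S1 S2 SG SF SZ) (col : Bool) (ω0 ω1 ωt ω2 : Ω) : ℝ :=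
  k3mI (ω0 ∉ c.Lt1 ∧ ωt ∉ c.Bad ∧ ωt ∉ c.Lt2 col ∧ c.Sel col ω0 ωt ∧ c.sep ≤ Nat.dist (c.tc ω1) (c.tc ω2))

/-- probability of success with the colour `col` -/
def K3mCh.pch (c : K3mCh Ω S1 S2 SG SF SZ) (col : Bool) : ℝ :=
  ∑ ω0, c.p ω0 * k3mCav c.p c.X1 (fun ω1 => k3mCav c.p c.G (fun ωt => k3mCav c.p (c.X2 col) (fun ω2 => c.suc col ω0 ω1 ωt ω2) ωt) ω1) ω0

/-- number of final times which pass the test -/
def K3mCh.vf (c : K3mCh Ω S1 S2 SG SF SZ) (col : Bool) (ω0 : Ω) (t1 : ℕ) (A : SF) (z : SZ) : ℝ :=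
  ∑ t2 ∈ range c.Tn, k3mI (c.Tst col ω0 t1 A z t2)

theorem k3m_chain_eqns_cite : True := by
  have := @K3mCh.suc.eq_1
  have := @K3mCh.pch.eq_1
  have := @K3mCh.vf.eq_1
  trivial

variable {c : K3mCh Ω S1 S2 SG SF SZ}

/-! ## Upper bound -/

theorem k3m_ch_vf_nonneg (c : K3mCh Ω S1 S2 SG SF SZ) (col : Bool) (ω0 : Ω) (t1 : ℕ) (A : SF) (z : SZ) : 0 ≤ c.vf col ω0 t1 A z :=
  Finset.sum_nonneg fun _ _ => k3mI_nonneg _

theorem k3m_ch_cav_const {S : Type} {p : Ω → ℝ} (hp : K3mLaw p) (X : Ω → S) (a : ℝ) {ω : Ω} (h : p ω ≠ 0) : k3mCav p X (fun _ => a) ω = a := by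
  have h1 := k3mCav_const_mul p X a (fun _ => (1 : ℝ)) ω
  rw [k3mCav_one hp X h] at h1
  simpa using h1

/-- **C1** innermost average.  If `ωt ∈ Lt2 col` or `ωt ∈ Bad` or `¬ Sel` or `ω0 ∈ Lt1` all terms vanish.  Otherwise, by `nec` (and `Fc ωt = Fc ω1` by `refine`),
`suc ≤ k3mI (Fc ω1 ∈ Nb ω0) * k3mI (Tst col ω0 (tc ω1) (Fc ω1) (Z ωt) (tc ω2))` on the support and the fibre; `k3mCav_mono`, `k3mCav_const_mul`, `k3m_dom_time` with `dens2`. -/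
theorem K3mCh.OK.inner (h : c.OK) (col : Bool) {ω0 ω1 ωt : Ω} (h0 : c.p ω0 ≠ 0) (h1 : c.p ω1 ≠ 0) (ht : c.p ωt ≠ 0)
    (e1 : c.X1 ω1 = c.X1 ω0) (et : c.G ωt = c.G ω1) :
    k3mCav c.p (c.X2 col) (fun ω2 => c.suc col ω0 ω1 ωt ω2) ωt
      ≤ k3mI (ωt ∉ c.Bad) * (k3mI (c.Fc ω1 ∈ c.Nb ω0) * (c.κ * c.vf col ω0 (c.tc ω1) (c.Fc ω1) (c.Z ωt))) := by
  have hR : 0 ≤ k3mI (ωt ∉ c.Bad) * (k3mI (c.Fc ω1 ∈ c.Nb ω0) * (c.κ * c.vf col ω0 (c.tc ω1) (c.Fc ω1) (c.Z ωt))) :=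
    mul_nonneg (k3mI_nonneg _) (mul_nonneg (k3mI_nonneg _) (mul_nonneg h.κ_nonneg (k3m_ch_vf_nonneg c _ _ _ _ _)))
  by_cases hP : ω0 ∉ c.Lt1 ∧ ωt ∉ c.Bad ∧ ωt ∉ c.Lt2 col ∧ c.Sel col ω0 ωt
  · obtain ⟨hP1, hP2, hP3, hP4⟩ := hP
    have hF : c.Fc ωt = c.Fc ω1 := h.refine _ _ et
    rw [k3mI_true hP2, one_mul]
    have hm : k3mCav c.p (c.X2 col) (fun ω2 => c.suc col ω0 ω1 ωt ω2) ωt
        ≤ k3mCav c.p (c.X2 col) (fun ω2 => k3mI (c.Fc ω1 ∈ c.Nb ω0) * k3mI (c.Tst col ω0 (c.tc ω1) (c.Fc ω1) (c.Z ωt) (c.tc ω2))) ωt := by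
      refine k3mCav_mono h.law _ ωt fun ω2 h2 e2 => ?_
      by_cases hd : c.sep ≤ Nat.dist (c.tc ω1) (c.tc ω2)
      · obtain ⟨n1, n2⟩ := h.nec col ω0 ω1 ωt ω2 h0 h1 ht h2 e1 et e2 hP4 hd
        rw [hF] at n1 n2
        rw [k3mI_true n1, k3mI_true n2, one_mul]
        exact k3mI_le_one _
      · have : c.suc col ω0 ω1 ωt ω2 = 0 := k3mI_false fun hh => hd hh.2.2.2.2
        rw [this]
        exact mul_nonneg (k3mI_nonneg _) (k3mI_nonneg _)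
    refine hm.trans ?_
    rw [k3mCav_const_mul]
    refine mul_le_mul_of_nonneg_left ?_ (k3mI_nonneg _)
    exact k3m_dom_time h.law (c.X2 col) c.tc c.Tn h.tc_lt h.κ_nonneg ωt (h.dens2 col ωt hP3)
      (fun t2 => k3mI (c.Tst col ω0 (c.tc ω1) (c.Fc ω1) (c.Z ωt) t2)) (fun _ => k3mI_nonneg _)
  · refine le_trans (k3mCav_le_const h.law _ le_rfl ωt fun ω2 _ _ => ?_) hR
    exact le_of_eq (k3mI_false fun hh => hP ⟨hh.1, hh.2.1, hh.2.2.1, hh.2.2.2.1⟩)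

/-- **C2** middle average: `inner` + `k3m_dom_pal` with `Ψ z = k3mI (..) * (κ * vf col ω0 (tc ω1) (Fc ω1) z)`; then `k3mCav p Fc φ ω1 = k3mCv p Fc (Fc ω1) φ` is one term of the sum over `Nb ω0`. -/
theorem K3mCh.OK.middle (h : c.OK) (col : Bool) {ω0 ω1 : Ω} (h0 : c.p ω0 ≠ 0) (h1 : c.p ω1 ≠ 0) (e1 : c.X1 ω1 = c.X1 ω0) :
    k3mCav c.p c.G (fun ωt => k3mCav c.p (c.X2 col) (fun ω2 => c.suc col ω0 ω1 ωt ω2) ωt) ω1
      ≤ c.Γ * c.κ * ∑ A ∈ c.Nb ω0, k3mCv c.p c.Fc A (fun ω => c.vf col ω0 (c.tc ω1) A (c.Z ω)) := by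
  have hS : 0 ≤ ∑ A ∈ c.Nb ω0, k3mCv c.p c.Fc A (fun ω => c.vf col ω0 (c.tc ω1) A (c.Z ω)) :=
    Finset.sum_nonneg fun A _ => k3mCv_nonneg h.law _ _ fun _ _ _ => k3m_ch_vf_nonneg c _ _ _ _ _
  have hm : k3mCav c.p c.G (fun ωt => k3mCav c.p (c.X2 col) (fun ω2 => c.suc col ω0 ω1 ωt ω2) ωt) ω1
      ≤ k3mCav c.p c.G (fun ωt => k3mI (ωt ∉ c.Bad) *
          (fun z => k3mI (c.Fc ω1 ∈ c.Nb ω0) * (c.κ * c.vf col ω0 (c.tc ω1) (c.Fc ω1) z)) (c.Z ωt)) ω1 :=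
    k3mCav_mono h.law _ ω1 fun ωt ht et => h.inner col h0 h1 ht e1 et
  refine hm.trans ?_
  refine (k3m_dom_pal h.law c.G c.Fc c.Z h.refine h.Γ_nonneg c.Bad h.pal
    (fun z => k3mI (c.Fc ω1 ∈ c.Nb ω0) * (c.κ * c.vf col ω0 (c.tc ω1) (c.Fc ω1) z))
    (fun z => mul_nonneg (k3mI_nonneg _) (mul_nonneg h.κ_nonneg (k3m_ch_vf_nonneg c _ _ _ _ _))) ω1).trans ?_
  rw [mul_assoc]
  refine mul_le_mul_of_nonneg_left ?_ h.Γ_nonneg
  rw [k3mCav_const_mul, k3mCav_const_mul]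
  by_cases hN : c.Fc ω1 ∈ c.Nb ω0
  · rw [k3mI_true hN, one_mul]
    refine mul_le_mul_of_nonneg_left ?_ h.κ_nonneg
    exact Finset.single_le_sum (f := fun A => k3mCv c.p c.Fc A (fun ω => c.vf col ω0 (c.tc ω1) A (c.Z ω)))
      (fun A _ => k3mCv_nonneg h.law _ _ fun _ _ _ => k3m_ch_vf_nonneg c _ _ _ _ _) hN
  · rw [k3mI_false hN, zero_mul]
    exact mul_nonneg h.κ_nonneg hS

/-- **C3** outer average.  If `ω0 ∈ Lt1` everything vanishes.  Otherwise `middle`, `k3m_dom_time` with `dens1` and `Ψ t1 = ∑ A, k3mCv .. (vf col ω0 t1 A (Z ·))`;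
exchange the sums (`k3mCv_sum`), `∑ t1, vf col ω0 t1 A z ≤ V` (`count`), `k3mCv_le_const`, `nb_card`. -/
theorem K3mCh.OK.outer (h : c.OK) (col : Bool) {ω0 : Ω} (h0 : c.p ω0 ≠ 0) :
    k3mCav c.p c.X1 (fun ω1 => k3mCav c.p c.G (fun ωt => k3mCav c.p (c.X2 col) (fun ω2 => c.suc col ω0 ω1 ωt ω2) ωt) ω1) ω0
      ≤ c.κ ^ 2 * c.Γ * c.Nn * c.V := by
  have hNn : 0 ≤ c.Nn := le_trans (Nat.cast_nonneg _) (h.nb_card ω0)
  have hR : 0 ≤ c.κ ^ 2 * c.Γ * c.Nn * c.V :=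
    mul_nonneg (mul_nonneg (mul_nonneg (pow_nonneg h.κ_nonneg 2) h.Γ_nonneg) hNn) h.V_nonneg
  by_cases hL : ω0 ∈ c.Lt1
  · refine le_trans (k3mCav_le_const h.law _ le_rfl ω0 fun ω1 _ _ => ?_) hR
    refine k3mCav_le_const h.law _ le_rfl ω1 fun ωt _ _ => ?_
    refine k3mCav_le_const h.law _ le_rfl ωt fun ω2 _ _ => ?_
    exact le_of_eq (k3mI_false fun hh => hh.1 hL)
  · have hΨ : ∀ t1, 0 ≤ c.Γ * c.κ * ∑ A ∈ c.Nb ω0, k3mCv c.p c.Fc A (fun ω => c.vf col ω0 t1 A (c.Z ω)) := fun t1 =>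
      mul_nonneg (mul_nonneg h.Γ_nonneg h.κ_nonneg)
        (Finset.sum_nonneg fun A _ => k3mCv_nonneg h.law _ _ fun _ _ _ => k3m_ch_vf_nonneg c _ _ _ _ _)
    have hm : k3mCav c.p c.X1 (fun ω1 => k3mCav c.p c.G (fun ωt => k3mCav c.p (c.X2 col) (fun ω2 => c.suc col ω0 ω1 ωt ω2) ωt) ω1) ω0
        ≤ k3mCav c.p c.X1 (fun ω1 => (fun t1 => c.Γ * c.κ * ∑ A ∈ c.Nb ω0, k3mCv c.p c.Fc A (fun ω => c.vf col ω0 t1 A (c.Z ω))) (c.tc ω1)) ω0 :=
      k3mCav_mono h.law _ ω0 fun ω1 h1 e1 => h.middle col h0 h1 e1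
    refine hm.trans ?_
    refine (k3m_dom_time h.law c.X1 c.tc c.Tn h.tc_lt h.κ_nonneg ω0 (h.dens1 ω0 hL) _ hΨ).trans ?_
    have hsum : ∑ t1 ∈ range c.Tn, ∑ A ∈ c.Nb ω0, k3mCv c.p c.Fc A (fun ω => c.vf col ω0 t1 A (c.Z ω)) ≤ c.Nn * c.V := by
      rw [Finset.sum_comm]
      calc ∑ A ∈ c.Nb ω0, ∑ t1 ∈ range c.Tn, k3mCv c.p c.Fc A (fun ω => c.vf col ω0 t1 A (c.Z ω))
          ≤ ∑ A ∈ c.Nb ω0, c.V := by
            refine Finset.sum_le_sum fun A _ => ?_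
            rw [← k3mCv_sum]
            exact k3mCv_le_const h.law _ _ h.V_nonneg fun ω' _ _ => h.count col ω0 A (c.Z ω')
        _ = ((c.Nb ω0).card : ℝ) * c.V := by rw [Finset.sum_const, nsmul_eq_mul]
        _ ≤ c.Nn * c.V := mul_le_mul_of_nonneg_right (h.nb_card ω0) h.V_nonneg
    rw [← Finset.mul_sum]
    calc c.κ * (c.Γ * c.κ * ∑ t1 ∈ range c.Tn, ∑ A ∈ c.Nb ω0, k3mCv c.p c.Fc A (fun ω => c.vf col ω0 t1 A (c.Z ω)))
        ≤ c.κ * (c.Γ * c.κ * (c.Nn * c.V)) :=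
          mul_le_mul_of_nonneg_left (mul_le_mul_of_nonneg_left hsum (mul_nonneg h.Γ_nonneg h.κ_nonneg)) h.κ_nonneg
      _ = c.κ ^ 2 * c.Γ * c.Nn * c.V := by ring

theorem K3mCh.OK.upper (h : c.OK) (col : Bool) : c.pch col ≤ c.κ ^ 2 * c.Γ * c.Nn * c.V := by
  have hs : ∑ ω0, c.p ω0 * (c.κ ^ 2 * c.Γ * c.Nn * c.V) = c.κ ^ 2 * c.Γ * c.Nn * c.V := by
    rw [← Finset.sum_mul, h.law.sum_one, one_mul]
  rw [← hs]
  refine Finset.sum_le_sum fun ω0 _ => ?_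
  by_cases h0 : c.p ω0 = 0
  · simp [h0]
  · exact mul_le_mul_of_nonneg_left (h.outer col h0) (h.law.nonneg ω0)

/-! ## Lower bound -/

/-- **C4** the three-step chain preserves the law: average of a function of `ωt` alone. -/
theorem K3mCh.OK.inv3 (h : c.OK) (ψ : Ω → ℝ) :
    ∑ ω0, c.p ω0 * k3mCav c.p c.X1 (fun ω1 => k3mCav c.p c.G ψ ω1) ω0 = ∑ ω, c.p ω * ψ ω := by
  rw [k3m_inv h.law, k3m_inv h.law]

theorem k3m_ch_count_close (Tn t1 sep : ℕ) : ∑ t ∈ range Tn, k3mI (Nat.dist t1 t < sep) ≤ 2 * (sep : ℝ) := by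
  classical
  have h1 : ∑ t ∈ range Tn, k3mI (Nat.dist t1 t < sep) ≤ ∑ t ∈ range Tn, (if t ∈ Finset.Ico (t1 + 1 - sep) (t1 + sep) then (1 : ℝ) else 0) := by
    refine Finset.sum_le_sum fun t _ => ?_
    by_cases hd : Nat.dist t1 t < sep
    · have hm : t ∈ Finset.Ico (t1 + 1 - sep) (t1 + sep) := by
        rw [Finset.mem_Ico]
        unfold Nat.dist at hd
        omega
      rw [if_pos hm]
      exact k3mI_le_one _
    · rw [k3mI_false hd]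
      split_ifs
      · exact zero_le_one
      · exact le_rfl
  refine h1.trans ?_
  rw [← Finset.sum_filter, Finset.sum_const, nsmul_eq_mul, mul_one]
  have h2 : ((range Tn).filter fun t => t ∈ Finset.Ico (t1 + 1 - sep) (t1 + sep)).card ≤ 2 * sep := by
    refine (Finset.card_le_card (fun t ht => (Finset.mem_filter.1 ht).2)).trans ?_
    rw [Nat.card_Ico]
    omega
  exact_mod_cast h2

/-- **C5** closeness: for `ωt ∉ Lt2 col` the final time is within `< sep` of a given time with conditional probability `≤ κ (2 sep) ≤ ζ3`. -/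
theorem K3mCh.OK.closeP (h : c.OK) (col : Bool) {ωt : Ω} (ht : ωt ∉ c.Lt2 col) (t1 : ℕ) :
    k3mCav c.p (c.X2 col) (fun ω2 => k3mI (Nat.dist t1 (c.tc ω2) < c.sep)) ωt ≤ c.ζ3 := by
  refine le_trans ?_ h.close
  refine (k3m_dom_time h.law (c.X2 col) c.tc c.Tn h.tc_lt h.κ_nonneg ωt (h.dens2 col ωt ht)
    (fun t => k3mI (Nat.dist t1 t < c.sep)) (fun _ => k3mI_nonneg _)).trans ?_
  exact mul_le_mul_of_nonneg_left (k3m_ch_count_close _ _ _) h.κ_nonneg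

/-- **C6** lower bound for one colour.  Pointwise
`suc ≥ k3mI (ω0 ∉ Lt1 ∧ ωt ∉ Bad ∧ Sel col ω0 ωt) - k3mI (ωt ∈ Lt2 col) - k3mI (ωt ∉ Lt2 col) * k3mI (dist < sep)`; average (`k3mCav_sub`, `k3mCav_one`, `closeP`, `inv3`, `light2`). -/
theorem K3mCh.OK.lower1 (h : c.OK) (col : Bool) :
    (∑ ω0, c.p ω0 * k3mCav c.p c.X1 (fun ω1 => k3mCav c.p c.G (fun ωt => k3mI (ω0 ∉ c.Lt1 ∧ ωt ∉ c.Bad ∧ c.Sel col ω0 ωt)) ω1) ω0)
      - c.ζ1 - c.ζ3 ≤ c.pch col := by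
  have hζ3 : 0 ≤ c.ζ3 := le_trans (mul_nonneg h.κ_nonneg (mul_nonneg zero_le_two (Nat.cast_nonneg _))) h.close
  -- innermost average
  have hin : ∀ ω0 ω1 ωt, c.p ωt ≠ 0 →
      k3mI (ω0 ∉ c.Lt1 ∧ ωt ∉ c.Bad ∧ c.Sel col ω0 ωt) - k3mI (ωt ∈ c.Lt2 col) - c.ζ3
        ≤ k3mCav c.p (c.X2 col) (fun ω2 => c.suc col ω0 ω1 ωt ω2) ωt := by
    intro ω0 ω1 ωt ht
    by_cases hL : ωt ∈ c.Lt2 col
    · have h1 : 0 ≤ k3mCav c.p (c.X2 col) (fun ω2 => c.suc col ω0 ω1 ωt ω2) ωt :=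
        k3mCav_nonneg h.law _ (fun _ _ => k3mI_nonneg _) ωt
      have h2 := k3mI_le_one (ω0 ∉ c.Lt1 ∧ ωt ∉ c.Bad ∧ c.Sel col ω0 ωt)
      rw [k3mI_true hL]
      linarith
    · rw [k3mI_false hL, sub_zero]
      have h1 : k3mCav c.p (c.X2 col) (fun ω2 => k3mI (ω0 ∉ c.Lt1 ∧ ωt ∉ c.Bad ∧ c.Sel col ω0 ωt) - k3mI (Nat.dist (c.tc ω1) (c.tc ω2) < c.sep)) ωt
          ≤ k3mCav c.p (c.X2 col) (fun ω2 => c.suc col ω0 ω1 ωt ω2) ωt := by
        refine k3mCav_mono h.law _ ωt fun ω2 _ _ => ?_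
        by_cases hd : Nat.dist (c.tc ω1) (c.tc ω2) < c.sep
        · rw [k3mI_true hd]
          have h2 := k3mI_le_one (ω0 ∉ c.Lt1 ∧ ωt ∉ c.Bad ∧ c.Sel col ω0 ωt)
          have h3 : 0 ≤ c.suc col ω0 ω1 ωt ω2 := k3mI_nonneg _
          linarith
        · rw [k3mI_false hd, sub_zero]
          exact k3mI_mono fun hh => ⟨hh.1, hh.2.1, hL, hh.2.2, not_lt.1 hd⟩
      rw [k3mCav_sub, k3m_ch_cav_const h.law _ _ ht] at h1
      have h2 := h.closeP col hL (c.tc ω1)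
      linarith
  -- middle average
  have hmid : ∀ ω0 ω1, c.p ω1 ≠ 0 →
      k3mCav c.p c.G (fun ωt => k3mI (ω0 ∉ c.Lt1 ∧ ωt ∉ c.Bad ∧ c.Sel col ω0 ωt)) ω1 - k3mCav c.p c.G (fun ωt => k3mI (ωt ∈ c.Lt2 col)) ω1 - c.ζ3
        ≤ k3mCav c.p c.G (fun ωt => k3mCav c.p (c.X2 col) (fun ω2 => c.suc col ω0 ω1 ωt ω2) ωt) ω1 := by
    intro ω0 ω1 h1
    have h2 := k3mCav_mono h.law c.G ω1 (fun ωt ht _ => hin ω0 ω1 ωt ht)
    rw [k3mCav_sub, k3mCav_sub, k3m_ch_cav_const h.law _ _ h1] at h2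
    exact h2
  -- outer average
  have hout : ∀ ω0, c.p ω0 ≠ 0 →
      k3mCav c.p c.X1 (fun ω1 => k3mCav c.p c.G (fun ωt => k3mI (ω0 ∉ c.Lt1 ∧ ωt ∉ c.Bad ∧ c.Sel col ω0 ωt)) ω1) ω0
        - k3mCav c.p c.X1 (fun ω1 => k3mCav c.p c.G (fun ωt => k3mI (ωt ∈ c.Lt2 col)) ω1) ω0 - c.ζ3
        ≤ k3mCav c.p c.X1 (fun ω1 => k3mCav c.p c.G (fun ωt => k3mCav c.p (c.X2 col) (fun ω2 => c.suc col ω0 ω1 ωt ω2) ωt) ω1) ω0 := by
    intro ω0 h0
    have h2 := k3mCav_mono h.law c.X1 ω0 (fun ω1 h1 _ => hmid ω0 ω1 h1)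
    rw [k3mCav_sub, k3mCav_sub, k3m_ch_cav_const h.law _ _ h0] at h2
    exact h2
  have hsum : ∑ ω0, c.p ω0 * (k3mCav c.p c.X1 (fun ω1 => k3mCav c.p c.G (fun ωt => k3mI (ω0 ∉ c.Lt1 ∧ ωt ∉ c.Bad ∧ c.Sel col ω0 ωt)) ω1) ω0
        - k3mCav c.p c.X1 (fun ω1 => k3mCav c.p c.G (fun ωt => k3mI (ωt ∈ c.Lt2 col)) ω1) ω0 - c.ζ3) ≤ c.pch col := by
    refine Finset.sum_le_sum fun ω0 _ => ?_
    by_cases h0 : c.p ω0 = 0
    · simp [h0]
    · exact mul_le_mul_of_nonneg_left (hout ω0 h0) (h.law.nonneg ω0)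
  have e1 : ∑ ω0, c.p ω0 * k3mCav c.p c.X1 (fun ω1 => k3mCav c.p c.G (fun ωt => k3mI (ωt ∈ c.Lt2 col)) ω1) ω0 = k3mP c.p (c.Lt2 col) := by
    rw [h.inv3, k3mP_eq_sum_I]
  have e2 : ∑ ω0, c.p ω0 * c.ζ3 = c.ζ3 := by
    rw [← Finset.sum_mul, h.law.sum_one, one_mul]
  simp only [mul_sub, Finset.sum_sub_distrib] at hsum
  rw [e1, e2] at hsum
  have := h.light2 col
  linarith

/-- **C7** by `sel`, `k3mI (.. Sel true ..) + k3mI (.. Sel false ..) ≥ k3mI (ω0 ∉ Lt1 ∧ ωt ∉ Bad) ≥ 1 - k3mI (ω0 ∈ Lt1) - k3mI (ωt ∈ Bad)` on the supports and fibres. -/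
theorem K3mCh.OK.lower2 (h : c.OK) :
    1 - c.ζ1 - c.ζ2 ≤
      (∑ ω0, c.p ω0 * k3mCav c.p c.X1 (fun ω1 => k3mCav c.p c.G (fun ωt => k3mI (ω0 ∉ c.Lt1 ∧ ωt ∉ c.Bad ∧ c.Sel true ω0 ωt)) ω1) ω0)
      + (∑ ω0, c.p ω0 * k3mCav c.p c.X1 (fun ω1 => k3mCav c.p c.G (fun ωt => k3mI (ω0 ∉ c.Lt1 ∧ ωt ∉ c.Bad ∧ c.Sel false ω0 ωt)) ω1) ω0) := by
  have hmid : ∀ ω0 ω1, c.p ω0 ≠ 0 → c.p ω1 ≠ 0 → c.X1 ω1 = c.X1 ω0 →
      1 - k3mI (ω0 ∈ c.Lt1) - k3mCav c.p c.G (fun ωt => k3mI (ωt ∈ c.Bad)) ω1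
        ≤ k3mCav c.p c.G (fun ωt => k3mI (ω0 ∉ c.Lt1 ∧ ωt ∉ c.Bad ∧ c.Sel true ω0 ωt)) ω1
          + k3mCav c.p c.G (fun ωt => k3mI (ω0 ∉ c.Lt1 ∧ ωt ∉ c.Bad ∧ c.Sel false ω0 ωt)) ω1 := by
    intro ω0 ω1 h0 h1 e1
    rw [← k3mCav_add]
    have h2 : k3mCav c.p c.G (fun ωt => (1 - k3mI (ω0 ∈ c.Lt1)) - k3mI (ωt ∈ c.Bad)) ω1
        ≤ k3mCav c.p c.G (fun ωt => k3mI (ω0 ∉ c.Lt1 ∧ ωt ∉ c.Bad ∧ c.Sel true ω0 ωt) + k3mI (ω0 ∉ c.Lt1 ∧ ωt ∉ c.Bad ∧ c.Sel false ω0 ωt)) ω1 := by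
      refine k3mCav_mono h.law _ ω1 fun ωt ht et => ?_
      have n1 := k3mI_nonneg (ω0 ∉ c.Lt1 ∧ ωt ∉ c.Bad ∧ c.Sel true ω0 ωt)
      have n2 := k3mI_nonneg (ω0 ∉ c.Lt1 ∧ ωt ∉ c.Bad ∧ c.Sel false ω0 ωt)
      by_cases hL : ω0 ∈ c.Lt1
      · have n3 := k3mI_nonneg (ωt ∈ c.Bad)
        rw [k3mI_true hL]
        linarith
      · by_cases hB : ωt ∈ c.Bad
        · have n3 := k3mI_nonneg (ω0 ∈ c.Lt1)
          rw [k3mI_true hB]
          linarith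
        · rw [k3mI_false hL, k3mI_false hB]
          rcases h.sel ω0 ω1 ωt h0 h1 ht e1 et with hs | hs
          · rw [k3mI_true (⟨hL, hB, hs⟩ : ω0 ∉ c.Lt1 ∧ ωt ∉ c.Bad ∧ c.Sel true ω0 ωt)]
            linarith
          · rw [k3mI_true (⟨hL, hB, hs⟩ : ω0 ∉ c.Lt1 ∧ ωt ∉ c.Bad ∧ c.Sel false ω0 ωt)]
            linarith
    rw [k3mCav_sub, k3m_ch_cav_const h.law _ _ h1] at h2
    exact h2
  have hout : ∀ ω0, c.p ω0 ≠ 0 →
      1 - k3mI (ω0 ∈ c.Lt1) - k3mCav c.p c.X1 (fun ω1 => k3mCav c.p c.G (fun ωt => k3mI (ωt ∈ c.Bad)) ω1) ω0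
        ≤ k3mCav c.p c.X1 (fun ω1 => k3mCav c.p c.G (fun ωt => k3mI (ω0 ∉ c.Lt1 ∧ ωt ∉ c.Bad ∧ c.Sel true ω0 ωt)) ω1) ω0
          + k3mCav c.p c.X1 (fun ω1 => k3mCav c.p c.G (fun ωt => k3mI (ω0 ∉ c.Lt1 ∧ ωt ∉ c.Bad ∧ c.Sel false ω0 ωt)) ω1) ω0 := by
    intro ω0 h0
    rw [← k3mCav_add]
    have h2 := k3mCav_mono h.law c.X1 ω0 (fun ω1 h1 e1 => hmid ω0 ω1 h0 h1 e1)
    rw [k3mCav_sub, k3m_ch_cav_const h.law _ _ h0] at h2
    exact h2
  have hsum : ∑ ω0, c.p ω0 * (1 - k3mI (ω0 ∈ c.Lt1) - k3mCav c.p c.X1 (fun ω1 => k3mCav c.p c.G (fun ωt => k3mI (ωt ∈ c.Bad)) ω1) ω0)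
      ≤ ∑ ω0, c.p ω0 * (k3mCav c.p c.X1 (fun ω1 => k3mCav c.p c.G (fun ωt => k3mI (ω0 ∉ c.Lt1 ∧ ωt ∉ c.Bad ∧ c.Sel true ω0 ωt)) ω1) ω0
          + k3mCav c.p c.X1 (fun ω1 => k3mCav c.p c.G (fun ωt => k3mI (ω0 ∉ c.Lt1 ∧ ωt ∉ c.Bad ∧ c.Sel false ω0 ωt)) ω1) ω0) := by
    refine Finset.sum_le_sum fun ω0 _ => ?_
    by_cases h0 : c.p ω0 = 0
    · simp [h0]
    · exact mul_le_mul_of_nonneg_left (hout ω0 h0) (h.law.nonneg ω0)
  have e1 : ∑ ω0, c.p ω0 * k3mCav c.p c.X1 (fun ω1 => k3mCav c.p c.G (fun ωt => k3mI (ωt ∈ c.Bad)) ω1) ω0 = k3mP c.p c.Bad := by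
    rw [h.inv3, k3mP_eq_sum_I]
  have e2 : ∑ ω0, c.p ω0 * k3mI (ω0 ∈ c.Lt1) = k3mP c.p c.Lt1 := (k3mP_eq_sum_I _ _).symm
  simp only [mul_sub, mul_add, mul_one, Finset.sum_sub_distrib, Finset.sum_add_distrib] at hsum
  rw [e1, e2, h.law.sum_one] at hsum
  have := h.light1
  have := h.bad
  linarith

/-- **THE SWITCHING EXPERIMENT** -/
theorem k3m_chain (h : c.OK) : 1 - 3 * c.ζ1 - c.ζ2 - 2 * c.ζ3 ≤ 2 * (c.κ ^ 2 * c.Γ * c.Nn * c.V) := by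
  have h1 := h.lower1 true
  have h2 := h.lower1 false
  have h3 := h.lower2
  have h4 := h.upper true
  have h5 := h.upper false
  linarith

end

end Claimed.Agent.R252

end PkS3mChain
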