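-- KEEP
import Claimed.Agent.R252.S3m.Prob

/-! PACKED FILE (helper10, closed unit): parts S3m.Sel, S3m.Taylor, S3m.Defs.  Each part is wrapped in its own `section`. -/

section PkS3mSel

/-!
# ROW 252, unit S3m (L3.3 two-colour matching, architect helper93), file Sel.     CONTRACT file: the `sorry`s are the leaves L-252-K3M-S*.

Paper-free finite probability on a nested family of "states" `F k : Ω → S` (`F (k+1)` refines `F k`).
* `k3m_select`  (03 l.431-462): uniformisation of the atom masses.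
* `k3m_palette` (03 l.470-512): little concentration of a palette on most steps.  NO entropy is used.
-/

set_option autoImplicit false
set_option linter.unusedSectionVars false

namespace Claimed.Agent.R252

open scoped BigOperators
open Finset

noncomputable section

variable {Ω : Type} [Fintype Ω]

/-- nested family of labels -/
def K3mNest {S : Type} (F : ℕ → Ω → S) : Prop := ∀ k ω ω', F (k + 1) ω = F (k + 1) ω' → F k ω = F k ω'

theorem k3m_sel_eqns_cite : True := by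
  have := @K3mNest.eq_1
  trivial

theorem K3mNest.le {S : Type} {F : ℕ → Ω → S} (h : K3mNest F) {k k' : ℕ} (hk : k ≤ k') {ω ω' : Ω} (e : F k' ω = F k' ω') :
    F k ω = F k ω' := by
  induction hk with
  | refl => exact e
  | step _ ih => exact ih (h _ _ _ e)

/-! ## 1. Selection      (leaves L-252-K3M-S1, S2, S3) -/

/-- **S1** light atoms: the events whose atom has mass `< 1/(2 Ssz)` have total mass `≤ 1/2`, if there are at most `Ssz` atoms.
Proof: `k3mP_eq_sum_fiber` with `T` = the (finite) set of values of `X` on the support; each fibre `{light} ∩ {X = s}` is either empty or the whole atom, of mass `< 1/(2 Ssz)`. -/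
theorem k3m_light_atoms {S : Type} {p : Ω → ℝ} (hp : K3mLaw p) (X : Ω → S) {Ssz : ℝ}
    (hS : ((X '' {ω | p ω ≠ 0}).ncard : ℝ) ≤ Ssz) :
    k3mP p {ω | k3mP p {ω' | X ω' = X ω} < 1 / (2 * Ssz)} ≤ 1 / 2 := by
  classical
  set T : Finset S := (X '' {ω | p ω ≠ 0}).toFinite.toFinset with hT
  have hcard : (T.card : ℝ) ≤ Ssz := by
    rw [hT, ← Set.ncard_eq_toFinset_card _ _]; exact hS
  have hS0 : 0 ≤ Ssz := le_trans (Nat.cast_nonneg _) hcard
  rw [k3mP_eq_sum_fiber hp _ X T (by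
    intro ω _ h
    rw [hT, Set.Finite.mem_toFinset]
    exact ⟨ω, h, rfl⟩)]
  have hterm : ∀ s ∈ T, k3mP p {ω | ω ∈ {ω | k3mP p {ω' | X ω' = X ω} < 1 / (2 * Ssz)} ∧ X ω = s}
      ≤ 1 / (2 * Ssz) := by
    intro s _
    by_cases hex : ∃ ω0, k3mP p {ω' | X ω' = X ω0} < 1 / (2 * Ssz) ∧ X ω0 = s
    · obtain ⟨ω0, h1, h2⟩ := hex
      refine le_trans (k3mP_mono hp ?_) h1.le
      rintro ω ⟨_, hω⟩
      show X ω = X ω0
      rw [hω, h2]
    · have he : {ω | ω ∈ {ω | k3mP p {ω' | X ω' = X ω} < 1 / (2 * Ssz)} ∧ X ω = s} = ∅ :=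
        Set.eq_empty_iff_forall_notMem.2 (fun ω h => hex ⟨ω, h.1, h.2⟩)
      rw [he, k3mP_empty]
      positivity
  refine le_trans (Finset.sum_le_card_nsmul T _ _ hterm) ?_
  rw [nsmul_eq_mul]
  rcases hS0.eq_or_lt with h0 | h0
  · rw [← h0]; norm_num
  · calc (T.card : ℝ) * (1 / (2 * Ssz)) ≤ Ssz * (1 / (2 * Ssz)) := by gcongr
      _ = 1 / 2 := by field_simp

/-- **S2** pigeonhole: a label with at most `m` values on an event `A`: one value carries the fraction `1/m` of `A`. -/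
theorem k3m_pigeon {S : Type} {p : Ω → ℝ} (hp : K3mLaw p) (A : Set Ω) (X : Ω → S) {m : ℝ} (hm : 0 < m)
    (hX : ((X '' {ω | ω ∈ A ∧ p ω ≠ 0}).ncard : ℝ) ≤ m) (hA : 0 < k3mP p A) :
    ∃ ω0 ∈ A, p ω0 ≠ 0 ∧ k3mP p A / m ≤ k3mP p {ω | ω ∈ A ∧ X ω = X ω0} := by
  classical
  set T : Finset S := (X '' {ω | ω ∈ A ∧ p ω ≠ 0}).toFinite.toFinset with hT
  have hcard : (T.card : ℝ) ≤ m := by
    rw [hT, ← Set.ncard_eq_toFinset_card _ _]; exact hX
  have hsum := k3mP_eq_sum_fiber hp A X T (by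
    intro ω hω h
    rw [hT, Set.Finite.mem_toFinset]
    exact ⟨ω, ⟨hω, h⟩, rfl⟩)
  have hne : T.Nonempty := by
    by_contra hne
    rw [Finset.not_nonempty_iff_eq_empty] at hne
    rw [hne, Finset.sum_empty] at hsum
    exact hA.ne' hsum
  have hle : ∑ _s ∈ T, k3mP p A / m ≤ ∑ s ∈ T, k3mP p {ω | ω ∈ A ∧ X ω = s} := by
    rw [← hsum, Finset.sum_const, nsmul_eq_mul]
    calc (T.card : ℝ) * (k3mP p A / m) ≤ m * (k3mP p A / m) := by gcongr
      _ = k3mP p A := by field_simp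
  obtain ⟨s, hs, hs2⟩ := Finset.exists_le_of_sum_le hne hle
  rw [hT, Set.Finite.mem_toFinset] at hs
  obtain ⟨ω0, ⟨h1, h2⟩, rfl⟩ := hs
  exact ⟨ω0, h1, h2, hs2⟩

/-- restriction of a law to an event of positive mass, normalised -/
def k3mRes (p : Ω → ℝ) (R : Set Ω) : Ω → ℝ := fun ω => R.indicator p ω / k3mP p R

theorem k3m_sel_eqns_cite2 : True := by
  have := @k3mRes.eq_1
  trivial

theorem k3mRes_law {p : Ω → ℝ} (hp : K3mLaw p) {R : Set Ω} (hR : 0 < k3mP p R) : K3mLaw (k3mRes p R) := by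
  refine ⟨fun ω => div_nonneg (Set.indicator_nonneg (fun x _ => hp.nonneg x) ω) hR.le, ?_⟩
  unfold k3mRes
  rw [← Finset.sum_div]
  exact div_self hR.ne'

theorem k3mRes_le {p : Ω → ℝ} (hp : K3mLaw p) {R : Set Ω} {c : ℝ} (hc : 0 < c) (hR : 1 / c ≤ k3mP p R) (ω : Ω) :
    k3mRes p R ω ≤ c * p ω := by
  have hR0 : 0 < k3mP p R := lt_of_lt_of_le (by positivity) hR
  unfold k3mRes
  rw [div_le_iff₀ hR0]
  have h1 : R.indicator p ω ≤ p ω := Set.indicator_le_self' (fun x _ => hp.nonneg x) ω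
  have h2 : 1 ≤ c * k3mP p R := by
    rw [div_le_iff₀ hc] at hR; linarith
  calc R.indicator p ω ≤ p ω := h1
    _ = p ω * 1 := (mul_one _).symm
    _ ≤ p ω * (c * k3mP p R) := mul_le_mul_of_nonneg_left h2 (hp.nonneg ω)
    _ = c * p ω * k3mP p R := by ring

theorem k3mRes_ne_zero {p : Ω → ℝ} {R : Set Ω} {ω : Ω} (h : k3mRes p R ω ≠ 0) : ω ∈ R ∧ p ω ≠ 0 := by
  unfold k3mRes at h
  have h1 : R.indicator p ω ≠ 0 := fun h0 => h (by rw [h0, zero_div])
  have h2 : ω ∈ R := by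
    by_contra hn
    exact h1 (Set.indicator_of_notMem hn p)
  refine ⟨h2, ?_⟩
  rwa [Set.indicator_of_mem h2] at h1

/-- **S3** children count: if on `R` the atoms of `X` (coarse) have mass `≤ a` and those of `Y` (fine, refines `X`) have mass `≥ b > 0`,
then an atom of `X` has at most `a / b` children which meet `R`.   (disjoint fibres of `Y` inside one fibre of `X`) -/
theorem k3m_children {S S' : Type} {p : Ω → ℝ} (hp : K3mLaw p) (X : Ω → S) (Y : Ω → S') (hXY : ∀ ω ω', Y ω = Y ω' → X ω = X ω')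
    (R : Set Ω) {a b : ℝ} (ha0 : 0 ≤ a) (hb : 0 < b) (ha : ∀ ω ∈ R, k3mP p {ω' | X ω' = X ω} ≤ a) (hbR : ∀ ω ∈ R, b ≤ k3mP p {ω' | Y ω' = Y ω})
    (A : S) : ((Y '' {ω | ω ∈ R ∧ X ω = A}).ncard : ℝ) ≤ a / b := by
  classical
  set T : Finset S' := (Y '' {ω | ω ∈ R ∧ X ω = A}).toFinite.toFinset with hT
  rw [Set.ncard_eq_toFinset_card _ (Y '' {ω | ω ∈ R ∧ X ω = A}).toFinite, ← hT]
  rcases T.eq_empty_or_nonempty with h0 | ⟨s0, hs0⟩
  · rw [h0]; simp only [Finset.card_empty, Nat.cast_zero]; positivity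
  rw [le_div_iff₀ hb]
  have hmem : ∀ s ∈ T, ∃ ω ∈ R, X ω = A ∧ Y ω = s := by
    intro s hs
    rw [hT, Set.Finite.mem_toFinset] at hs
    obtain ⟨ω, ⟨h1, h2⟩, h3⟩ := hs
    exact ⟨ω, h1, h2, h3⟩
  obtain ⟨ω0, hω0, hXω0, -⟩ := hmem s0 hs0
  have h1 : k3mP p {ω | Y ω ∈ T} ≤ a := by
    refine le_trans (k3mP_mono hp ?_) (ha ω0 hω0)
    intro ω hω
    obtain ⟨ω1, _, h2, h3⟩ := hmem _ hω
    show X ω = X ω0
    rw [hXω0, ← h2]
    exact hXY _ _ h3.symm
  have h2 := k3mP_eq_sum_fiber hp {ω | Y ω ∈ T} Y T (fun ω hω _ => hω)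
  have h3 : ∀ s ∈ T, b ≤ k3mP p {ω | ω ∈ {ω | Y ω ∈ T} ∧ Y ω = s} := by
    intro s hs
    obtain ⟨ω1, hR1, _, h5⟩ := hmem s hs
    refine le_trans (hbR ω1 hR1) (k3mP_mono hp ?_)
    intro ω hω
    have hω' : Y ω = s := by rw [← h5]; exact hω
    refine ⟨?_, hω'⟩
    show Y ω ∈ T
    rw [hω']; exact hs
  have h4 := Finset.card_nsmul_le_sum T _ b h3
  rw [nsmul_eq_mul, ← h2] at h4
  linarith

/-- **SELECTION** (03 l.431-462).  `F` nested, at most `Ssz` atoms at the last level `n`.  There are a law `p' ≤ c p` and exponents `u 0 ≤ ... ≤ u n ≤ log_N (2 Ssz)`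
such that an atom of level `k` has at most `N^(u k' - u k + η)` children of level `k'` in the support of `p'`.
PROOF.  `M k ω` := mass of the atom of `F k` through `ω`.  `A` := support minus the light events of level `n` (`k3m_light_atoms`): mass `≥ 1/2`, and there `1/(2 Ssz) ≤ M n ≤ M k ≤ 1`.
Class `X ω := fun k : Fin (n+1) => ⌊ - logb N (M k ω) / η ⌋₊`, values in `{0..⌊Lmax/η⌋}`, `Lmax = logb N (2 Ssz)`: at most `(Lmax/η + 1)^(n+1)` classes.
`k3m_pigeon` gives `ω0`, `R := A ∩ {X = X ω0}`, `p' := k3mRes p R`, `u k := η * X ω0 k` (for `k ≤ n`; `u k := u n` above).  On `R`: `N^(-u k - η) < M k ≤ N^(-u k)`.  `k3m_children`. -/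
theorem k3m_select {S : Type} {p : Ω → ℝ} (hp : K3mLaw p) (n : ℕ) (F : ℕ → Ω → S) (hF : K3mNest F) {N η Ssz : ℝ} (hN : 1 < N) (hη : 0 < η)
    (hS : ((F n '' {ω | p ω ≠ 0}).ncard : ℝ) ≤ Ssz) :
    ∃ (p' : Ω → ℝ) (u : ℕ → ℝ), K3mLaw p' ∧ (∀ ω, p' ω ≤ 2 * (Real.logb N (2 * Ssz) / η + 1) ^ (n + 1) * p ω) ∧
      (∀ k, k < n → u k ≤ u (k + 1)) ∧ 0 ≤ u 0 ∧ u n ≤ Real.logb N (2 * Ssz) ∧
      ∀ k k', k ≤ k' → k' ≤ n → ∀ A : S, ((F k' '' {ω | p' ω ≠ 0 ∧ F k ω = A}).ncard : ℝ) ≤ N ^ (u k' - u k + η) := by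
  classical
  have hN0 : 0 < N := lt_trans zero_lt_one hN
  have hsupp : ∃ ω, p ω ≠ 0 := by
    by_contra h
    push Not at h
    have := hp.sum_one
    simp [h] at this
  obtain ⟨ωs, hωs⟩ := hsupp
  have hS1 : 1 ≤ Ssz := by
    refine le_trans ?_ hS
    have : 0 < (F n '' {ω | p ω ≠ 0}).ncard :=
      (Set.ncard_pos (Set.toFinite _)).2 ⟨F n ωs, ωs, hωs, rfl⟩
    exact_mod_cast this
  set Mm : ℕ → Ω → ℝ := fun k ω => k3mP p {ω' | F k ω' = F k ω} with hMm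
  set Lmax := Real.logb N (2 * Ssz) with hLmax
  have hLmax0 : 0 ≤ Lmax := Real.logb_nonneg hN (by linarith)
  set A : Set Ω := {ω | k3mP p {ω' | F n ω' = F n ω} < 1 / (2 * Ssz)}ᶜ with hA
  have hPA : 1 / 2 ≤ k3mP p A := by
    rw [hA, k3mP_compl hp]
    have := k3m_light_atoms hp (F n) hS
    linarith
  have hMmono : ∀ k k', k ≤ k' → ∀ ω, Mm k' ω ≤ Mm k ω :=
    fun k k' h ω => k3mP_mono hp (fun ω' e => hF.le h e)
  have hMle1 : ∀ k ω, Mm k ω ≤ 1 := fun k ω => k3mP_le_one hp _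
  have hMA : ∀ ω ∈ A, ∀ k ≤ n, 1 / (2 * Ssz) ≤ Mm k ω := by
    intro ω hω k hk
    have h1 : ¬ (Mm n ω < 1 / (2 * Ssz)) := hω
    exact le_trans (not_lt.1 h1) (hMmono k n hk ω)
  have hMpos : ∀ ω ∈ A, ∀ k ≤ n, 0 < Mm k ω := fun ω hω k hk =>
    lt_of_lt_of_le (by positivity) (hMA ω hω k hk)
  set ℓ : ℕ → Ω → ℝ := fun k ω => - Real.logb N (Mm k ω) with hℓ
  have hℓ0 : ∀ ω ∈ A, ∀ k ≤ n, 0 ≤ ℓ k ω := by
    intro ω hω k hk
    have := Real.logb_nonpos hN (hMpos ω hω k hk).le (hMle1 k ω)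
    simp only [hℓ]; linarith
  have hℓmax : ∀ ω ∈ A, ∀ k ≤ n, ℓ k ω ≤ Lmax := by
    intro ω hω k hk
    have h1 : Real.logb N (1 / (2 * Ssz)) ≤ Real.logb N (Mm k ω) :=
      Real.logb_le_logb_of_le hN (by positivity) (hMA ω hω k hk)
    rw [one_div, Real.logb_inv] at h1
    simp only [hℓ]; linarith
  have hℓmono : ∀ ω ∈ A, ∀ k k', k ≤ k' → k' ≤ n → ℓ k ω ≤ ℓ k' ω := by
    intro ω hω k k' hkk' hk'
    have h1 : Real.logb N (Mm k' ω) ≤ Real.logb N (Mm k ω) :=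
      Real.logb_le_logb_of_le hN (hMpos ω hω k' hk') (hMmono k k' hkk' ω)
    simp only [hℓ]; linarith
  set X : Ω → (Fin (n + 1) → ℕ) := fun ω k => ⌊ℓ k ω / η⌋₊ with hX
  set q := ⌊Lmax / η⌋₊ with hq
  set m : ℝ := (Lmax / η + 1) ^ (n + 1) with hmdef
  have hm : 0 < m := by positivity
  have hXcard : ((X '' {ω | ω ∈ A ∧ p ω ≠ 0}).ncard : ℝ) ≤ m := by
    have hsub : X '' {ω | ω ∈ A ∧ p ω ≠ 0} ⊆ ↑(Fintype.piFinset (fun _ : Fin (n + 1) => range (q + 1))) := by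
      rintro _ ⟨ω, ⟨hω, _⟩, rfl⟩
      rw [Finset.mem_coe, Fintype.mem_piFinset]
      intro k
      rw [Finset.mem_range, Nat.lt_succ_iff]
      exact Nat.floor_le_floor (div_le_div_of_nonneg_right (hℓmax ω hω k (Nat.lt_succ_iff.1 k.2)) hη.le)
    have h1 := Set.ncard_le_ncard hsub (Finset.finite_toSet _)
    rw [Set.ncard_coe_finset, Fintype.card_piFinset] at h1
    simp only [Finset.card_range, Finset.prod_const, Finset.card_univ, Fintype.card_fin] at h1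
    calc ((X '' {ω | ω ∈ A ∧ p ω ≠ 0}).ncard : ℝ) ≤ (((q + 1) ^ (n + 1) : ℕ) : ℝ) := by exact_mod_cast h1
      _ = ((q : ℝ) + 1) ^ (n + 1) := by push_cast; ring
      _ ≤ m := by
          rw [hmdef]
          gcongr
          exact Nat.floor_le (by positivity)
  obtain ⟨ω0, hω0A, hω0p, hpig⟩ := k3m_pigeon hp A X hm hXcard (by linarith)
  set R : Set Ω := {ω | ω ∈ A ∧ X ω = X ω0} with hR
  have hPR : 1 / (2 * m) ≤ k3mP p R := by
    refine le_trans ?_ hpig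
    rw [div_le_div_iff₀ (by positivity) hm]
    nlinarith
  have hPR0 : 0 < k3mP p R := lt_of_lt_of_le (by positivity) hPR
  set u : ℕ → ℝ := fun k => η * (⌊ℓ (min k n) ω0 / η⌋₊ : ℝ) with hu
  have hu_eq : ∀ ω ∈ R, ∀ k ≤ n, u k = η * (⌊ℓ k ω / η⌋₊ : ℝ) := by
    intro ω hω k hk
    have h1 : X ω ⟨k, Nat.lt_succ_of_le hk⟩ = X ω0 ⟨k, Nat.lt_succ_of_le hk⟩ := congrFun hω.2 _
    simp only [hX] at h1
    simp only [hu]
    rw [min_eq_left hk, h1]
  refine ⟨k3mRes p R, u, k3mRes_law hp hPR0, fun ω => k3mRes_le hp (by positivity) hPR ω, ?_, ?_, ?_, ?_⟩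
  · intro k hk
    simp only [hu]
    rw [min_eq_left hk.le, min_eq_left (Nat.succ_le_of_lt hk)]
    have h1 : ⌊ℓ k ω0 / η⌋₊ ≤ ⌊ℓ (k + 1) ω0 / η⌋₊ :=
      Nat.floor_le_floor (div_le_div_of_nonneg_right (hℓmono ω0 hω0A k (k + 1) (Nat.le_succ k) hk) hη.le)
    have h2 : (⌊ℓ k ω0 / η⌋₊ : ℝ) ≤ (⌊ℓ (k + 1) ω0 / η⌋₊ : ℝ) := by exact_mod_cast h1
    exact mul_le_mul_of_nonneg_left h2 hη.le
  · simp only [hu]; positivity
  · simp only [hu, min_self]
    calc η * (⌊ℓ n ω0 / η⌋₊ : ℝ) ≤ η * (ℓ n ω0 / η) :=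
          mul_le_mul_of_nonneg_left (Nat.floor_le (div_nonneg (hℓ0 ω0 hω0A n le_rfl) hη.le)) hη.le
      _ = ℓ n ω0 := by field_simp
      _ ≤ Lmax := hℓmax ω0 hω0A n le_rfl
  · intro k k' hkk' hk'n A'
    have hkn : k ≤ n := le_trans hkk' hk'n
    have hsub : F k' '' {ω | k3mRes p R ω ≠ 0 ∧ F k ω = A'} ⊆ F k' '' {ω | ω ∈ R ∧ F k ω = A'} :=
      Set.image_mono (fun ω h => ⟨(k3mRes_ne_zero h.1).1, h.2⟩)
    have h1 : ((F k' '' {ω | k3mRes p R ω ≠ 0 ∧ F k ω = A'}).ncard : ℝ)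
        ≤ ((F k' '' {ω | ω ∈ R ∧ F k ω = A'}).ncard : ℝ) := by
      exact_mod_cast Set.ncard_le_ncard hsub (Set.toFinite _)
    refine le_trans h1 ?_
    have h2 := k3m_children hp (F k) (F k') (fun ω ω' e => hF.le hkk' e) R (a := N ^ (- u k))
      (b := N ^ (- u k' - η)) (by positivity) (by positivity) ?_ ?_ A'
    · refine le_trans h2 (le_of_eq ?_)
      rw [← Real.rpow_sub hN0]
      congr 1; ring
    · intro ω hω
      have h3 : u k ≤ ℓ k ω := by
        rw [hu_eq ω hω k hkn]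
        calc η * (⌊ℓ k ω / η⌋₊ : ℝ) ≤ η * (ℓ k ω / η) :=
              mul_le_mul_of_nonneg_left (Nat.floor_le (div_nonneg (hℓ0 ω hω.1 k hkn) hη.le)) hη.le
          _ = ℓ k ω := by field_simp
      have h4 : Real.logb N (Mm k ω) ≤ - u k := by
        simp only [hℓ] at h3; linarith
      exact (Real.logb_le_iff_le_rpow hN (hMpos ω hω.1 k hkn)).1 h4
    · intro ω hω
      have h3 : ℓ k' ω < u k' + η := by
        rw [hu_eq ω hω k' hk'n]
        have h5 := Nat.lt_floor_add_one (ℓ k' ω / η)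
        rw [div_lt_iff₀ hη] at h5
        linarith
      have h4 : - u k' - η < Real.logb N (Mm k' ω) := by
        simp only [hℓ] at h3; linarith
      exact ((Real.lt_logb_iff_rpow_lt hN (hMpos ω hω.1 k' hk'n)).1 h4).le

/-! ## 2. The palette      (leaves L-252-K3M-S4, S5, S6) -/

theorem k3mX_pos {S SZ : Type} {p : Ω → ℝ} (hp : K3mLaw p) (X : Ω → S) (Z : Ω → SZ) {ω : Ω} (h : p ω ≠ 0) : 0 < k3mX p X Z ω := by
  unfold k3mX
  exact div_pos (k3mP_pos hp (show ω ∈ {ω' | X ω' = X ω ∧ Z ω' = Z ω} from ⟨rfl, rfl⟩) h)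
    (k3mP_pos hp (show ω ∈ {ω' | X ω' = X ω} from rfl) h)

theorem k3mX_le_one {S SZ : Type} {p : Ω → ℝ} (hp : K3mLaw p) (X : Ω → S) (Z : Ω → SZ) (ω : Ω) : k3mX p X Z ω ≤ 1 := by
  unfold k3mX
  exact div_le_one_of_le₀ (k3mP_mono hp (fun ω' h => h.1)) (k3mP_nonneg hp _)

/-- auxiliary: the sum over an event `B` of `p ω / P(B, Z = Z ω) * g (Z ω)` is at most the sum of `g` over the values of `Z`. -/
theorem k3m_atoms_sum {SZ : Type} [DecidableEq SZ] {p : Ω → ℝ} (B : Set Ω) (Z : Ω → SZ) (g : SZ → ℝ) (hg : ∀ z, 0 ≤ g z)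
    (T : Finset SZ) (hT : ∀ ω ∈ B, p ω ≠ 0 → Z ω ∈ T) :
    ∑ ω, B.indicator (fun ω => p ω / k3mP p {ω' | ω' ∈ B ∧ Z ω' = Z ω} * g (Z ω)) ω ≤ ∑ s ∈ T, g s := by
  have h1 : ∀ ω, B.indicator (fun ω => p ω / k3mP p {ω' | ω' ∈ B ∧ Z ω' = Z ω} * g (Z ω)) ω
      = ∑ s ∈ T, {ω' | ω' ∈ B ∧ Z ω' = s}.indicator p ω / k3mP p {ω' | ω' ∈ B ∧ Z ω' = s} * g s := by
    intro ω
    by_cases hB : ω ∈ B
    · rw [Set.indicator_of_mem hB]
      by_cases hp0 : p ω = 0
      · rw [hp0, zero_div, zero_mul]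
        symm
        apply Finset.sum_eq_zero
        intro s _
        have : {ω' | ω' ∈ B ∧ Z ω' = s}.indicator p ω = 0 := by
          by_cases hm : ω ∈ {ω' | ω' ∈ B ∧ Z ω' = s}
          · rw [Set.indicator_of_mem hm, hp0]
          · exact Set.indicator_of_notMem hm p
        rw [this, zero_div, zero_mul]
      · rw [Finset.sum_eq_single (Z ω)]
        · rw [Set.indicator_of_mem (show ω ∈ {ω' | ω' ∈ B ∧ Z ω' = Z ω} from ⟨hB, rfl⟩)]
        · intro s _ hs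
          rw [Set.indicator_of_notMem (fun hm => hs hm.2.symm), zero_div, zero_mul]
        · intro hn; exact absurd (hT ω hB hp0) hn
    · rw [Set.indicator_of_notMem hB]
      symm
      apply Finset.sum_eq_zero
      intro s _
      rw [Set.indicator_of_notMem (fun hm => hB hm.1), zero_div, zero_mul]
  simp_rw [h1]
  rw [Finset.sum_comm]
  apply Finset.sum_le_sum
  intro s _
  rw [← Finset.sum_mul, ← Finset.sum_div]
  have h2 : (∑ ω, {ω' | ω' ∈ B ∧ Z ω' = s}.indicator p ω) / k3mP p {ω' | ω' ∈ B ∧ Z ω' = s} ≤ 1 :=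
    div_self_le_one _
  calc _ ≤ 1 * g s := mul_le_mul_of_nonneg_right h2 (hg s)
    _ = g s := one_mul _

/-- **S4** `E[1 / P(Z | X)] ≤ M` if `Z` has at most `M` values (on the support) on every atom of `X`.
(`∑_ω p ω / X ω = ∑_{atoms A} P(A) #{z : P(A, z) > 0}`.) -/
theorem k3m_pal_inv {S SZ : Type} {p : Ω → ℝ} (hp : K3mLaw p) (X : Ω → S) (Z : Ω → SZ) {M : ℝ}
    (hM : ∀ ω, ((Z '' {ω' | p ω' ≠ 0 ∧ X ω' = X ω}).ncard : ℝ) ≤ M) :
    ∑ ω, p ω * (k3mX p X Z ω)⁻¹ ≤ M := by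
  classical
  rw [← k3m_inv hp X (fun ω => (k3mX p X Z ω)⁻¹)]
  have hcav : ∀ ω, k3mCav p X (fun ω => (k3mX p X Z ω)⁻¹) ω ≤ M := by
    intro ω
    unfold k3mCav k3mCv
    set PA := k3mP p {ω' | X ω' = X ω} with hPA
    have hnum : ∑ ω', {ω' | X ω' = X ω}.indicator (fun ω' => p ω' * (k3mX p X Z ω')⁻¹) ω'
        = PA * ∑ ω', {ω' | X ω' = X ω}.indicator
          (fun ω' => p ω' / k3mP p {ω'' | ω'' ∈ {ω' | X ω' = X ω} ∧ Z ω'' = Z ω'} * 1) ω' := by
      rw [Finset.mul_sum]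
      apply Finset.sum_congr rfl
      intro ω' _
      by_cases hm : ω' ∈ {ω' | X ω' = X ω}
      · rw [Set.indicator_of_mem hm, Set.indicator_of_mem hm]
        have hm' : X ω' = X ω := hm
        unfold k3mX
        rw [hm', inv_div]
        show p ω' * (PA / k3mP p {ω'' | X ω'' = X ω ∧ Z ω'' = Z ω'})
          = PA * (p ω' / k3mP p {ω'' | X ω'' = X ω ∧ Z ω'' = Z ω'} * 1)
        ring
      · rw [Set.indicator_of_notMem hm, Set.indicator_of_notMem hm, mul_zero]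
    rw [hnum]
    have hcount := k3m_atoms_sum (p := p) {ω' | X ω' = X ω} Z (fun _ => 1) (fun _ => zero_le_one)
      (Z '' {ω' | p ω' ≠ 0 ∧ X ω' = X ω}).toFinite.toFinset (by
      intro ω' h1 h2
      rw [Set.Finite.mem_toFinset]
      exact ⟨ω', ⟨h2, h1⟩, rfl⟩)
    rw [Finset.sum_const, nsmul_eq_mul, mul_one, ← Set.ncard_eq_toFinset_card _ _] at hcount
    have hM' := hM ω
    by_cases h0 : PA = 0
    · rw [h0, zero_mul, zero_div]
      exact le_trans (Nat.cast_nonneg _) hM'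
    · rw [mul_div_cancel_left₀ _ h0]
      exact le_trans hcount hM'
  calc ∑ ω, p ω * k3mCav p X (fun ω => (k3mX p X Z ω)⁻¹) ω ≤ ∑ ω, p ω * M :=
        Finset.sum_le_sum (fun ω _ => mul_le_mul_of_nonneg_left (hcav ω) (hp.nonneg ω))
    _ = M := by rw [← Finset.sum_mul, hp.sum_one, one_mul]

/-- **S5** `E[P(Z | X) / P(Z | Y)] ≤ 1` if `Y` refines `X`.
(`= ∑_{atoms B of Y} P(B) ∑_{z : P(B, z) > 0} P(A(B), z) / P(A(B)) ≤ ∑_B P(B)`.) -/
theorem k3m_pal_ratio {S S' SZ : Type} {p : Ω → ℝ} (hp : K3mLaw p) (X : Ω → S) (Y : Ω → S') (hXY : ∀ ω ω', Y ω = Y ω' → X ω = X ω')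
    (Z : Ω → SZ) : ∑ ω, p ω * (k3mX p X Z ω / k3mX p Y Z ω) ≤ 1 := by
  classical
  rw [← k3m_inv hp Y (fun ω => k3mX p X Z ω / k3mX p Y Z ω)]
  have hcav : ∀ ω, k3mCav p Y (fun ω => k3mX p X Z ω / k3mX p Y Z ω) ω ≤ 1 := by
    intro ω
    unfold k3mCav k3mCv
    set PB := k3mP p {ω' | Y ω' = Y ω} with hPB
    set PA := k3mP p {ω' | X ω' = X ω} with hPA
    have hnum : ∑ ω', {ω' | Y ω' = Y ω}.indicator (fun ω' => p ω' * (k3mX p X Z ω' / k3mX p Y Z ω')) ω'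
        = PB * ∑ ω', {ω' | Y ω' = Y ω}.indicator
          (fun ω' => p ω' / k3mP p {ω'' | ω'' ∈ {ω' | Y ω' = Y ω} ∧ Z ω'' = Z ω'}
            * (fun z => k3mP p {ω'' | ω'' ∈ {ω' | X ω' = X ω} ∧ Z ω'' = z} / PA) (Z ω')) ω' := by
      rw [Finset.mul_sum]
      apply Finset.sum_congr rfl
      intro ω' _
      by_cases hm : ω' ∈ {ω' | Y ω' = Y ω}
      · rw [Set.indicator_of_mem hm, Set.indicator_of_mem hm]
        have hm' : Y ω' = Y ω := hm
        have hm2 : X ω' = X ω := hXY _ _ hm'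
        unfold k3mX
        rw [hm', hm2, div_div_eq_mul_div]
        show p ω' * (k3mP p {ω'' | X ω'' = X ω ∧ Z ω'' = Z ω'} / PA * PB / k3mP p {ω'' | Y ω'' = Y ω ∧ Z ω'' = Z ω'})
          = PB * (p ω' / k3mP p {ω'' | Y ω'' = Y ω ∧ Z ω'' = Z ω'} * (k3mP p {ω'' | X ω'' = X ω ∧ Z ω'' = Z ω'} / PA))
        ring
      · rw [Set.indicator_of_notMem hm, Set.indicator_of_notMem hm, mul_zero]
    rw [hnum]
    have hcount := k3m_atoms_sum (p := p) {ω' | Y ω' = Y ω} Z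
      (fun z => k3mP p {ω'' | ω'' ∈ {ω' | X ω' = X ω} ∧ Z ω'' = z} / PA)
      (fun z => div_nonneg (k3mP_nonneg hp _) (k3mP_nonneg hp _))
      (Finset.univ.image Z) (fun ω' _ _ => Finset.mem_image_of_mem Z (Finset.mem_univ ω'))
    rw [← Finset.sum_div, ← k3mP_eq_sum_fiber hp {ω' | X ω' = X ω} Z (Finset.univ.image Z)
      (fun ω' _ _ => Finset.mem_image_of_mem Z (Finset.mem_univ ω'))] at hcount
    have h1 : PA / PA ≤ 1 := div_self_le_one _
    by_cases h0 : PB = 0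
    · rw [h0, zero_mul, zero_div]
      exact zero_le_one
    · rw [mul_div_cancel_left₀ _ h0]
      exact le_trans hcount h1
  calc ∑ ω, p ω * k3mCav p Y (fun ω => k3mX p X Z ω / k3mX p Y Z ω) ω ≤ ∑ ω, p ω * 1 :=
        Finset.sum_le_sum (fun ω _ => mul_le_mul_of_nonneg_left (hcav ω) (hp.nonneg ω))
    _ = 1 := by rw [← Finset.sum_mul, hp.sum_one, one_mul]

open Classical in
/-- auxiliary: one residue class of `k3m_pal_count` -/
theorem k3m_pal_chain (x : ℕ → ℝ) (L C r : ℕ) {M T Γ : ℝ} (hM : 0 < M) (hT : 1 ≤ T) (hΓ : 1 ≤ Γ)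
    (hpos : ∀ k, 0 < x k) (h0 : 1 / (M * T) ≤ x r) (hr : ∀ k < L, x k / T ≤ x (k + C)) (J : ℕ) (hJ : r + J * C < L + C) :
    Γ ^ ((range J).filter (fun j => Γ * x (r + j * C) < x (r + j * C + C))).card ≤ x (r + J * C) * T ^ J * (M * T) := by
  have hT0 : 0 < T := lt_of_lt_of_le zero_lt_one hT
  have hΓ0 : 0 < Γ := lt_of_lt_of_le zero_lt_one hΓ
  induction J with
  | zero =>
    simp only [Finset.range_zero, Finset.filter_empty, Finset.card_empty, pow_zero, zero_mul, add_zero, mul_one]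
    rw [div_le_iff₀ (by positivity)] at h0
    exact h0
  | succ J ih =>
    have e : r + (J + 1) * C = r + J * C + C := by ring
    have hJ' : r + J * C < L := by omega
    have ih' := ih (by omega)
    rw [Finset.range_add_one, Finset.filter_insert, e]
    have hx := hpos (r + J * C)
    have hx' := hpos (r + J * C + C)
    split_ifs with hbad
    · rw [Finset.card_insert_of_notMem (by simp), pow_succ]
      calc _ ≤ (x (r + J * C) * T ^ J * (M * T)) * Γ := by gcongr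
        _ = (Γ * x (r + J * C)) * T ^ J * (M * T) := by ring
        _ ≤ x (r + J * C + C) * T ^ J * (M * T) := by gcongr
        _ ≤ x (r + J * C + C) * T ^ (J + 1) * (M * T) := by
            gcongr
            exact Nat.le_succ J
    · calc _ ≤ x (r + J * C) * T ^ J * (M * T) := ih'
        _ = (x (r + J * C) / T) * T ^ (J + 1) * (M * T) := by
            rw [pow_succ]; field_simp
        _ ≤ x (r + J * C + C) * T ^ (J + 1) * (M * T) := by
            gcongr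
            exact hr _ hJ'

/-- **S6a** deterministic counting.  Positive numbers `x 0, ..., x (L + C - 1) ≤ 1`, `x k ≥ 1/(M T)` for `k < C`, `x (k + C) ≥ x k / T` for `k < L`, `M T^(L+1) < Γ^(v+1)`:
at most `C v` indices `k < L` have `x (k + C) > Γ x k`.   (In each residue class mod `C` the product of the ratios telescopes to `≤ M T`; at most `v` big ratios per class.) -/
theorem k3m_pal_count (x : ℕ → ℝ) (L C v : ℕ) (hC : 1 ≤ C) {M T Γ : ℝ} (hM : 0 < M) (hT : 1 ≤ T) (hΓ : 1 ≤ Γ)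
    (hpos : ∀ k, 0 < x k) (hle : ∀ k, x k ≤ 1) (h0 : ∀ k < C, 1 / (M * T) ≤ x k) (hr : ∀ k < L, x k / T ≤ x (k + C))
    (hv : M * T ^ (L + 1) < Γ ^ (v + 1)) :
    ({k | k < L ∧ Γ * x k < x (k + C)} : Set ℕ).ncard ≤ C * v := by
  classical
  have hT0 : 0 < T := lt_of_lt_of_le zero_lt_one hT
  set Bad : Finset ℕ := (range L).filter (fun k => Γ * x k < x (k + C)) with hBad
  have hset : ({k | k < L ∧ Γ * x k < x (k + C)} : Set ℕ) = ↑Bad := by
    ext k; simp [hBad]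
  rw [hset, Set.ncard_coe_finset]
  have hcls : ∀ r ∈ Bad.image (· % C), (Bad.filter (fun k => k % C = r)).card ≤ v := by
    intro r hr'
    obtain ⟨k1, hk1B, hk1r⟩ := Finset.mem_image.1 hr'
    have hrC : r < C := by
      rw [← hk1r]; exact Nat.mod_lt _ hC
    set cls := Bad.filter (fun k => k % C = r) with hclsdef
    have hne : cls.Nonempty := ⟨k1, Finset.mem_filter.2 ⟨hk1B, hk1r⟩⟩
    set kmax := cls.max' hne with hkmaxdef
    have hkmax : kmax ∈ cls := Finset.max'_mem _ _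
    obtain ⟨hk1, hk2⟩ := Finset.mem_filter.1 hkmax
    have hkL : kmax < L := Finset.mem_range.1 (Finset.mem_filter.1 hk1).1
    have hdecomp : ∀ k, k % C = r → r + (k / C) * C = k := by
      intro k hk; rw [← hk, mul_comm]; exact Nat.mod_add_div k C
    have hJ : r + (kmax / C + 1) * C < L + C := by
      have := hdecomp kmax hk2
      rw [add_mul, one_mul, ← add_assoc, this]; omega
    have hchain := k3m_pal_chain x L C r hM hT hΓ hpos (h0 r hrC) hr (kmax / C + 1) hJ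
    have hinj : cls.card ≤ ((range (kmax / C + 1)).filter
        (fun j => Γ * x (r + j * C) < x (r + j * C + C))).card := by
      apply Finset.card_le_card_of_injOn (fun k => k / C)
      · intro k hk
        have hk' : k ∈ cls := hk
        obtain ⟨hkB, hkr⟩ := Finset.mem_filter.1 hk'
        have hle : k ≤ kmax := Finset.le_max' _ _ hk'
        rw [Finset.mem_coe, Finset.mem_filter, Finset.mem_range]
        refine ⟨Nat.lt_succ_of_le (Nat.div_le_div_right hle), ?_⟩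
        rw [hdecomp k hkr]
        exact (Finset.mem_filter.1 hkB).2
      · intro k hk k' hk' e
        have h1 := hdecomp k (Finset.mem_filter.1 (Finset.mem_coe.1 hk)).2
        have h2 := hdecomp k' (Finset.mem_filter.1 (Finset.mem_coe.1 hk')).2
        simp only at e
        rw [← h1, ← h2, e]
    have hJL : kmax / C + 1 ≤ L := by
      have := Nat.div_le_self kmax C
      omega
    have hlt : Γ ^ ((range (kmax / C + 1)).filter
        (fun j => Γ * x (r + j * C) < x (r + j * C + C))).card < Γ ^ (v + 1) := by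
      calc _ ≤ x (r + (kmax / C + 1) * C) * T ^ (kmax / C + 1) * (M * T) := hchain
        _ ≤ 1 * T ^ L * (M * T) := by
            gcongr
            exact hle _
        _ = M * T ^ (L + 1) := by ring
        _ < _ := hv
    have hb : ((range (kmax / C + 1)).filter
        (fun j => Γ * x (r + j * C) < x (r + j * C + C))).card < v + 1 := by
      by_contra hcon
      push Not at hcon
      exact absurd (pow_le_pow_right₀ hΓ hcon) (not_le.2 hlt)
    omega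
  calc Bad.card ≤ v * (Bad.image (· % C)).card := Finset.card_le_mul_card_image _ _ hcls
    _ ≤ v * C := by
        apply Nat.mul_le_mul_left
        calc _ ≤ (range C).card := Finset.card_le_card (by
              intro r hr
              obtain ⟨k, _, rfl⟩ := Finset.mem_image.1 hr
              exact Finset.mem_range.2 (Nat.mod_lt _ hC))
          _ = C := Finset.card_range C
    _ = C * v := mul_comm _ _

/-- auxiliary: finite union bound -/
theorem k3mP_exists_le {ι : Type} {p : Ω → ℝ} (hp : K3mLaw p) (s : Finset ι) (E : ι → Set Ω) :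
    k3mP p {ω | ∃ k ∈ s, ω ∈ E k} ≤ ∑ k ∈ s, k3mP p (E k) := by
  classical
  induction s using Finset.induction_on with
  | empty =>
    have h0 : {ω | ∃ k ∈ (∅ : Finset ι), ω ∈ E k} = ∅ := by ext; simp
    rw [h0, k3mP_empty, Finset.sum_empty]
  | insert a s ha ih =>
    rw [Finset.sum_insert ha]
    have h0 : {ω | ∃ k ∈ insert a s, ω ∈ E k} = E a ∪ {ω | ∃ k ∈ s, ω ∈ E k} := by
      ext ω; simp [Finset.mem_insert]
    rw [h0]
    exact le_trans (k3mP_union_le hp _ _) (by linarith)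

/-- **PALETTE** (03 l.470-512).  Sum over the steps `k0 + k → k0 + k + C`, `k < L`, of the probability that the palette is more than `Γ` times more likely given the fine state.
PROOF. `x k := k3mX p (F (k0 + k)) Z ω`.  Good event: `x k ≥ 1/(M T)` (`k < C`) and `x (k + C) ≥ x k / T` (`k < L`); its complement has probability `≤ (C + L)/T`
(`k3m_markov` with `k3m_pal_inv` [the atoms of `F (k0+k)` refine those of `F k0`: at most `M` values] and with `k3m_pal_ratio`).  On the good event `k3m_pal_count`; elsewhere the count is `≤ L`.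
`k3m_sum_P_eq`. -/
theorem k3m_palette {S SZ : Type} {p : Ω → ℝ} (hp : K3mLaw p) (F : ℕ → Ω → S) (hF : K3mNest F) (Z : Ω → SZ) (k0 L C v : ℕ) (hC : 1 ≤ C)
    {M T Γ : ℝ} (hT : 1 ≤ T) (hΓ : 1 ≤ Γ) (hM : ∀ ω, ((Z '' {ω' | p ω' ≠ 0 ∧ F k0 ω' = F k0 ω}).ncard : ℝ) ≤ M)
    (hv : M * T ^ (L + 1) < Γ ^ (v + 1)) :
    ∑ k ∈ range L, k3mP p {ω | Γ * k3mX p (F (k0 + k)) Z ω < k3mX p (F (k0 + k + C)) Z ω} ≤ C * v + L * (L + C) / T := by
  classical
  have hT0 : 0 < T := lt_of_lt_of_le zero_lt_one hT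
  have hsupp : ∃ ω, p ω ≠ 0 := by
    by_contra h
    push Not at h
    have := hp.sum_one
    simp [h] at this
  obtain ⟨ωs, hωs⟩ := hsupp
  have hM1 : 1 ≤ M := by
    refine le_trans ?_ (hM ωs)
    have : 0 < (Z '' {ω' | p ω' ≠ 0 ∧ F k0 ω' = F k0 ωs}).ncard :=
      (Set.ncard_pos (Set.toFinite _)).2 ⟨Z ωs, ωs, ⟨hωs, rfl⟩, rfl⟩
    exact_mod_cast this
  have hM0 : 0 < M := by linarith
  set x : ℕ → Ω → ℝ := fun k ω => k3mX p (F (k0 + k)) Z ω with hx
  set E1 : ℕ → Set Ω := fun k => {ω | x k ω < 1 / (M * T)} with hE1def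
  set E2 : ℕ → Set Ω := fun k => {ω | x (k + C) ω < x k ω / T} with hE2def
  have hE1 : ∀ k, k3mP p (E1 k) ≤ 1 / T := by
    intro k
    have hinv := k3m_pal_inv hp (F (k0 + k)) Z (M := M) (by
      intro ω
      refine le_trans ?_ (hM ω)
      have hsub : Z '' {ω' | p ω' ≠ 0 ∧ F (k0 + k) ω' = F (k0 + k) ω} ⊆ Z '' {ω' | p ω' ≠ 0 ∧ F k0 ω' = F k0 ω} :=
        Set.image_mono (fun ω' h => ⟨h.1, hF.le (Nat.le_add_right k0 k) h.2⟩)
      exact_mod_cast Set.ncard_le_ncard hsub (Set.toFinite _))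
    have hmk := k3m_markov hp (fun ω => (x k ω)⁻¹) (fun ω h => (inv_pos.2 (k3mX_pos hp _ _ h)).le) hinv
      (t := M * T) (by positivity)
    refine le_trans (k3mP_mono_supp hp ?_) (le_trans hmk (le_of_eq ?_))
    · intro ω hω h
      have hpos : 0 < x k ω := k3mX_pos hp (F (k0 + k)) Z h
      show M * T < (x k ω)⁻¹
      rw [lt_inv_comm₀ (by positivity) hpos, ← one_div]
      exact hω
    · field_simp
  have hE2 : ∀ k, k3mP p (E2 k) ≤ 1 / T := by
    intro k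
    have hrat := k3m_pal_ratio hp (F (k0 + k)) (F (k0 + (k + C))) (fun ω ω' e => hF.le (by omega) e) Z
    have hmk := k3m_markov hp (fun ω => x k ω / x (k + C) ω)
      (fun ω h => (div_pos (k3mX_pos hp _ _ h) (k3mX_pos hp _ _ h)).le) hrat hT0
    refine le_trans (k3mP_mono_supp hp ?_) hmk
    intro ω hω h
    have hpos : 0 < x (k + C) ω := k3mX_pos hp _ _ h
    show T < x k ω / x (k + C) ω
    rw [lt_div_iff₀ hpos]
    have h1 : x (k + C) ω < x k ω / T := hω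
    rw [lt_div_iff₀ hT0] at h1
    linarith
  set Bd : Set Ω := {ω | ∃ k ∈ range C, ω ∈ E1 k} ∪ {ω | ∃ k ∈ range L, ω ∈ E2 k} with hBddef
  have hBd : k3mP p Bd ≤ (L + C) / T := by
    refine le_trans (k3mP_union_le hp _ _) ?_
    have h1 := le_trans (k3mP_exists_le hp (range C) E1) (Finset.sum_le_card_nsmul _ _ _ (fun k _ => hE1 k))
    have h2 := le_trans (k3mP_exists_le hp (range L) E2) (Finset.sum_le_card_nsmul _ _ _ (fun k _ => hE2 k))
    rw [Finset.card_range, nsmul_eq_mul] at h1 h2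
    calc _ ≤ (C : ℝ) * (1 / T) + L * (1 / T) := add_le_add h1 h2
      _ = (L + C) / T := by ring
  rw [k3m_sum_P_eq]
  have hpt : ∀ ω, p ω * (({k | k < L ∧ ω ∈ {ω | Γ * k3mX p (F (k0 + k)) Z ω < k3mX p (F (k0 + k + C)) Z ω}} : Set ℕ).ncard : ℝ)
      ≤ p ω * (C * v) + L * (p ω * Bd.indicator (fun _ => (1 : ℝ)) ω) := by
    intro ω
    by_cases hp0 : p ω = 0
    · simp [hp0]
    have hpω : 0 < p ω := lt_of_le_of_ne (hp.nonneg ω) (Ne.symm hp0)
    have hset : ({k | k < L ∧ ω ∈ {ω | Γ * k3mX p (F (k0 + k)) Z ω < k3mX p (F (k0 + k + C)) Z ω}} : Set ℕ)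
        = {k | k < L ∧ Γ * x k ω < x (k + C) ω} := by
      ext k
      show (k < L ∧ Γ * k3mX p (F (k0 + k)) Z ω < k3mX p (F (k0 + k + C)) Z ω)
        ↔ (k < L ∧ Γ * k3mX p (F (k0 + k)) Z ω < k3mX p (F (k0 + (k + C))) Z ω)
      rw [add_assoc]
    rw [hset]
    by_cases hB : ω ∈ Bd
    · rw [Set.indicator_of_mem hB]
      have hcnt : ({k | k < L ∧ Γ * x k ω < x (k + C) ω} : Set ℕ).ncard ≤ L := by
        calc _ ≤ (↑(range L) : Set ℕ).ncard :=
              Set.ncard_le_ncard (fun k hk => Finset.mem_coe.2 (Finset.mem_range.2 hk.1)) (Finset.finite_toSet _)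
          _ = L := by rw [Set.ncard_coe_finset, Finset.card_range]
      have hcnt' : (({k | k < L ∧ Γ * x k ω < x (k + C) ω} : Set ℕ).ncard : ℝ) ≤ L := by exact_mod_cast hcnt
      have h0 : 0 ≤ p ω * ((C : ℝ) * v) := by positivity
      have h1 := mul_le_mul_of_nonneg_left hcnt' hpω.le
      linarith
    · rw [Set.indicator_of_notMem hB]
      have hcnt := k3m_pal_count (fun k => x k ω) L C v hC hM0 hT hΓ (fun k => k3mX_pos hp _ _ hp0)
        (fun k => k3mX_le_one hp _ _ _)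
        (fun k hk => not_lt.1 (fun hlt => hB (Or.inl ⟨k, Finset.mem_range.2 hk, hlt⟩)))
        (fun k hk => not_lt.1 (fun hlt => hB (Or.inr ⟨k, Finset.mem_range.2 hk, hlt⟩))) hv
      have hcnt' : (({k | k < L ∧ Γ * x k ω < x (k + C) ω} : Set ℕ).ncard : ℝ) ≤ (C : ℝ) * v := by
        exact_mod_cast hcnt
      have h1 := mul_le_mul_of_nonneg_left hcnt' hpω.le
      linarith
  refine le_trans (Finset.sum_le_sum (fun ω _ => hpt ω)) ?_
  rw [Finset.sum_add_distrib, ← Finset.sum_mul, hp.sum_one, one_mul, ← Finset.mul_sum, ← k3mP_eq_sum_mul]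
  have h2 : (L : ℝ) * k3mP p Bd ≤ L * ((L + C) / T) := mul_le_mul_of_nonneg_left hBd (Nat.cast_nonneg L)
  calc (C : ℝ) * v + L * k3mP p Bd ≤ C * v + L * ((L + C) / T) := by linarith
    _ = C * v + L * (L + C) / T := by ring

/-- number of bad steps -/
theorem k3m_palette_bad {S SZ : Type} {p : Ω → ℝ} (hp : K3mLaw p) (F : ℕ → Ω → S) (hF : K3mNest F) (Z : Ω → SZ) (k0 L C v : ℕ) (hC : 1 ≤ C)
    {M T Γ ζ : ℝ} (hT : 1 ≤ T) (hΓ : 1 ≤ Γ) (hζ : 0 < ζ) (hM : ∀ ω, ((Z '' {ω' | p ω' ≠ 0 ∧ F k0 ω' = F k0 ω}).ncard : ℝ) ≤ M)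
    (hv : M * T ^ (L + 1) < Γ ^ (v + 1)) :
    (({k | k < L ∧ ζ < k3mP p {ω | Γ * k3mX p (F (k0 + k)) Z ω < k3mX p (F (k0 + k + C)) Z ω}} : Set ℕ).ncard : ℝ)
      ≤ (C * v + L * (L + C) / T) / ζ := by
  classical
  have hpal := k3m_palette hp F hF Z k0 L C v hC hT hΓ hM hv
  set f : ℕ → ℝ := fun k => k3mP p {ω | Γ * k3mX p (F (k0 + k)) Z ω < k3mX p (F (k0 + k + C)) Z ω} with hf
  have hset : ({k | k < L ∧ ζ < f k} : Set ℕ) = ↑((range L).filter (fun k => ζ < f k)) := by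
    ext k; simp
  have hgoal : (({k | k < L ∧ ζ < f k} : Set ℕ).ncard : ℝ) ≤ (C * v + L * (L + C) / T) / ζ := by
    rw [hset, Set.ncard_coe_finset, le_div_iff₀ hζ]
    refine le_trans ?_ hpal
    calc (((range L).filter (fun k => ζ < f k)).card : ℝ) * ζ = ∑ _k ∈ (range L).filter (fun k => ζ < f k), ζ := by
          rw [Finset.sum_const, nsmul_eq_mul]
      _ ≤ ∑ k ∈ (range L).filter (fun k => ζ < f k), f k :=
          Finset.sum_le_sum (fun k hk => (Finset.mem_filter.1 hk).2.le)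
      _ ≤ ∑ k ∈ range L, f k :=
          Finset.sum_le_sum_of_subset_of_nonneg (Finset.filter_subset _ _) (fun k _ _ => k3mP_nonneg hp _)
  exact hgoal

end

end Claimed.Agent.R252

end PkS3mSel

section PkS3mTaylor

/-!
# ROW 252, unit S3m (L3.3 two-colour matching, architect helper93), file Taylor.     CONTRACT file: the `sorry`s are the leaves L-252-K3M-T*.

JET FAMILIES on `[0,1]` and Taylor estimates (paper-free, Mathlib only).  A function with its derivatives is a family `g : ℕ → ℝ → ℝ`, `g (j+1)` = derivative of `g j` on `[0,1]`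
(`K3mJet g M`: for `j < M`).  No `iteratedDeriv`.
-/

set_option autoImplicit false

namespace Claimed.Agent.R252

open scoped BigOperators Nat
open Finset

noncomputable section

/-- `g (j+1)` is the derivative of `g j` on `[0,1]`, for `j < M` -/
def K3mJet (g : ℕ → ℝ → ℝ) (M : ℕ) : Prop :=
  ∀ j < M, ∀ t ∈ Set.Icc (0 : ℝ) 1, HasDerivWithinAt (g j) (g (j + 1) t) (Set.Icc 0 1) t

theorem k3m_taylor_eqns_cite : True := by
  have := @K3mJet.eq_1
  trivial

theorem K3mJet.mono {g : ℕ → ℝ → ℝ} {M M' : ℕ} (h : K3mJet g M) (hM : M' ≤ M) : K3mJet g M' :=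
  fun j hj t ht => h j (lt_of_lt_of_le hj hM) t ht

theorem K3mJet.shift {g : ℕ → ℝ → ℝ} {M : ℕ} (h : K3mJet g M) (s : ℕ) : K3mJet (fun j => g (j + s)) (M - s) := by
  intro j hj t ht
  have := h (j + s) (by omega) t ht
  simpa [add_right_comm] using this

theorem K3mJet.sub {g g' : ℕ → ℝ → ℝ} {M : ℕ} (h : K3mJet g M) (h' : K3mJet g' M) : K3mJet (fun j t => g j t - g' j t) M :=
  fun j hj t ht => (h j hj t ht).sub (h' j hj t ht)

/-- derivative of the Taylor polynomial -/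
theorem k3m_ty_poly (c : ℕ → ℝ) (M : ℕ) (x0 t : ℝ) :
    HasDerivAt (fun t => ∑ j ∈ range (M + 1), c j * (t - x0) ^ j / j !)
      (∑ j ∈ range M, c (j + 1) * (t - x0) ^ j / j !) t := by
  have hterm : ∀ j : ℕ, HasDerivAt (fun t : ℝ => c (j + 1) * (t - x0) ^ (j + 1) / (j + 1)!)
      (c (j + 1) * (t - x0) ^ j / j !) t := by
    intro j
    have h1 := (((hasDerivAt_id t).sub_const x0).pow (j + 1)).const_mul (c (j + 1))
    have h2 := h1.div_const ((j + 1)! : ℝ)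
    refine HasDerivAt.congr_deriv (f := fun t : ℝ => c (j + 1) * (t - x0) ^ (j + 1) / (j + 1)!) h2 ?_
    have hf : ((j + 1)! : ℝ) = (j + 1) * j ! := by
      rw [Nat.factorial_succ]; push_cast; ring
    have hj : (j ! : ℝ) ≠ 0 := by exact_mod_cast Nat.factorial_ne_zero j
    have hj1 : ((j : ℝ) + 1) ≠ 0 := by positivity
    rw [hf]
    simp only [id_eq, Nat.add_sub_cancel, Nat.cast_add, Nat.cast_one, mul_one]
    field_simp
  have h0 : HasDerivAt (fun t : ℝ => c 0 * (t - x0) ^ 0 / 0 !) 0 t := by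
    simpa using hasDerivAt_const t (c 0)
  have hs := (HasDerivAt.fun_sum (u := range M) (fun j _ => hterm j)).fun_add h0
  rw [add_zero] at hs
  have e : (fun t : ℝ => ∑ j ∈ range (M + 1), c j * (t - x0) ^ j / j !)
      = fun t : ℝ => ∑ j ∈ range M, c (j + 1) * (t - x0) ^ (j + 1) / (j + 1)! + c 0 * (t - x0) ^ 0 / 0 ! := by
    funext t
    rw [Finset.sum_range_succ']
  rw [e]
  exact hs

theorem k3m_ty_gamma {x0 x s : ℝ} (hs : s ∈ Set.Icc (0 : ℝ) 1) : x0 + s * (x - x0) ∈ Set.uIcc x0 x := by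
  rw [Set.mem_uIcc]
  rcases le_total x0 x with h | h
  · left
    constructor <;> nlinarith [hs.1, hs.2]
  · right
    constructor <;> nlinarith [hs.1, hs.2]

/-- **T1** Taylor's inequality for a jet family; the bound on `g M` is needed only between `x0` and `x`.
PROOF: induction on `M` (generalising `g`, using `K3mJet.shift 1`): the derivative in `x` of the left side is the same expression for `fun j => g (j+1)` and `M - 1`;
integrate the bound `B |t - x0|^(M-1)/(M-1)!` (e.g. `image_norm_le_of_norm_deriv_right_le_deriv_boundary`, or monotonicity of `± h(t) - B |t-x0|^M/M!`), both for `x0 ≤ x` and `x ≤ x0`. -/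
theorem k3m_taylor {g : ℕ → ℝ → ℝ} {M : ℕ} (hg : K3mJet g M) {B x0 x : ℝ} (hx0 : x0 ∈ Set.Icc (0 : ℝ) 1) (hx : x ∈ Set.Icc (0 : ℝ) 1)
    (hB : ∀ t ∈ Set.uIcc x0 x, |g M t| ≤ B) :
    |g 0 x - ∑ j ∈ range M, g j x0 * (x - x0) ^ j / j !| ≤ B * |x - x0| ^ M / M ! := by
  induction M generalizing g x with
  | zero =>
    simpa using hB x Set.right_mem_uIcc
  | succ M ih =>
    have hg' : K3mJet (fun j => g (j + 1)) M := by
      have := hg.shift 1
      simpa using this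
    have hsub : Set.uIcc x0 x ⊆ Set.Icc (0 : ℝ) 1 := Set.uIcc_subset_Icc hx0 hx
    have hIH : ∀ t ∈ Set.uIcc x0 x,
        |g 1 t - ∑ j ∈ range M, g (j + 1) x0 * (t - x0) ^ j / j !| ≤ B * |t - x0| ^ M / M ! := by
      intro t ht
      have := ih hg' (hsub ht) (fun u hu => hB u (Set.uIcc_subset_uIcc_left ht hu))
      simpa using this
    set R : ℝ → ℝ := fun t => g 0 t - ∑ j ∈ range (M + 1), g j x0 * (t - x0) ^ j / j ! with hR
    set R1 : ℝ → ℝ := fun t => g 1 t - ∑ j ∈ range M, g (j + 1) x0 * (t - x0) ^ j / j ! with hR1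
    have hRd : ∀ t ∈ Set.Icc (0 : ℝ) 1, HasDerivWithinAt R (R1 t) (Set.Icc 0 1) t := by
      intro t ht
      exact (hg 0 (Nat.succ_pos _) t ht).sub (k3m_ty_poly (fun j => g j x0) M x0 t).hasDerivWithinAt
    set γ : ℝ → ℝ := fun s => x0 + s * (x - x0) with hγ
    have hγd : ∀ s, HasDerivAt γ (x - x0) s := by
      intro s
      have := ((hasDerivAt_id s).mul_const (x - x0)).const_add x0
      rw [one_mul] at this
      exact this
    have hγm : Set.MapsTo γ (Set.Icc 0 1) (Set.Icc 0 1) := fun s hs => hsub (k3m_ty_gamma hs)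
    have hφd : ∀ s ∈ Set.Icc (0 : ℝ) 1,
        HasDerivWithinAt (R ∘ γ) (R1 (γ s) * (x - x0)) (Set.Icc 0 1) s := by
      intro s hs
      exact (hRd (γ s) (hγm hs)).comp s (hγd s).hasDerivWithinAt hγm
    set K : ℝ := B * |x - x0| ^ (M + 1) with hK
    have hBd : ∀ s : ℝ, HasDerivAt (fun s : ℝ => K * s ^ (M + 1) / (M + 1)!) (K * s ^ M / M !) s := by
      intro s
      have := k3m_ty_poly (fun j => if j = M + 1 then K else 0) (M + 1) 0 s
      simp only [sub_zero] at this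
      rw [Finset.sum_eq_single M (by intro b _ hb; simp [hb]) (by simp)] at this
      convert this using 1
      · funext u
        rw [Finset.sum_eq_single (M + 1) (by intro b _ hb; simp [hb]) (by simp)]
        simp
      · simp
    have hmain := image_norm_le_of_norm_deriv_right_le_deriv_boundary (f := R ∘ γ)
      (f' := fun s => R1 (γ s) * (x - x0)) (a := 0) (b := 1)
      (B := fun s : ℝ => K * s ^ (M + 1) / (M + 1)!) (B' := fun s : ℝ => K * s ^ M / M !)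
      (fun s hs => (hφd s hs).continuousWithinAt)
      (fun s hs => (hφd s ⟨hs.1, hs.2.le⟩).mono_of_mem_nhdsWithin (Icc_mem_nhdsGE_of_mem hs))
      (by
        have : (R ∘ γ) 0 = 0 := by
          simp only [Function.comp, hγ, hR, zero_mul, add_zero, sub_self]
          rw [Finset.sum_range_succ']
          simp
        rw [this]
        simp)
      hBd
      (by
        intro s hs
        have hs' : s ∈ Set.Icc (0 : ℝ) 1 := ⟨hs.1, hs.2.le⟩
        have h1 : |R1 (γ s)| ≤ B * |γ s - x0| ^ M / M ! := hIH (γ s) (k3m_ty_gamma hs')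
        have h2 : γ s - x0 = s * (x - x0) := by simp [hγ]
        rw [h2, abs_mul, abs_of_nonneg hs.1, mul_pow] at h1
        rw [Real.norm_eq_abs, abs_mul]
        calc |R1 (γ s)| * |x - x0| ≤ (B * (s ^ M * |x - x0| ^ M) / M !) * |x - x0| :=
              mul_le_mul_of_nonneg_right h1 (abs_nonneg _)
          _ = K * s ^ M / M ! := by rw [hK]; ring)
      (Set.right_mem_Icc.2 zero_le_one)
    have e1 : (R ∘ γ) 1 = R x := by simp [hγ]
    rw [e1, Real.norm_eq_abs] at hmain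
    simpa [hK] using hmain

/-- `∑_{i < n} 1/i! ≤ 3` -/
theorem k3m_sum_inv_fact (n : ℕ) : ∑ i ∈ range n, (1 : ℝ) / i ! ≤ 3 := by
  have h := Real.sum_le_exp_of_nonneg (zero_le_one) n
  simp only [one_pow] at h
  have := Real.exp_one_lt_d9
  linarith

/-- weighted sum against `1/i!` -/
theorem k3m_t2_sum_le (n : ℕ) (a : ℕ → ℝ) {C : ℝ} (hC : 0 ≤ C) (h : ∀ i < n, a i ≤ C) : ∑ i ∈ range n, a i / i ! ≤ 3 * C := by
  calc ∑ i ∈ range n, a i / i ! ≤ ∑ i ∈ range n, C * ((1 : ℝ) / i !) := by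
        refine Finset.sum_le_sum fun i hi => ?_
        rw [mul_one_div]
        exact div_le_div_of_nonneg_right (h i (Finset.mem_range.1 hi)) (by positivity)
    _ = C * ∑ i ∈ range n, (1 : ℝ) / i ! := by rw [Finset.mul_sum]
    _ ≤ C * 3 := mul_le_mul_of_nonneg_left (k3m_sum_inv_fact n) hC
    _ = 3 * C := by ring

/-- Taylor at order `J + 1 - m` for the `m`-th member of the family -/
theorem k3m_t2_taylor {g : ℕ → ℝ → ℝ} {J m : ℕ} (hmJ : m ≤ J) (hg : K3mJet g (J + 1)) {B : ℝ} (hB : ∀ t ∈ Set.Icc (0 : ℝ) 1, |g (J + 1) t| ≤ B)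
    {ℓ : ℝ} {x0 x : ℝ} (hx0 : x0 ∈ Set.Icc (0 : ℝ) 1) (hx : x ∈ Set.Icc (0 : ℝ) 1) (hd : |x - x0| ≤ ℓ) :
    |g m x - ∑ i ∈ range (J + 1 - m), g (m + i) x0 * (x - x0) ^ i / i !| ≤ B * ℓ ^ (J + 1 - m) := by
  have hB0 : 0 ≤ B := (abs_nonneg _).trans (hB x0 hx0)
  have hsub : Set.uIcc x0 x ⊆ Set.Icc (0 : ℝ) 1 := Set.uIcc_subset_Icc hx0 hx
  have key := k3m_taylor (g := fun i => g (i + m)) (M := J + 1 - m) (hg.shift m) (B := B) hx0 hx (fun t ht => by
    have e : J + 1 - m + m = J + 1 := by omega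
    show |g (J + 1 - m + m) t| ≤ B
    rw [e]
    exact hB t (hsub ht))
  have e2 : ∑ j ∈ range (J + 1 - m), g (j + m) x0 * (x - x0) ^ j / j ! = ∑ i ∈ range (J + 1 - m), g (m + i) x0 * (x - x0) ^ i / i ! :=
    Finset.sum_congr rfl fun i _ => by rw [add_comm]
  rw [zero_add, e2] at key
  refine key.trans ?_
  have h1 : |x - x0| ^ (J + 1 - m) ≤ ℓ ^ (J + 1 - m) := pow_le_pow_left₀ (abs_nonneg _) hd _
  have h2 : (1 : ℝ) ≤ ((J + 1 - m)! : ℝ) := by exact_mod_cast Nat.one_le_iff_ne_zero.2 (Nat.factorial_ne_zero _)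
  calc B * |x - x0| ^ (J + 1 - m) / ((J + 1 - m)! : ℝ) ≤ B * |x - x0| ^ (J + 1 - m) := div_le_self (by positivity) h2
    _ ≤ B * ℓ ^ (J + 1 - m) := mul_le_mul_of_nonneg_left h1 hB0

/-- **T2** translation of a weighted jet bound (a02:translated-bin-width).  `k3m_taylor` for `fun i => g (i + j)`, `M = J + 1 - j`. -/
theorem k3m_translate {g : ℕ → ℝ → ℝ} {J : ℕ} (hg : K3mJet g (J + 1)) {B : ℝ} (hB : ∀ t ∈ Set.Icc (0 : ℝ) 1, |g (J + 1) t| ≤ B)
    (lam : ℕ → ℝ) {ℓ A : ℝ} (hℓ : 0 ≤ ℓ) (hA : 0 ≤ A) (h1 : ∀ j i, j + i ≤ J → lam (j + i) * ℓ ^ i ≤ lam j) (h2 : ∀ j ≤ J, ℓ ^ (J + 1 - j) ≤ lam j)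
    {x0 x : ℝ} (hx0 : x0 ∈ Set.Icc (0 : ℝ) 1) (hx : x ∈ Set.Icc (0 : ℝ) 1) (hd : |x - x0| ≤ ℓ) (h0 : ∀ j ≤ J, |g j x0| ≤ A * lam j) :
    ∀ j ≤ J, |g j x| ≤ (3 * A + B) * lam j := by
  intro j hj
  have hB0 : 0 ≤ B := (abs_nonneg _).trans (hB x0 hx0)
  have hl : 0 ≤ lam j := le_trans (by positivity) (h2 j hj)
  have key := (k3m_t2_taylor hj hg hB hx0 hx hd).trans (mul_le_mul_of_nonneg_left (h2 j hj) hB0)
  have hsum : |∑ i ∈ range (J + 1 - j), g (j + i) x0 * (x - x0) ^ i / i !| ≤ 3 * (A * lam j) := by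
    refine (Finset.abs_sum_le_sum_abs _ _).trans ?_
    have : ∀ i ∈ range (J + 1 - j), |g (j + i) x0 * (x - x0) ^ i / i !| = (|g (j + i) x0| * |x - x0| ^ i) / i ! := fun i _ => by
      rw [abs_div, abs_mul, abs_pow, abs_of_pos (show (0 : ℝ) < (i ! : ℝ) by positivity)]
    rw [Finset.sum_congr rfl this]
    refine k3m_t2_sum_le _ _ (by positivity) fun i hi => ?_
    have hij : j + i ≤ J := by omega
    calc |g (j + i) x0| * |x - x0| ^ i ≤ (A * lam (j + i)) * ℓ ^ i :=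
          mul_le_mul (h0 _ hij) (pow_le_pow_left₀ (abs_nonneg _) hd i) (by positivity) ((abs_nonneg _).trans (h0 _ hij))
      _ = A * (lam (j + i) * ℓ ^ i) := by ring
      _ ≤ A * lam j := mul_le_mul_of_nonneg_left (h1 j i hij) hA
  have e : g j x = (g j x - ∑ i ∈ range (J + 1 - j), g (j + i) x0 * (x - x0) ^ i / i !) + ∑ i ∈ range (J + 1 - j), g (j + i) x0 * (x - x0) ^ i / i ! := by ring
  rw [e]
  refine (abs_add_le _ _).trans ?_
  linarith

/-- **T3** estimator: the `m`-th derivative at `x` from approximate jets `cf i ≈ g (m+i) x0`. -/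
theorem k3m_estimate {g : ℕ → ℝ → ℝ} {J m : ℕ} (hmJ : m ≤ J) (hg : K3mJet g (J + 1)) {B : ℝ} (hB : ∀ t ∈ Set.Icc (0 : ℝ) 1, |g (J + 1) t| ≤ B)
    {ℓ : ℝ} (hℓ : 0 ≤ ℓ) {x0 x : ℝ} (hx0 : x0 ∈ Set.Icc (0 : ℝ) 1) (hx : x ∈ Set.Icc (0 : ℝ) 1) (hd : |x - x0| ≤ ℓ) (cf : ℕ → ℝ) {E : ℝ}
    (h1 : ∀ i, m + i ≤ J → |g (m + i) x0 - cf i| * ℓ ^ i ≤ E) (h2 : B * ℓ ^ (J + 1 - m) ≤ E) :
    |g m x - ∑ i ∈ range (J + 1 - m), cf i * (x - x0) ^ i / i !| ≤ 4 * E := by
  have hE : 0 ≤ E := le_trans (by positivity) (h1 0 (by omega))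
  have key := (k3m_t2_taylor hmJ hg hB hx0 hx hd).trans h2
  have hsum : |∑ i ∈ range (J + 1 - m), (g (m + i) x0 - cf i) * (x - x0) ^ i / i !| ≤ 3 * E := by
    refine (Finset.abs_sum_le_sum_abs _ _).trans ?_
    have : ∀ i ∈ range (J + 1 - m), |(g (m + i) x0 - cf i) * (x - x0) ^ i / i !| = (|g (m + i) x0 - cf i| * |x - x0| ^ i) / i ! := fun i _ => by
      rw [abs_div, abs_mul, abs_pow, abs_of_pos (show (0 : ℝ) < (i ! : ℝ) by positivity)]
    rw [Finset.sum_congr rfl this]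
    refine k3m_t2_sum_le _ _ hE fun i hi => ?_
    exact (mul_le_mul_of_nonneg_left (pow_le_pow_left₀ (abs_nonneg _) hd i) (abs_nonneg _)).trans (h1 i (by omega))
  have e : g m x - ∑ i ∈ range (J + 1 - m), cf i * (x - x0) ^ i / i !
      = (g m x - ∑ i ∈ range (J + 1 - m), g (m + i) x0 * (x - x0) ^ i / i !) + ∑ i ∈ range (J + 1 - m), (g (m + i) x0 - cf i) * (x - x0) ^ i / i ! := by
    have : ∑ i ∈ range (J + 1 - m), (g (m + i) x0 - cf i) * (x - x0) ^ i / i !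
        = (∑ i ∈ range (J + 1 - m), g (m + i) x0 * (x - x0) ^ i / i !) - ∑ i ∈ range (J + 1 - m), cf i * (x - x0) ^ i / i ! := by
      rw [← Finset.sum_sub_distrib]
      exact Finset.sum_congr rfl fun i _ => by ring
    rw [this]
    ring
  rw [e]
  refine (abs_add_le _ _).trans ?_
  linarith

/-- **T3'** variation of the `m`-th derivative (`k3m_estimate` with `cf 0 = g m x0`, `cf i = 0`). -/
theorem k3m_variation {g : ℕ → ℝ → ℝ} {J m : ℕ} (hmJ : m ≤ J) (hg : K3mJet g (J + 1)) {B : ℝ} (hB : ∀ t ∈ Set.Icc (0 : ℝ) 1, |g (J + 1) t| ≤ B)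
    {ℓ : ℝ} (hℓ : 0 ≤ ℓ) {x0 x : ℝ} (hx0 : x0 ∈ Set.Icc (0 : ℝ) 1) (hx : x ∈ Set.Icc (0 : ℝ) 1) (hd : |x - x0| ≤ ℓ) {E : ℝ} (hE : 0 ≤ E)
    (h1 : ∀ i, 1 ≤ i → m + i ≤ J → |g (m + i) x0| * ℓ ^ i ≤ E) (h2 : B * ℓ ^ (J + 1 - m) ≤ E) :
    |g m x - g m x0| ≤ 4 * E := by
  have key := k3m_estimate hmJ hg hB hℓ hx0 hx hd (fun i => if i = 0 then g m x0 else 0) (E := E) (fun i hi => by
    by_cases h : i = 0
    · subst h
      simpa using hE
    · simp only [h, if_false, sub_zero]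
      exact h1 i (Nat.one_le_iff_ne_zero.2 h) hi) h2
  have e : ∑ i ∈ range (J + 1 - m), (fun i => if i = 0 then g m x0 else 0) i * (x - x0) ^ i / i ! = g m x0 := by
    rw [Finset.sum_eq_single 0]
    · simp
    · intro i _ hi
      simp [hi]
    · intro h
      exact absurd (Finset.mem_range.2 (by omega)) h
  rw [e] at key
  exact key

/-- the derivative of `w (t - t1)^(k+1) / (k+1)!` -/
theorem k3m_t3_mono_deriv (w t1 t : ℝ) (k : ℕ) : HasDerivAt (fun s : ℝ => w * (s - t1) ^ (k + 1) / ((k + 1)! : ℝ)) (w * (t - t1) ^ k / (k ! : ℝ)) t := by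
  have h1 : HasDerivAt (fun s : ℝ => (s - t1) ^ (k + 1)) (((k + 1 : ℕ) : ℝ) * (t - t1) ^ k * 1) t := by
    have h0 : HasDerivAt (fun s : ℝ => s - t1) 1 t := (hasDerivAt_id t).sub_const t1
    have := h0.fun_pow (k + 1)
    simpa using this
  have h2 := (h1.const_mul w).div_const ((k + 1)! : ℝ)
  have e : w * (((k + 1 : ℕ) : ℝ) * (t - t1) ^ k * 1) / ((k + 1)! : ℝ) = w * (t - t1) ^ k / (k ! : ℝ) := by
    rw [Nat.factorial_succ]
    push_cast
    have h3 : ((k : ℝ) + 1) ≠ 0 := by positivity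
    have h4 : (k ! : ℝ) ≠ 0 := by positivity
    field_simp
  rw [e] at h2
  exact h2

/-- subtracting the monomial `w (t - t1)^m / m!` from a jet family -/
theorem k3m_t3_jet {W : ℕ → ℝ → ℝ} {M m : ℕ} (hmM : m ≤ M) (hW : K3mJet W M) (w t1 : ℝ) :
    K3mJet (fun j t => W j t - w * (t - t1) ^ (m - j) / ((m - j)! : ℝ)) m := by
  intro j hj t ht
  have h1 := hW j (lt_of_lt_of_le hj hmM) t ht
  obtain ⟨k, hk⟩ : ∃ k, m - j = k + 1 := ⟨m - j - 1, by omega⟩
  have hk' : m - (j + 1) = k := by omega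
  have h2 := (k3m_t3_mono_deriv w t1 t k).hasDerivWithinAt (s := Set.Icc (0 : ℝ) 1)
  have := h1.sub h2
  simp only [hk, hk']
  exact this

/-- step (i): the `m`-th member stays close to `w` -/
theorem k3m_t3_step {W : ℕ → ℝ → ℝ} {J m : ℕ} (hmJ : m ≤ J) (hW : K3mJet W (J + 1)) {B : ℝ} (hB : ∀ t ∈ Set.Icc (0 : ℝ) 1, |W (J + 1) t| ≤ B)
    {ℓ : ℝ} (hℓ : 0 ≤ ℓ) {xa t : ℝ} (hxa : xa ∈ Set.Icc (0 : ℝ) 1) (ht : t ∈ Set.Icc (0 : ℝ) 1) (h1 : t ∈ Set.Icc xa (xa + ℓ))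
    {w E2 E3 E4 : ℝ} (hE2 : 0 ≤ E2) (hb : ∀ i, 1 ≤ i → m + i ≤ J → |W (m + i) xa| * ℓ ^ (i + m) ≤ E2)
    (hc : |W m xa - w| * ℓ ^ m ≤ E3) (hd : B * ℓ ^ (J + 1) ≤ E4) :
    |W m t - w| * ℓ ^ m ≤ 3 * E2 + E3 + E4 := by
  have hdist : |t - xa| ≤ ℓ := by
    rw [abs_of_nonneg (by linarith [h1.1])]
    linarith [h1.2]
  have hlm : 0 ≤ ℓ ^ m := by positivity
  have key := k3m_t2_taylor hmJ hW hB hxa ht hdist
  obtain ⟨S, hS⟩ : ∃ S, S = ∑ i ∈ range (J + 1 - m), W (m + i) xa * (t - xa) ^ i / i ! := ⟨_, rfl⟩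
  rw [← hS] at key
  have p1 : |W m t - S| * ℓ ^ m ≤ E4 := by
    refine (mul_le_mul_of_nonneg_right key hlm).trans ?_
    rw [mul_assoc, ← pow_add, show J + 1 - m + m = J + 1 by omega]
    exact hd
  have hsplit : S - W m xa = ∑ i ∈ range (J + 1 - m), (if i = 0 then 0 else W (m + i) xa * (t - xa) ^ i / i !) := by
    have e0 : W m xa = ∑ i ∈ range (J + 1 - m), (if i = 0 then W (m + i) xa * (t - xa) ^ i / i ! else 0) := by
      rw [Finset.sum_ite_eq' (range (J + 1 - m)) 0 fun i => W (m + i) xa * (t - xa) ^ i / i !, if_pos (Finset.mem_range.2 (by omega))]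
      simp
    rw [hS, e0, ← Finset.sum_sub_distrib]
    refine Finset.sum_congr rfl fun i _ => ?_
    by_cases h : i = 0 <;> simp [h]
  have p2 : |S - W m xa| * ℓ ^ m ≤ 3 * E2 := by
    rw [hsplit]
    refine (mul_le_mul_of_nonneg_right (Finset.abs_sum_le_sum_abs _ _) hlm).trans ?_
    rw [Finset.sum_mul]
    have : ∀ i ∈ range (J + 1 - m), |if i = 0 then 0 else W (m + i) xa * (t - xa) ^ i / i !| * ℓ ^ m
        = (if i = 0 then 0 else |W (m + i) xa| * |t - xa| ^ i * ℓ ^ m) / i ! := fun i _ => by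
      by_cases h : i = 0
      · simp [h]
      · simp only [h, if_false]
        rw [abs_div, abs_mul, abs_pow, abs_of_pos (show (0 : ℝ) < (i ! : ℝ) by positivity)]
        ring
    rw [Finset.sum_congr rfl this]
    refine k3m_t2_sum_le _ _ hE2 fun i hi => ?_
    by_cases h : i = 0
    · simp [h, hE2]
    · simp only [h, if_false]
      refine le_trans ?_ (hb i (Nat.one_le_iff_ne_zero.2 h) (by omega))
      rw [mul_assoc, pow_add]
      exact mul_le_mul_of_nonneg_left (mul_le_mul_of_nonneg_right (pow_le_pow_left₀ (abs_nonneg _) hdist i) hlm) (abs_nonneg _)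
  have tri : |W m t - w| ≤ |W m t - S| + |S - W m xa| + |W m xa - w| := by
    have e : W m t - w = (W m t - S) + (S - W m xa) + (W m xa - w) := by ring
    rw [e]
    exact (abs_add_le _ _).trans (add_le_add_left (abs_add_le _ _) _)
  calc |W m t - w| * ℓ ^ m ≤ (|W m t - S| + |S - W m xa| + |W m xa - w|) * ℓ ^ m := mul_le_mul_of_nonneg_right tri hlm
    _ = |W m t - S| * ℓ ^ m + |S - W m xa| * ℓ ^ m + |W m xa - w| * ℓ ^ m := by ring
    _ ≤ 3 * E2 + E3 + E4 := by linarith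

/-- **T4** the endpoint of a traversal (a02:controlled-jets), (a02:endpoint-polynomial) with one switch.  `W` = new arm minus old arm.
PROOF. (i) for `t ∈ [xa, xa + ℓ] ∩ [0,1]`: `|W m t - w| ℓ^m ≤ E3 + 4 max(E2, E4)`-type bound; precisely by `k3m_taylor` for `fun i => W (i + m)`, `M = J + 1 - m`, at `x0 = xa`:
`|W m t - W m xa| ≤ ∑_{1 ≤ i ≤ J - m} |W (m+i) xa| ℓ^i / i! + B ℓ^(J+1-m)`, so `|W m t - w| ℓ^m ≤ E3 + 2 E2 + E4`.
(ii) `k3m_taylor` with `M = m`, `x0 = t1`, `x = t2` for the family `fun j t => W j t - w (t - t1)^(m-j)/(m-j)!` (`j ≤ m`), whose jets at `t1` of order `< m` are those of `W`. -/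
theorem k3m_endpoint {W : ℕ → ℝ → ℝ} {J m : ℕ} (hm : 1 ≤ m) (hmJ : m ≤ J) (hW : K3mJet W (J + 1)) {B : ℝ} (hB : ∀ t ∈ Set.Icc (0 : ℝ) 1, |W (J + 1) t| ≤ B)
    {ℓ : ℝ} (hℓ : 0 ≤ ℓ) {xa t1 t2 : ℝ} (hxa : xa ∈ Set.Icc (0 : ℝ) 1) (ht1 : t1 ∈ Set.Icc (0 : ℝ) 1) (ht2 : t2 ∈ Set.Icc (0 : ℝ) 1)
    (h1 : t1 ∈ Set.Icc xa (xa + ℓ)) (h2 : t2 ∈ Set.Icc xa (xa + ℓ)) {w E1 E2 E3 E4 : ℝ} (hE2 : 0 ≤ E2)
    (ha : ∀ j < m, |W j t1| * ℓ ^ j ≤ E1) (hb : ∀ i, 1 ≤ i → m + i ≤ J → |W (m + i) xa| * ℓ ^ (i + m) ≤ E2)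
    (hc : |W m xa - w| * ℓ ^ m ≤ E3) (hd : B * ℓ ^ (J + 1) ≤ E4) :
    |W 0 t2 - w * (t2 - t1) ^ m / m !| ≤ 3 * E1 + 3 * E2 + E3 + E4 := by
  have hB0 : 0 ≤ B := (abs_nonneg _).trans (hB xa hxa)
  have hE1 : 0 ≤ E1 := le_trans (by positivity) (ha 0 (by omega))
  have hE3 : 0 ≤ E3 := le_trans (by positivity) hc
  have hE4 : 0 ≤ E4 := le_trans (by positivity) hd
  have hdist : |t2 - t1| ≤ ℓ := by
    rw [abs_le]
    constructor <;> linarith [h1.1, h1.2, h2.1, h2.2]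
  rcases hℓ.eq_or_lt with h0 | hpos
  · -- `ℓ = 0`
    have e12 : t2 - t1 = 0 := by
      have : |t2 - t1| ≤ 0 := by rw [h0]; exact hdist
      exact abs_eq_zero.1 (le_antisymm this (abs_nonneg _))
    have e21 : t2 = t1 := by linarith
    rw [e12, zero_pow (by omega), mul_zero, zero_div, sub_zero, e21]
    have := ha 0 (by omega)
    rw [pow_zero, mul_one] at this
    linarith
  · have hlm : 0 < ℓ ^ m := by positivity
    obtain ⟨C, hC⟩ : ∃ C, C = 3 * E2 + E3 + E4 := ⟨_, rfl⟩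
    have hC0 : 0 ≤ C := by rw [hC]; positivity
    have hsub01 : Set.uIcc t1 t2 ⊆ Set.Icc (0 : ℝ) 1 := Set.uIcc_subset_Icc ht1 ht2
    have hsubx : Set.uIcc t1 t2 ⊆ Set.Icc xa (xa + ℓ) := Set.uIcc_subset_Icc h1 h2
    have key := k3m_taylor (g := fun j t => W j t - w * (t - t1) ^ (m - j) / ((m - j)! : ℝ)) (M := m) (k3m_t3_jet (by omega) hW w t1)
      (B := C / ℓ ^ m) ht1 ht2 (fun t ht => by
        have := k3m_t3_step hmJ hW hB hℓ hxa (hsub01 ht) (hsubx ht) hE2 hb hc hd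
        rw [le_div_iff₀ hlm, hC]
        simpa using this)
    have e0 : W 0 t2 - w * (t2 - t1) ^ (m - 0) / ((m - 0)! : ℝ) = W 0 t2 - w * (t2 - t1) ^ m / m ! := by simp
    have e1 : ∑ j ∈ range m, (W j t1 - w * (t1 - t1) ^ (m - j) / ((m - j)! : ℝ)) * (t2 - t1) ^ j / j ! = ∑ j ∈ range m, W j t1 * (t2 - t1) ^ j / j ! := by
      refine Finset.sum_congr rfl fun j hj => ?_
      have : m - j ≠ 0 := by have := Finset.mem_range.1 hj; omega
      rw [sub_self, zero_pow this, mul_zero, zero_div, sub_zero]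
    simp only [e0, e1] at key
    have hr : C / ℓ ^ m * |t2 - t1| ^ m / (m ! : ℝ) ≤ C := by
      have h3 : |t2 - t1| ^ m ≤ ℓ ^ m := pow_le_pow_left₀ (abs_nonneg _) hdist m
      have h4 : (1 : ℝ) ≤ (m ! : ℝ) := by exact_mod_cast Nat.one_le_iff_ne_zero.2 (Nat.factorial_ne_zero _)
      calc C / ℓ ^ m * |t2 - t1| ^ m / (m ! : ℝ) ≤ C / ℓ ^ m * |t2 - t1| ^ m := div_le_self (by positivity) h4
        _ ≤ C / ℓ ^ m * ℓ ^ m := mul_le_mul_of_nonneg_left h3 (by positivity)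
        _ = C := by field_simp
    have hsum : |∑ j ∈ range m, W j t1 * (t2 - t1) ^ j / j !| ≤ 3 * E1 := by
      refine (Finset.abs_sum_le_sum_abs _ _).trans ?_
      have : ∀ j ∈ range m, |W j t1 * (t2 - t1) ^ j / j !| = (|W j t1| * |t2 - t1| ^ j) / j ! := fun j _ => by
        rw [abs_div, abs_mul, abs_pow, abs_of_pos (show (0 : ℝ) < (j ! : ℝ) by positivity)]
      rw [Finset.sum_congr rfl this]
      refine k3m_t2_sum_le _ _ hE1 fun j hj => ?_
      exact (mul_le_mul_of_nonneg_left (pow_le_pow_left₀ (abs_nonneg _) hdist j) (abs_nonneg _)).trans (ha j hj)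
    have e : W 0 t2 - w * (t2 - t1) ^ m / m ! = (W 0 t2 - w * (t2 - t1) ^ m / (m ! : ℝ) - ∑ j ∈ range m, W j t1 * (t2 - t1) ^ j / j !) + ∑ j ∈ range m, W j t1 * (t2 - t1) ^ j / j ! := by ring
    rw [e]
    refine (abs_add_le _ _).trans ?_
    linarith [key.trans hr]

/-- a finite set of naturals of diameter `≤ D` has at most `D + 1` elements -/
theorem k3m_t4_card_diam (P : Finset ℕ) {D : ℝ} (hD : 0 ≤ D) (h : ∀ a ∈ P, ∀ b ∈ P, a ≤ b → ((b : ℝ) - a) ≤ D) : (P.card : ℝ) ≤ D + 1 := by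
  rcases P.eq_empty_or_nonempty with rfl | hne
  · simp only [Finset.card_empty, Nat.cast_zero]
    linarith
  · have hmin := Finset.min'_mem P hne
    have hmax := Finset.max'_mem P hne
    have hle : P.min' hne ≤ P.max' hne := Finset.min'_le P _ hmax
    have hsub : P ⊆ Finset.Icc (P.min' hne) (P.max' hne) := fun a ha => Finset.mem_Icc.2 ⟨Finset.min'_le P a ha, Finset.le_max' P a ha⟩
    have hc := Finset.card_le_card hsub
    rw [Nat.card_Icc] at hc
    have h1 := h _ hmin _ hmax hle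
    have h2 : (P.card : ℝ) ≤ ((P.max' hne + 1 - P.min' hne : ℕ) : ℝ) := by exact_mod_cast hc
    rw [Nat.cast_sub (by omega)] at h2
    push_cast at h2
    linarith

/-- `x'^m - x^m ≥ (x' - x) δ^(m-1)` for `δ ≤ x ≤ x'` -/
theorem k3m_t4_pow_gap {m : ℕ} (hm : 1 ≤ m) {δ x x' : ℝ} (hδ : 0 ≤ δ) (hx : δ ≤ x) (hxx : x ≤ x') : (x' - x) * δ ^ (m - 1) ≤ x' ^ m - x ^ m := by
  obtain ⟨k, rfl⟩ : ∃ k, m = k + 1 := ⟨m - 1, by omega⟩
  simp only [Nat.add_sub_cancel]
  have hx0 : 0 ≤ x := hδ.trans hx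
  have h1 : δ ^ k ≤ x' ^ k := pow_le_pow_left₀ hδ (hx.trans hxx) k
  have h2 : x ^ k ≤ x' ^ k := pow_le_pow_left₀ hx0 hxx k
  have e : x' ^ (k + 1) - x ^ (k + 1) = (x' - x) * x' ^ k + x * (x' ^ k - x ^ k) := by ring
  rw [e]
  have h3 : (x' - x) * δ ^ k ≤ (x' - x) * x' ^ k := mul_le_mul_of_nonneg_left h1 (by linarith)
  have h4 : 0 ≤ x * (x' ^ k - x ^ k) := mul_nonneg hx0 (by linarith)
  linarith

/-- one side: naturals `d ≥ sep` with `|w (d h)^m - y0| ≤ ρ` -/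
theorem k3m_t4_side {m : ℕ} (hm : 1 ≤ m) {w ρ y0 h : ℝ} (hw : w ≠ 0) (hρ : 0 ≤ ρ) (hh : 0 < h) {sep : ℕ} (hsep : 1 ≤ sep) (P : Finset ℕ)
    (hP : ∀ d ∈ P, sep ≤ d ∧ |w * ((d : ℝ) * h) ^ m - y0| ≤ ρ) :
    (P.card : ℝ) ≤ 2 * ρ / (|w| * ((sep : ℝ) * h) ^ (m - 1) * h) + 1 := by
  have hw0 : 0 < |w| := abs_pos.2 hw
  have hs0 : (0 : ℝ) < sep := by exact_mod_cast hsep
  have hδ : 0 < (sep : ℝ) * h := by positivity
  have hden : 0 < |w| * ((sep : ℝ) * h) ^ (m - 1) * h := by positivity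
  refine k3m_t4_card_diam P (by positivity) fun a ha b hb hab => ?_
  rw [le_div_iff₀ hden]
  have ha' := hP a ha
  have hb' := hP b hb
  have hxa : (sep : ℝ) * h ≤ (a : ℝ) * h := mul_le_mul_of_nonneg_right (by exact_mod_cast ha'.1) hh.le
  have hxab : (a : ℝ) * h ≤ (b : ℝ) * h := mul_le_mul_of_nonneg_right (by exact_mod_cast hab) hh.le
  have gap := k3m_t4_pow_gap hm hδ.le hxa hxab
  have h1 : |w * (((b : ℝ) * h) ^ m - ((a : ℝ) * h) ^ m)| ≤ 2 * ρ := by
    have e : w * (((b : ℝ) * h) ^ m - ((a : ℝ) * h) ^ m) = (w * ((b : ℝ) * h) ^ m - y0) - (w * ((a : ℝ) * h) ^ m - y0) := by ring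
    rw [e]
    refine (abs_sub _ _).trans ?_
    linarith [ha'.2, hb'.2]
  rw [abs_mul] at h1
  have h20 : 0 ≤ (b : ℝ) * h - (a : ℝ) * h := by linarith
  have h2 : 0 ≤ ((b : ℝ) * h) ^ m - ((a : ℝ) * h) ^ m := le_trans (by positivity) gap
  rw [abs_of_nonneg h2] at h1
  calc ((b : ℝ) - a) * (|w| * ((sep : ℝ) * h) ^ (m - 1) * h) = |w| * (((b : ℝ) * h - (a : ℝ) * h) * ((sep : ℝ) * h) ^ (m - 1)) := by ring
    _ ≤ |w| * (((b : ℝ) * h) ^ m - ((a : ℝ) * h) ^ m) := mul_le_mul_of_nonneg_left gap hw0.le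
    _ ≤ 2 * ρ := h1

/-- **T5** counting lemma (replaces the change of variables and the Jacobian (a02:endpoint-jacobian)).  Grid of mesh `h`; `x = (c2 - c1) h`, `|x| ≥ δ = sep h`.
On `x ≥ δ`: `x'^m - x^m ≥ (x' - x) δ^(m-1)` for `x ≤ x'`; so the solutions `x ≥ δ` of `|w x^m - y0| ≤ ρ` lie in an interval of length `2ρ/(|w| δ^(m-1))`, which contains at most
`length/h + 1` grid points.  The same for `x ≤ -δ` (`x^m = ± |x|^m`). -/
theorem k3m_count_pow {m : ℕ} (hm : 1 ≤ m) {w ρ y0 h : ℝ} (hw : w ≠ 0) (hρ : 0 ≤ ρ) (hh : 0 < h) {sep : ℕ} (hsep : 1 ≤ sep) (c2 Tn : ℕ) :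
    ∑ c1 ∈ range Tn, k3mI (sep ≤ Nat.dist c1 c2 ∧ |w * (((c2 : ℝ) - c1) * h) ^ m - y0| ≤ ρ)
      ≤ 2 * (2 * ρ / (|w| * ((sep : ℝ) * h) ^ (m - 1) * h) + 1) := by
  classical
  -- the two sides
  obtain ⟨A, hA⟩ : ∃ A : Finset ℕ, A = (range Tn).filter fun c1 => c1 ≤ c2 ∧ (sep ≤ Nat.dist c1 c2 ∧ |w * (((c2 : ℝ) - c1) * h) ^ m - y0| ≤ ρ) := ⟨_, rfl⟩
  obtain ⟨B, hB⟩ : ∃ B : Finset ℕ, B = (range Tn).filter fun c1 => ¬ c1 ≤ c2 ∧ (sep ≤ Nat.dist c1 c2 ∧ |w * (((c2 : ℝ) - c1) * h) ^ m - y0| ≤ ρ) := ⟨_, rfl⟩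
  have hsum : ∑ c1 ∈ range Tn, k3mI (sep ≤ Nat.dist c1 c2 ∧ |w * (((c2 : ℝ) - c1) * h) ^ m - y0| ≤ ρ) = (A.card : ℝ) + B.card := by
    rw [hA, hB, Finset.card_filter, Finset.card_filter]
    push_cast
    rw [← Finset.sum_add_distrib]
    refine Finset.sum_congr rfl fun c1 _ => ?_
    unfold k3mI
    by_cases h1 : c1 ≤ c2 <;> by_cases h2 : (sep ≤ Nat.dist c1 c2 ∧ |w * (((c2 : ℝ) - c1) * h) ^ m - y0| ≤ ρ) <;> simp [h1, h2]
  rw [hsum]
  have hAc : (A.card : ℝ) ≤ 2 * ρ / (|w| * ((sep : ℝ) * h) ^ (m - 1) * h) + 1 := by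
    have hinj : Set.InjOn (fun c1 => c2 - c1) (A : Set ℕ) := by
      intro a ha b hb hab
      rw [hA] at ha hb
      have ha' := (Finset.mem_filter.1 ha).2.1
      have hb' := (Finset.mem_filter.1 hb).2.1
      simp only at hab
      omega
    rw [← Finset.card_image_of_injOn hinj]
    refine k3m_t4_side (y0 := y0) hm hw hρ hh hsep _ fun d hd => ?_
    obtain ⟨c1, hc1, rfl⟩ := Finset.mem_image.1 hd
    rw [hA] at hc1
    obtain ⟨hle, hs, hv⟩ := (Finset.mem_filter.1 hc1).2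
    refine ⟨?_, ?_⟩
    · rw [Nat.dist_eq_sub_of_le hle] at hs
      exact hs
    · rw [Nat.cast_sub hle]
      exact hv
  have hBc : (B.card : ℝ) ≤ 2 * ρ / (|w| * ((sep : ℝ) * h) ^ (m - 1) * h) + 1 := by
    have hinj : Set.InjOn (fun c1 => c1 - c2) (B : Set ℕ) := by
      intro a ha b hb hab
      rw [hB] at ha hb
      have ha' := (Finset.mem_filter.1 ha).2.1
      have hb' := (Finset.mem_filter.1 hb).2.1
      simp only at hab
      omega
    rw [← Finset.card_image_of_injOn hinj]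
    have hw' : (-1 : ℝ) ^ m * w ≠ 0 := mul_ne_zero (pow_ne_zero _ (by norm_num)) hw
    have habs : |(-1 : ℝ) ^ m * w| = |w| := by rw [abs_mul, abs_pow, abs_neg, abs_one, one_pow, one_mul]
    have := k3m_t4_side (w := (-1 : ℝ) ^ m * w) (y0 := y0) hm hw' hρ hh hsep (B.image fun c1 => c1 - c2) fun d hd => ?_
    · rw [habs] at this
      exact this
    · obtain ⟨c1, hc1, rfl⟩ := Finset.mem_image.1 hd
      rw [hB] at hc1
      obtain ⟨hle, hs, hv⟩ := (Finset.mem_filter.1 hc1).2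
      have hle' : c2 ≤ c1 := by omega
      refine ⟨?_, ?_⟩
      · rw [Nat.dist_comm, Nat.dist_eq_sub_of_le hle'] at hs
        exact hs
      · rw [Nat.cast_sub hle']
        have e : (-1 : ℝ) ^ m * w * (((c1 : ℝ) - c2) * h) ^ m = w * (((c2 : ℝ) - c1) * h) ^ m := by
          have : ((c2 : ℝ) - c1) * h = (-1) * (((c1 : ℝ) - c2) * h) := by ring
          rw [this, mul_pow (-1 : ℝ)]
          ring
        rw [e]
        exact hv
  linarith

/-- **T6** generic box counting: a set whose elements are determined by finitely many integer coordinates, each in a window of `R` consecutive integers. -/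
theorem k3m_card_box {α ι : Type} [Fintype ι] (s : Set α) (cd : α → ι → ℤ) (hinj : Set.InjOn cd s) (lo : ι → ℤ) (R : ℕ)
    (h : ∀ a ∈ s, ∀ i, lo i ≤ cd a i ∧ cd a i < lo i + R) : s.Finite ∧ s.ncard ≤ R ^ Fintype.card ι := by
  classical
  have hsub : cd '' s ⊆ ↑(Fintype.piFinset fun i => Finset.Ico (lo i) (lo i + R)) := by
    rintro _ ⟨a, ha, rfl⟩
    rw [Finset.mem_coe, Fintype.mem_piFinset]
    exact fun i => Finset.mem_Ico.2 (h a ha i)
  have hfin : (cd '' s).Finite := (Finset.finite_toSet _).subset hsub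
  refine ⟨Set.Finite.of_finite_image hfin hinj, ?_⟩
  rw [← Set.InjOn.ncard_image hinj]
  refine (Set.ncard_le_ncard hsub (Finset.finite_toSet _)).trans ?_
  rw [Set.ncard_coe_finset, Fintype.card_piFinset]
  simp

end

end Claimed.Agent.R252

end PkS3mTaylor

section PkS3mDefs

/-!
# ROW 252, unit S3m (L3.3 two-colour matching, architect helper93), file Defs: THE DISCRETE CONFIGURATION AND ITS STATES  (03 l.394-430)

`K3mDat Ω` : a finite set `Ω` of events `ω = (i_true, i_false, time cell)`; time cells `c < 2^kT`, time `tm c = c / 2^kT`; two lists of jet families `F col i j` (`j` = order of the derivative);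
a law `p` on `Ω`.  `N` = scale, `K ≥ 1` = loss, `β j` = exponents of the derivative gaps, `n` = number of levels (`b = 1/n`).
Level `k ≤ n`: value scale `N^(-a k)`, dyadic time intervals of length `ell k = 2^(-kk k) ∈ [N^(-r(a k))/2, N^(-r(a k))]`, index `ii k c`, LEFT END POINT `tl k c`.
* `bn col i j k c` = bin of the `j`-th derivative of the arm `(col, i)` at `tl k c`, width `N^(-l j k)`.
* `rw k ω` = (interval index, bins of both arms, orders `≤ J`);  `st k ω` = all `rw k'`, `k' ≤ k` (the state `F_a` of the paper, with its history).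
* `pal k0 m ω` = the palette: bins of the `m`-th derivatives of both arms at `tl k0`, width `N^(-β m - 2/n)`.
-/

set_option autoImplicit false

namespace Claimed.Agent.R252

open scoped BigOperators Nat
open Finset

noncomputable section

/-- states -/
abbrev K3mSt := ℕ → ℕ × (Bool → ℕ → ℤ)

/-- data of a discrete two-colour configuration -/
structure K3mDat (Ω : Type) where
  J : ℕ
  n : ℕ
  kT : ℕ
  N : ℝ
  K : ℝ
  η : ℝ
  β : ℕ → ℝ
  nn : Bool → ℕ
  idx : Bool → Ω → ℕ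
  tc : Ω → ℕ
  F : Bool → ℕ → ℕ → ℝ → ℝ
  π : Bool → ℕ → ℝ
  p : Ω → ℝ

namespace K3mDat

variable {Ω : Type} (d : K3mDat Ω)

def r (x : ℝ) : ℝ := k3mR d.J d.β x
def a (k : ℕ) : ℝ := k3mA d.n k
def l (j k : ℕ) : ℝ := k3mL d.J d.n d.β j k
/-- dyadic exponent of the time intervals of level `k` -/
def kk (k : ℕ) : ℕ := ⌈d.r (d.a k) * Real.logb 2 d.N⌉₊
/-- length of the time intervals of level `k` -/
def ell (k : ℕ) : ℝ := (1 / 2 : ℝ) ^ d.kk k
/-- index of the interval of level `k` which contains the cell `c` -/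
def ii (k c : ℕ) : ℕ := c / 2 ^ (d.kT - d.kk k)
/-- left end point of that interval -/
def tl (k c : ℕ) : ℝ := (d.ii k c : ℝ) * d.ell k
/-- time of a cell -/
def tm (c : ℕ) : ℝ := (c : ℝ) / 2 ^ d.kT
/-- bins -/
def bn (col : Bool) (i j k c : ℕ) : ℤ := ⌊d.F col i j (d.tl k c) * d.N ^ (d.l j k)⌋
/-- the arm of colour `col` of an event -/
def arm (col : Bool) (ω : Ω) : ℕ → ℝ → ℝ := d.F col (d.idx col ω)
/-- record of level `k` -/
def rw (k : ℕ) (ω : Ω) : ℕ × (Bool → ℕ → ℤ) :=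
  (d.ii k (d.tc ω), fun col j => if j ≤ d.J then d.bn col (d.idx col ω) j k (d.tc ω) else 0)
/-- state of level `k` -/
def st (k : ℕ) (ω : Ω) : K3mSt := fun k' => if k' ≤ k then d.rw k' ω else (0, fun _ _ => 0)
/-- palette -/
def pal (k0 m : ℕ) (ω : Ω) : Bool → ℤ := fun col => ⌊d.arm col ω m (d.tl k0 (d.tc ω)) * d.N ^ (d.β m + 2 / (d.n : ℝ))⌋
/-- derivative gaps of an event -/
def gap (j : ℕ) (ω : Ω) : ℝ := |d.arm true ω j (d.tm (d.tc ω)) - d.arm false ω j (d.tm (d.tc ω))|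
/-- arm and coarse interval -/
def x2 (k : ℕ) (col : Bool) (ω : Ω) : ℕ × ℕ := (d.idx col ω, d.ii k (d.tc ω))
/-- the jet of `g` at `x` is `A`-small at level `k` -/
def sm (g : ℕ → ℝ → ℝ) (k : ℕ) (A x : ℝ) : Prop := ∀ j ≤ d.J, |g j x| ≤ A * d.N ^ (-d.l j k)

end K3mDat

/-- difference of two jet families -/
def k3mDif (g g' : ℕ → ℝ → ℝ) : ℕ → ℝ → ℝ := fun j t => g j t - g' j t

/-- hypotheses on a discrete configuration with uniform gap exponents -/
structure K3mDat.OK {Ω : Type} [Fintype Ω] (d : K3mDat Ω) (D : ℕ) : Prop where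
  beta : K3mBeta D d.J d.β
  n_pos : 1 ≤ d.n
  N_ge : 2 ≤ d.N
  K_ge : 1 ≤ d.K
  η_pos : 0 < d.η
  kT_ge : d.N ^ 3 ≤ 2 ^ d.kT
  law : K3mLaw d.p
  jet : ∀ col i, K3mJet (d.F col i) (d.J + 1)
  bound : ∀ col i j, j ≤ d.J + 1 → ∀ t ∈ Set.Icc (0 : ℝ) 1, |d.F col i j t| ≤ d.K
  idx_lt : ∀ ω, d.p ω ≠ 0 → ∀ col, d.idx col ω < d.nn col
  tc_lt : ∀ ω, d.tc ω < 2 ^ d.kT
  gap_le : ∀ ω, d.p ω ≠ 0 → ∀ j ≤ d.J, d.gap j ω ≤ d.K * d.N ^ (-d.β j)
  gap_ge : ∀ ω, d.p ω ≠ 0 → ∀ j, 1 ≤ j → j ≤ d.J → d.β j ≤ 1 → d.N ^ (-d.β j - d.η) ≤ d.gap j ω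
  π_nonneg : ∀ col i, 0 ≤ d.π col i
  π_sum : ∀ col, ∑ i ∈ range (d.nn col), d.π col i ≤ 1
  marg : ∀ col i c, k3mP d.p {ω | d.idx col ω = i ∧ d.tc ω = c} ≤ d.K * d.π col i / 2 ^ d.kT

theorem k3m_defs_eqns_cite : True := by
  have := @K3mDat.r.eq_1
  have := @K3mDat.a.eq_1
  have := @K3mDat.l.eq_1
  have := @K3mDat.kk.eq_1
  have := @K3mDat.ell.eq_1
  have := @K3mDat.ii.eq_1
  have := @K3mDat.tl.eq_1
  have := @K3mDat.tm.eq_1
  have := @K3mDat.bn.eq_1
  have := @K3mDat.arm.eq_1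
  have := @K3mDat.rw.eq_1
  have := @K3mDat.st.eq_1
  have := @K3mDat.pal.eq_1
  have := @K3mDat.gap.eq_1
  have := @K3mDat.x2.eq_1
  have := @K3mDat.sm.eq_1
  have := @k3mDif.eq_1
  trivial

end

end Claimed.Agent.R252

end PkS3mDefs
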