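-- KEEP
import Claimed.Agent.R252.S3m.Sel

/-! PACKED FILE (helper10, closed unit): parts S3m.GeoA, S3m.GeoB.  Each part is wrapped in its own `section`. -/

section PkS3mGeoA

/-!
# ROW 252, unit S3m (L3.3 two-colour matching, architect helper93), file GeoA.     CONTRACT file: the `sorry`s are the leaves L-252-K3M-G*.

Geometry of the states of a discrete configuration `d : K3mDat Ω`, `h : d.OK D` (03 l.394-430, l.537-543): dyadic times, weights, bins, neighbours, support, light pairs, palette.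
All statements are paper-free; tools: `Expo.lean` (exponents), `Taylor.lean` (`k3m_translate`, `k3m_card_box`), `Prob.lean`, all usable as black boxes.
CONVENTION: `d.N ^ x` is `Real.rpow`; use `Real.rpow_add`, `Real.rpow_le_rpow_of_exponent_le` (`1 ≤ d.N`), `Real.rpow_natCast`, `Real.rpow_mul`.
-/

set_option autoImplicit false
set_option linter.unusedSectionVars false

namespace Claimed.Agent.R252

open scoped BigOperators Nat
open Finset

noncomputable section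

namespace K3mDat

variable {Ω : Type} [Fintype Ω] {d : K3mDat Ω} {D : ℕ}

/-! ## 0. dyadic times      (leaf L-252-K3M-G0) -/

theorem N_pos (h : d.OK D) : 0 < d.N := by linarith [h.N_ge]

theorem J_pos (h : d.OK D) : 1 ≤ d.J := by have := h.beta.hD; have := h.beta.hJ; omega

theorem r_a_nonneg (h : d.OK D) (k : ℕ) : 0 ≤ d.r (d.a k) := k3mR_nonneg h.beta (k3mA_nonneg _ _)

theorem r_a_le_one (h : d.OK D) {k : ℕ} (hk : k ≤ d.n) : d.r (d.a k) ≤ 1 :=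
  (k3mR_le_self h.beta (k3mA_nonneg _ _)).trans (k3mA_le_one hk)

theorem logb_N_pos (h : d.OK D) : 0 < Real.logb 2 d.N :=
  Real.logb_pos (by norm_num) (by linarith [h.N_ge])

/-- `N^x = 2^(x log₂ N)` -/
theorem N_rpow_eq (h : d.OK D) (x : ℝ) : d.N ^ x = (2 : ℝ) ^ (x * Real.logb 2 d.N) := by
  conv_lhs => rw [← Real.rpow_logb (by norm_num : (0 : ℝ) < 2) (by norm_num) (N_pos h)]
  rw [← Real.rpow_mul (by norm_num), mul_comm]

theorem ell_eq_rpow (d : K3mDat Ω) (k : ℕ) : d.ell k = (2 : ℝ) ^ (-(d.kk k : ℝ)) := by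
  unfold K3mDat.ell
  rw [Real.rpow_neg (by norm_num), Real.rpow_natCast, one_div, inv_pow]

theorem ell_mul_pow (d : K3mDat Ω) (k : ℕ) : d.ell k * 2 ^ d.kk k = 1 := by
  unfold K3mDat.ell
  rw [← mul_pow]
  norm_num

theorem kk_mono (h : d.OK D) {k k' : ℕ} (hk : k ≤ k') : d.kk k ≤ d.kk k' := by
  unfold K3mDat.kk
  refine Nat.ceil_mono (mul_le_mul_of_nonneg_right ?_ (logb_N_pos h).le)
  exact k3mR_mono (J_pos h) d.β (k3mA_mono d.n hk)

theorem ell_pos (d : K3mDat Ω) (k : ℕ) : 0 < d.ell k := by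
  unfold K3mDat.ell; positivity

/-- `2^(kk k) ≥ N^(r(a k))` -/
theorem ell_le (h : d.OK D) (k : ℕ) : d.ell k ≤ d.N ^ (-d.r (d.a k)) := by
  rw [ell_eq_rpow, N_rpow_eq h]
  refine Real.rpow_le_rpow_of_exponent_le (by norm_num) ?_
  have : d.r (d.a k) * Real.logb 2 d.N ≤ d.kk k := Nat.le_ceil _
  linarith

/-- `2^(kk k) < 2 N^(r(a k))` -/
theorem ell_ge (h : d.OK D) (k : ℕ) : d.N ^ (-d.r (d.a k)) / 2 ≤ d.ell k := by
  rw [ell_eq_rpow, N_rpow_eq h]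
  have h1 : (d.kk k : ℝ) < d.r (d.a k) * Real.logb 2 d.N + 1 :=
    Nat.ceil_lt_add_one (mul_nonneg (r_a_nonneg h k) (logb_N_pos h).le)
  have e : (2 : ℝ) ^ (-d.r (d.a k) * Real.logb 2 d.N) / 2 = (2 : ℝ) ^ (-d.r (d.a k) * Real.logb 2 d.N - 1) := by
    rw [Real.rpow_sub (by norm_num), Real.rpow_one]
  rw [e]
  exact Real.rpow_le_rpow_of_exponent_le (by norm_num) (by linarith)

/-- `2^(kk k) ≤ 2 N ≤ N^3 ≤ 2^kT` -/
theorem pow_kk_le (h : d.OK D) {k : ℕ} (hk : k ≤ d.n) : (2 : ℝ) ^ d.kk k ≤ 2 * d.N := by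
  have hN := N_pos h
  have h1 := ell_ge h k
  have h2 := ell_mul_pow d k
  have h3 : d.N ^ (-d.r (d.a k)) * d.N ^ (d.r (d.a k)) = 1 := by
    rw [← Real.rpow_add hN]
    simp
  have h4 : d.N ^ (d.r (d.a k)) ≤ d.N := by
    calc d.N ^ (d.r (d.a k)) ≤ d.N ^ (1 : ℝ) := Real.rpow_le_rpow_of_exponent_le (by linarith [h.N_ge]) (r_a_le_one h hk)
      _ = d.N := Real.rpow_one _
  have h5 : 0 < d.N ^ (d.r (d.a k)) := Real.rpow_pos_of_pos hN _
  have h6 : (0 : ℝ) < 2 ^ d.kk k := by positivity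
  have h7 : (2 : ℝ) ^ d.kk k ≤ 2 * d.N ^ (d.r (d.a k)) := by
    have a1 : d.N ^ (-d.r (d.a k)) / 2 * 2 ^ d.kk k ≤ 1 := by
      rw [← h2]
      exact mul_le_mul_of_nonneg_right h1 h6.le
    have a2 : d.N ^ (d.r (d.a k)) * (d.N ^ (-d.r (d.a k)) / 2 * 2 ^ d.kk k) ≤ d.N ^ (d.r (d.a k)) * 1 :=
      mul_le_mul_of_nonneg_left a1 h5.le
    have a3 : d.N ^ (d.r (d.a k)) * (d.N ^ (-d.r (d.a k)) / 2 * 2 ^ d.kk k)
        = (d.N ^ (-d.r (d.a k)) * d.N ^ (d.r (d.a k))) * 2 ^ d.kk k / 2 := by ring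
    rw [a3, h3] at a2
    linarith
  linarith

theorem kk_le_kT (h : d.OK D) {k : ℕ} (hk : k ≤ d.n) : d.kk k ≤ d.kT := by
  have h1 := pow_kk_le h hk
  have h2 := h.kT_ge
  have h3 := h.N_ge
  have h4 : 2 * d.N ≤ d.N ^ 3 := by nlinarith [sq_nonneg d.N, mul_self_nonneg (d.N - 2)]
  exact (pow_le_pow_iff_right₀ (by norm_num : (1 : ℝ) < 2)).1 (h1.trans (h4.trans h2))

theorem pow_kT_split (h : d.OK D) {k : ℕ} (hk : k ≤ d.n) : (2 : ℝ) ^ d.kT = 2 ^ (d.kT - d.kk k) * 2 ^ d.kk k := by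
  rw [← pow_add, Nat.sub_add_cancel (kk_le_kT h hk)]

theorem ell_eq (h : d.OK D) {k : ℕ} (hk : k ≤ d.n) : d.ell k = (2 : ℝ) ^ (d.kT - d.kk k) / 2 ^ d.kT := by
  rw [pow_kT_split h hk, eq_div_iff (by positivity)]
  have := ell_mul_pow d k
  calc d.ell k * (2 ^ (d.kT - d.kk k) * 2 ^ d.kk k) = (d.ell k * 2 ^ d.kk k) * 2 ^ (d.kT - d.kk k) := by ring
    _ = 2 ^ (d.kT - d.kk k) := by rw [this, one_mul]

/-- the coarse intervals contain many cells: `2^(kT - kk k) ≥ N^3/(2N)` -/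
theorem cells_ge (h : d.OK D) {k : ℕ} (hk : k ≤ d.n) : d.N ^ 2 / 2 ≤ (2 : ℝ) ^ (d.kT - d.kk k) := by
  have hN := N_pos h
  have h1 := pow_kk_le h hk
  have h2 := h.kT_ge
  rw [pow_kT_split h hk] at h2
  have h3 : (0 : ℝ) < 2 ^ (d.kT - d.kk k) := by positivity
  have h4 : d.N ^ 3 ≤ 2 ^ (d.kT - d.kk k) * (2 * d.N) := h2.trans (mul_le_mul_of_nonneg_left h1 h3.le)
  have h5 : d.N ^ 2 / 2 * (2 * d.N) ≤ 2 ^ (d.kT - d.kk k) * (2 * d.N) := by
    calc d.N ^ 2 / 2 * (2 * d.N) = d.N ^ 3 := by ring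
      _ ≤ _ := h4
  exact le_of_mul_le_mul_right h5 (by positivity)

theorem tl_le_tm (h : d.OK D) {k : ℕ} (hk : k ≤ d.n) (c : ℕ) : d.tl k c ≤ d.tm c := by
  unfold K3mDat.tl K3mDat.tm K3mDat.ii
  rw [ell_eq h hk, ← mul_div_assoc]
  refine div_le_div_of_nonneg_right ?_ (by positivity)
  have := Nat.div_mul_le_self c (2 ^ (d.kT - d.kk k))
  exact_mod_cast this

theorem tm_le (h : d.OK D) {k : ℕ} (hk : k ≤ d.n) (c : ℕ) : d.tm c ≤ d.tl k c + d.ell k := by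
  unfold K3mDat.tl K3mDat.tm K3mDat.ii
  rw [ell_eq h hk, ← mul_div_assoc, ← add_div]
  refine div_le_div_of_nonneg_right ?_ (by positivity)
  have := (Nat.lt_mul_div_succ c (show 0 < 2 ^ (d.kT - d.kk k) by positivity)).le
  have h2 : (c : ℝ) ≤ ((2 ^ (d.kT - d.kk k) * (c / 2 ^ (d.kT - d.kk k) + 1) : ℕ) : ℝ) := by exact_mod_cast this
  push_cast at h2
  linarith

theorem tm_mem (d : K3mDat Ω) {c : ℕ} (hc : c < 2 ^ d.kT) : d.tm c ∈ Set.Icc (0 : ℝ) 1 := by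
  unfold K3mDat.tm
  refine ⟨by positivity, ?_⟩
  rw [div_le_one (by positivity)]
  exact_mod_cast hc.le

theorem tl_mem (h : d.OK D) {k : ℕ} (hk : k ≤ d.n) {c : ℕ} (hc : c < 2 ^ d.kT) : d.tl k c ∈ Set.Icc (0 : ℝ) 1 := by
  refine ⟨?_, (tl_le_tm h hk c).trans (d.tm_mem hc).2⟩
  unfold K3mDat.tl
  exact mul_nonneg (Nat.cast_nonneg _) (d.ell_pos k).le

theorem tl_congr (d : K3mDat Ω) {k c c' : ℕ} (e : d.ii k c = d.ii k c') : d.tl k c = d.tl k c' := by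
  unfold K3mDat.tl; rw [e]

theorem ii_split (h : d.OK D) {k k' : ℕ} (hkk : k ≤ k') (hk : k' ≤ d.n) (c : ℕ) : d.ii k c = d.ii k' c / 2 ^ (d.kk k' - d.kk k) := by
  unfold K3mDat.ii
  have h1 := kk_mono h hkk
  have h2 := kk_le_kT h hk
  rw [Nat.div_div_eq_div_mul, ← pow_add]
  congr 2
  omega

/-- the dyadic partitions are nested (`Nat.div_div_eq_div_mul`) -/
theorem ii_nest (h : d.OK D) {k k' : ℕ} (hkk : k ≤ k') (hk : k' ≤ d.n) {c c' : ℕ} (e : d.ii k' c = d.ii k' c') : d.ii k c = d.ii k c' := by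
  rw [ii_split h hkk hk, ii_split h hkk hk, e]

theorem tl_mono (h : d.OK D) {k k' : ℕ} (hkk : k ≤ k') (hk : k' ≤ d.n) (c : ℕ) : d.tl k c ≤ d.tl k' c := by
  unfold K3mDat.tl
  rw [ii_split h hkk hk]
  have h1 := kk_mono h hkk
  have e : d.ell k = 2 ^ (d.kk k' - d.kk k) * d.ell k' := by
    have a1 := ell_mul_pow d k
    have a2 := ell_mul_pow d k'
    have a3 : (2 : ℝ) ^ d.kk k' = 2 ^ (d.kk k' - d.kk k) * 2 ^ d.kk k := by
      rw [← pow_add, Nat.sub_add_cancel h1]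
    have a4 : (0 : ℝ) < 2 ^ d.kk k := by positivity
    rw [a3] at a2
    have : d.ell k * 2 ^ d.kk k = (2 ^ (d.kk k' - d.kk k) * d.ell k') * 2 ^ d.kk k := by
      rw [a1, ← a2]
      ring
    exact mul_right_cancel₀ a4.ne' this
  rw [e, ← mul_assoc]
  refine mul_le_mul_of_nonneg_right ?_ (d.ell_pos k').le
  have := Nat.div_mul_le_self (d.ii k' c) (2 ^ (d.kk k' - d.kk k))
  exact_mod_cast this

theorem ii_lt (h : d.OK D) {k : ℕ} (hk : k ≤ d.n) {c : ℕ} (hc : c < 2 ^ d.kT) : d.ii k c < 2 ^ d.kk k := by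
  unfold K3mDat.ii
  refine Nat.div_lt_of_lt_mul ?_
  rw [← pow_add, Nat.sub_add_cancel (kk_le_kT h hk)]
  exact hc

/-- number of cells of an interval -/
theorem ii_count (h : d.OK D) {k : ℕ} (hk : k ≤ d.n) (I : ℕ) : ∑ c ∈ range (2 ^ d.kT), k3mI (d.ii k c = I) ≤ (2 : ℝ) ^ (d.kT - d.kk k) := by
  rw [k3m_sum_I_eq]
  set m : ℕ := 2 ^ (d.kT - d.kk k) with hm
  have hm0 : 0 < m := by positivity
  have hsub : ({c | c < 2 ^ d.kT ∧ d.ii k c = I} : Set ℕ) ⊆ ↑(Finset.Ico (I * m) ((I + 1) * m)) := by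
    rintro c ⟨_, hc⟩
    have hc' : c / m = I := hc
    rw [Finset.mem_coe, Finset.mem_Ico]
    constructor
    · rw [← hc']
      exact Nat.div_mul_le_self c m
    · rw [← hc', mul_comm]
      exact Nat.lt_mul_div_succ c hm0
  have h1 := Set.ncard_le_ncard hsub (Finset.finite_toSet _)
  rw [Set.ncard_coe_finset, Nat.card_Ico] at h1
  have h2 : (I + 1) * m - I * m = m := by
    rw [add_mul, one_mul]
    omega
  rw [h2] at h1
  calc ((({c | c < 2 ^ d.kT ∧ d.ii k c = I} : Set ℕ).ncard : ℕ) : ℝ) ≤ (m : ℝ) := by exact_mod_cast h1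
    _ = (2 : ℝ) ^ (d.kT - d.kk k) := by rw [hm]; push_cast; rfl

/-- `|x - y| ≤ ell k` for two points of the closed interval `[tl, tl + ell]` -/
theorem abs_sub_le_ell {k : ℕ} {t x y : ℝ} (hx : x ∈ Set.Icc t (t + d.ell k)) (hy : y ∈ Set.Icc t (t + d.ell k)) : |x - y| ≤ d.ell k := by
  rw [abs_le]; constructor <;> linarith [hx.1, hx.2, hy.1, hy.2]

/-! ## 1. weights and small jets      (leaf L-252-K3M-G1) -/

theorem ell_pow_le (h : d.OK D) (k i : ℕ) : d.ell k ^ i ≤ d.N ^ (-(i : ℝ) * d.r (d.a k)) := by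
  have hN := N_pos h
  calc d.ell k ^ i ≤ (d.N ^ (-d.r (d.a k))) ^ i := pow_le_pow_left₀ (d.ell_pos k).le (ell_le h k) i
    _ = d.N ^ (-(i : ℝ) * d.r (d.a k)) := by
        rw [← Real.rpow_natCast, ← Real.rpow_mul hN.le]
        congr 1
        ring

/-- (a02:translation-exponents) in multiplicative form: `k3mL_shift`, `ell_le` -/
theorem lam_shift (h : d.OK D) (j i k : ℕ) : d.N ^ (-d.l (j + i) k) * d.ell k ^ i ≤ d.N ^ (-d.l j k) := by
  have hN := N_pos h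
  have h1 : d.ell k ^ i ≤ d.N ^ (-(i : ℝ) * d.r (d.a k)) := ell_pow_le h k i
  have h2 : d.l j k ≤ d.l (j + i) k + i * d.r (d.a k) := k3mL_shift h.beta d.n j i k
  calc d.N ^ (-d.l (j + i) k) * d.ell k ^ i ≤ d.N ^ (-d.l (j + i) k) * d.N ^ (-(i : ℝ) * d.r (d.a k)) :=
        mul_le_mul_of_nonneg_left h1 (Real.rpow_nonneg hN.le _)
    _ = d.N ^ (-d.l (j + i) k + -(i : ℝ) * d.r (d.a k)) := (Real.rpow_add hN _ _).symm
    _ ≤ d.N ^ (-d.l j k) := Real.rpow_le_rpow_of_exponent_le (by linarith [h.N_ge]) (by linarith)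

/-- (a02:remainder-gap) in multiplicative form: `k3mL_rem` -/
theorem lam_rem (h : d.OK D) {j : ℕ} (hj : j ≤ d.J) (k : ℕ) : d.ell k ^ (d.J + 1 - j) ≤ d.N ^ (-d.l j k) := by
  have h1 : d.l j k + d.a k / d.J ≤ ((d.J : ℝ) + 1 - j) * d.r (d.a k) := k3mL_rem h.beta d.n hj k
  have h2 : 0 ≤ d.a k / d.J := div_nonneg (k3mA_nonneg _ _) (Nat.cast_nonneg _)
  have e : ((d.J + 1 - j : ℕ) : ℝ) = (d.J : ℝ) + 1 - j := by
    rw [Nat.cast_sub (by omega)]
    push_cast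
    ring
  refine (ell_pow_le h k _).trans (Real.rpow_le_rpow_of_exponent_le (by linarith [h.N_ge]) ?_)
  rw [e]
  linarith

/-- quantitative remainder: `ell k ^ (J+1-j) ≤ N^(-l j k - a k / J)` -/
theorem lam_rem' (h : d.OK D) {j : ℕ} (hj : j ≤ d.J) (k : ℕ) : d.ell k ^ (d.J + 1 - j) ≤ d.N ^ (-d.l j k - d.a k / d.J) := by
  have h1 : d.l j k + d.a k / d.J ≤ ((d.J : ℝ) + 1 - j) * d.r (d.a k) := k3mL_rem h.beta d.n hj k
  have e : ((d.J + 1 - j : ℕ) : ℝ) = (d.J : ℝ) + 1 - j := by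
    rw [Nat.cast_sub (by omega)]
    push_cast
    ring
  refine (ell_pow_le h k _).trans (Real.rpow_le_rpow_of_exponent_le (by linarith [h.N_ge]) ?_)
  rw [e]
  linarith

theorem sm_mono {g : ℕ → ℝ → ℝ} {k : ℕ} {A A' x : ℝ} (h : d.OK D) (hs : d.sm g k A x) (hA : A ≤ A') : d.sm g k A' x := fun j hj =>
  (hs j hj).trans (mul_le_mul_of_nonneg_right hA (Real.rpow_nonneg (N_pos h).le _))

/-- a jet which is small at a fine level is small at a coarser level (`k3mL_mono`) -/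
theorem sm_coarse {g : ℕ → ℝ → ℝ} {k k' : ℕ} {A x : ℝ} (h : d.OK D) (hA : 0 ≤ A) (hs : d.sm g k' A x) (hk : k ≤ k') : d.sm g k A x := fun j hj => by
  refine (hs j hj).trans (mul_le_mul_of_nonneg_left ?_ hA)
  refine Real.rpow_le_rpow_of_exponent_le (by linarith [h.N_ge]) ?_
  have : d.l j k ≤ d.l j k' := k3mL_mono d.J d.n d.β j hk
  linarith

theorem sm_add {g g' g'' : ℕ → ℝ → ℝ} {k : ℕ} {A A' x : ℝ} (hs : d.sm (k3mDif g g') k A x) (hs' : d.sm (k3mDif g' g'') k A' x) :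
    d.sm (k3mDif g g'') k (A + A') x := fun j hj => by
  have e : k3mDif g g'' j x = k3mDif g g' j x + k3mDif g' g'' j x := by
    simp only [k3mDif]
    ring
  rw [e, add_mul]
  exact (abs_add_le _ _).trans (add_le_add (hs j hj) (hs' j hj))

theorem sm_symm {g g' : ℕ → ℝ → ℝ} {k : ℕ} {A x : ℝ} (hs : d.sm (k3mDif g g') k A x) : d.sm (k3mDif g' g) k A x := fun j hj => by
  have e : k3mDif g' g j x = -k3mDif g g' j x := by
    simp only [k3mDif]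
    ring
  rw [e, abs_neg]
  exact hs j hj

theorem sm_self (h : d.OK D) (g : ℕ → ℝ → ℝ) (k : ℕ) (x : ℝ) : d.sm (k3mDif g g) k 0 x := fun j _ => by
  simp [k3mDif]

/-- (a02:translated-bin-width): `k3m_translate` with `lam j = N^(-l j k)`, `ℓ = ell k` -/
theorem sm_translate (h : d.OK D) {g : ℕ → ℝ → ℝ} (hg : K3mJet g (d.J + 1)) {B : ℝ} (hB : ∀ t ∈ Set.Icc (0 : ℝ) 1, |g (d.J + 1) t| ≤ B)
    {k : ℕ} {A x0 x : ℝ} (hA : 0 ≤ A) (hx0 : x0 ∈ Set.Icc (0 : ℝ) 1) (hx : x ∈ Set.Icc (0 : ℝ) 1) (hd : |x - x0| ≤ d.ell k) (h0 : d.sm g k A x0) :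
    d.sm g k (3 * A + B) x :=
  k3m_translate hg hB (fun j => d.N ^ (-d.l j k)) (d.ell_pos k).le hA (fun j i _ => lam_shift h j i k) (fun j hj => lam_rem h hj k)
    hx0 hx hd h0

theorem dif_jet (h : d.OK D) (col col' : Bool) (i i' : ℕ) : K3mJet (k3mDif (d.F col i) (d.F col' i')) (d.J + 1) :=
  (h.jet col i).sub (h.jet col' i')

theorem dif_bound (h : d.OK D) (col col' : Bool) (i i' : ℕ) : ∀ t ∈ Set.Icc (0 : ℝ) 1, |k3mDif (d.F col i) (d.F col' i') (d.J + 1) t| ≤ 2 * d.K := fun t ht => by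
  have h1 := h.bound col i (d.J + 1) le_rfl t ht
  have h2 := h.bound col' i' (d.J + 1) le_rfl t ht
  simp only [k3mDif]
  exact (abs_sub _ _).trans (by linarith)

/-- the two arms of an event of the support are `5K`-close at every level, everywhere in the interval of that level (`gap_le`, `k3mL_le_beta`, `sm_translate` with `A = K`, `B = 2K`) -/
theorem pair_sm (h : d.OK D) {ω : Ω} (hω : d.p ω ≠ 0) {k : ℕ} (hk : k ≤ d.n) {x : ℝ} (hx : x ∈ Set.Icc (0 : ℝ) 1) (hd : |x - d.tm (d.tc ω)| ≤ d.ell k) :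
    d.sm (k3mDif (d.arm true ω) (d.arm false ω)) k (5 * d.K) x := by
  have hK0 : 0 ≤ d.K := by linarith [h.K_ge]
  have h0 : d.sm (k3mDif (d.arm true ω) (d.arm false ω)) k d.K (d.tm (d.tc ω)) := fun j hj => by
    refine (h.gap_le ω hω j hj).trans (mul_le_mul_of_nonneg_left ?_ hK0)
    refine Real.rpow_le_rpow_of_exponent_le (by linarith [h.N_ge]) ?_
    have : d.l j k ≤ d.β j := k3mL_le_beta h.beta hj hk
    linarith
  have := sm_translate h (dif_jet h true false (d.idx true ω) (d.idx false ω)) (dif_bound h true false _ _) hK0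
    (d.tm_mem (h.tc_lt ω)) hx hd h0
  have e : 3 * d.K + 2 * d.K = 5 * d.K := by ring
  rw [e] at this
  exact this

/-! ## 2. bins and states      (leaf L-252-K3M-G2) -/

theorem N_rpow_mul_neg (h : d.OK D) (x : ℝ) : d.N ^ x * d.N ^ (-x) = 1 := by
  rw [← Real.rpow_add (N_pos h)]
  simp

/-- a value in units of the bin width -/
theorem val_eq (h : d.OK D) (y : ℝ) (j k : ℕ) : y = (y * d.N ^ (d.l j k)) * d.N ^ (-d.l j k) := by
  rw [mul_assoc, N_rpow_mul_neg h, mul_one]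

theorem bn_approx (h : d.OK D) (col : Bool) (i j k c : ℕ) : |d.F col i j (d.tl k c) - (d.bn col i j k c : ℝ) * d.N ^ (-d.l j k)| ≤ d.N ^ (-d.l j k) := by
  have hp : 0 < d.N ^ (-d.l j k) := Real.rpow_pos_of_pos (N_pos h) _
  unfold K3mDat.bn
  set y := d.F col i j (d.tl k c) * d.N ^ (d.l j k) with hy
  have e : d.F col i j (d.tl k c) = y * d.N ^ (-d.l j k) := val_eq h _ j k
  rw [e, ← sub_mul, abs_mul, abs_of_pos hp]
  have h1 : |y - ⌊y⌋| ≤ 1 := by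
    rw [abs_of_nonneg (sub_nonneg.2 (Int.floor_le y))]
    linarith [Int.lt_floor_add_one y]
  calc |y - ⌊y⌋| * d.N ^ (-d.l j k) ≤ 1 * d.N ^ (-d.l j k) := mul_le_mul_of_nonneg_right h1 hp.le
    _ = d.N ^ (-d.l j k) := one_mul _

theorem bn_congr (d : K3mDat Ω) (col : Bool) (i j : ℕ) {k c c' : ℕ} (e : d.ii k c = d.ii k c') : d.bn col i j k c = d.bn col i j k c' := by
  unfold K3mDat.bn; rw [d.tl_congr e]

theorem bn_eq_sm (h : d.OK D) {col col' : Bool} {i i' k c : ℕ} (e : ∀ j ≤ d.J, d.bn col i j k c = d.bn col' i' j k c) :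
    d.sm (k3mDif (d.F col i) (d.F col' i')) k 1 (d.tl k c) := fun j hj => by
  have hp : 0 < d.N ^ (-d.l j k) := Real.rpow_pos_of_pos (N_pos h) _
  have e1 := e j hj
  unfold K3mDat.bn at e1
  have h1 := (Int.abs_sub_lt_one_of_floor_eq_floor e1).le
  simp only [k3mDif]
  rw [val_eq h (d.F col i j (d.tl k c)) j k, val_eq h (d.F col' i' j (d.tl k c)) j k, ← sub_mul, abs_mul, abs_of_pos hp]
  exact mul_le_mul_of_nonneg_right h1 hp.le

theorem sm_bn (h : d.OK D) {col col' : Bool} {i i' k c : ℕ} {A : ℝ} (hs : d.sm (k3mDif (d.F col i) (d.F col' i')) k A (d.tl k c)) :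
    ∀ j ≤ d.J, |(d.bn col i j k c : ℝ) - d.bn col' i' j k c| ≤ A + 1 := fun j hj => by
  have hp : 0 < d.N ^ (-d.l j k) := Real.rpow_pos_of_pos (N_pos h) _
  have h1 := hs j hj
  simp only [k3mDif] at h1
  rw [val_eq h (d.F col i j (d.tl k c)) j k, val_eq h (d.F col' i' j (d.tl k c)) j k, ← sub_mul, abs_mul, abs_of_pos hp] at h1
  have h2 := abs_le.1 (le_of_mul_le_mul_right h1 hp)
  unfold K3mDat.bn
  set y := d.F col i j (d.tl k c) * d.N ^ (d.l j k)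
  set y' := d.F col' i' j (d.tl k c) * d.N ^ (d.l j k)
  have a1 := Int.floor_le y
  have a2 := Int.lt_floor_add_one y
  have a3 := Int.floor_le y'
  have a4 := Int.lt_floor_add_one y'
  exact abs_le.2 ⟨by linarith [h2.1], by linarith [h2.2]⟩

theorem st_apply_le (d : K3mDat Ω) {k k' : ℕ} (hk : k' ≤ k) (ω : Ω) : d.st k ω k' = d.rw k' ω := by
  simp [K3mDat.st, hk]

theorem st_apply_gt (d : K3mDat Ω) {k k' : ℕ} (hk : k < k') (ω : Ω) : d.st k ω k' = (0, fun _ _ => 0) := by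
  simp [K3mDat.st, not_le.2 hk]

theorem st_nest (d : K3mDat Ω) : K3mNest d.st := by
  intro k ω ω' e
  funext k'
  by_cases hk : k' ≤ k
  · have := congrFun e k'
    rw [d.st_apply_le (hk.trans (Nat.le_succ k)), d.st_apply_le (hk.trans (Nat.le_succ k))] at this
    rw [d.st_apply_le hk, d.st_apply_le hk, this]
  · rw [d.st_apply_gt (not_le.1 hk), d.st_apply_gt (not_le.1 hk)]

theorem st_ii (d : K3mDat Ω) {k k' : ℕ} (hk : k' ≤ k) {ω ω' : Ω} (e : d.st k ω = d.st k ω') : d.ii k' (d.tc ω) = d.ii k' (d.tc ω') := by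
  have := congrFun e k'
  rw [d.st_apply_le hk, d.st_apply_le hk] at this
  exact congrArg Prod.fst this

theorem st_bn (d : K3mDat Ω) {k k' : ℕ} (hk : k' ≤ k) {ω ω' : Ω} (e : d.st k ω = d.st k ω') (col : Bool) {j : ℕ} (hj : j ≤ d.J) :
    d.bn col (d.idx col ω) j k' (d.tc ω) = d.bn col (d.idx col ω') j k' (d.tc ω') := by
  have := congrFun e k'
  rw [d.st_apply_le hk, d.st_apply_le hk] at this
  have h2 := congrFun (congrFun (congrArg Prod.snd this) col) j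
  simp only [K3mDat.rw, if_pos hj] at h2
  exact h2

/-- equal states: the arms of the same colour are `1`-close at the common left end points -/
theorem st_sm (h : d.OK D) {k k' : ℕ} (hk : k' ≤ k) {ω ω' : Ω} (e : d.st k ω = d.st k ω') (col : Bool) :
    d.sm (k3mDif (d.arm col ω) (d.arm col ω')) k' 1 (d.tl k' (d.tc ω')) := by
  refine bn_eq_sm h fun j hj => ?_
  rw [← d.st_bn hk e col hj]
  exact (d.bn_congr col _ j (d.st_ii hk e)).symm

/-! ## 3. neighbours      (leaf L-252-K3M-G3) -/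

/-- the neighbour states of a start: same intervals, all bins of both arms within `10 K + 2` of the bins of the `true` arm of the start -/
def nb (d : K3mDat Ω) (k : ℕ) (ω0 : Ω) : Set K3mSt :=
  {A | (∀ k' ≤ k, (A k').1 = d.ii k' (d.tc ω0) ∧ ∀ col j,
        (j ≤ d.J → |((A k').2 col j : ℝ) - d.bn true (d.idx true ω0) j k' (d.tc ω0)| ≤ 10 * d.K + 2) ∧ (d.J < j → (A k').2 col j = 0)) ∧
      ∀ k', k < k' → A k' = (0, fun _ _ => 0)}

theorem k3m_geoA_eqns_cite : True := by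
  have := @K3mDat.nb.eq_1
  trivial

theorem mem_nb (h : d.OK D) {k : ℕ} (hk : k ≤ d.n) {ω0 ω : Ω} (hI : d.ii k (d.tc ω) = d.ii k (d.tc ω0))
    (hs : ∀ col, ∀ k' ≤ k, d.sm (k3mDif (d.arm col ω) (d.arm true ω0)) k' (10 * d.K + 1) (d.tl k' (d.tc ω0))) : d.st k ω ∈ d.nb k ω0 := by
  refine ⟨fun k' hk' => ?_, fun k' hk' => d.st_apply_gt hk' ω⟩
  have hI' : d.ii k' (d.tc ω) = d.ii k' (d.tc ω0) := ii_nest h hk' hk hI
  rw [d.st_apply_le hk']
  refine ⟨hI', fun col j => ⟨fun hj => ?_, fun hj => ?_⟩⟩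
  · simp only [K3mDat.rw, if_pos hj]
    rw [d.bn_congr col _ j hI']
    have := sm_bn h (hs col k' hk') j hj
    linarith
  · simp only [K3mDat.rw, if_neg (not_le.2 hj)]

/-- integers within `A` of each other lie in a window of `2 ⌊A⌋₊ + 1` consecutive integers -/
theorem int_window {x b : ℤ} {A : ℝ} (hA : 0 ≤ A) (hx : |(x : ℝ) - b| ≤ A) : b - (⌊A⌋₊ : ℤ) ≤ x ∧ x < b - (⌊A⌋₊ : ℤ) + ((2 * ⌊A⌋₊ + 1 : ℕ) : ℤ) := by
  have h1 : |x - b| ≤ (⌊A⌋₊ : ℤ) := by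
    have h2 : ((|x - b| : ℤ) : ℝ) ≤ A := by
      push_cast
      exact hx
    have h3 : ((|x - b|).toNat : ℝ) ≤ A := by
      have : (((|x - b|).toNat : ℤ) : ℝ) = ((|x - b| : ℤ) : ℝ) := by rw [Int.toNat_of_nonneg (abs_nonneg _)]
      have e : ((|x - b|).toNat : ℝ) = (((|x - b|).toNat : ℤ) : ℝ) := by push_cast; rfl
      rw [e, this]
      exact h2
    have h4 := Nat.le_floor h3
    have h5 : |x - b| = ((|x - b|).toNat : ℤ) := (Int.toNat_of_nonneg (abs_nonneg _)).symm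
    rw [h5]
    exact_mod_cast h4
  have h6 := abs_le.1 h1
  push_cast
  constructor <;> linarith [h6.1, h6.2]

/-- `k3m_card_box` with `ι = Fin (k+1) × Bool × Fin (J+1)`, window `2 ⌊10K+2⌋₊ + 1` -/
theorem nb_card (h : d.OK D) (k : ℕ) (ω0 : Ω) :
    (d.nb k ω0).Finite ∧ ((d.nb k ω0).ncard : ℝ) ≤ (20 * d.K + 5) ^ (2 * (d.J + 1) * (k + 1)) := by
  have hK0 : (0 : ℝ) ≤ 10 * d.K + 2 := by linarith [h.K_ge]
  set M : ℕ := ⌊10 * d.K + 2⌋₊ with hM
  have hbox := k3m_card_box (ι := Fin (k + 1) × Bool × Fin (d.J + 1)) (d.nb k ω0)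
    (fun A x => (A x.1).2 x.2.1 x.2.2) ?_
    (fun x => d.bn true (d.idx true ω0) x.2.2 x.1 (d.tc ω0) - (M : ℤ)) (2 * M + 1) ?_
  · refine ⟨hbox.1, ?_⟩
    have hc : Fintype.card (Fin (k + 1) × Bool × Fin (d.J + 1)) = 2 * (d.J + 1) * (k + 1) := by
      simp only [Fintype.card_prod, Fintype.card_fin, Fintype.card_bool]
      ring
    rw [hc] at hbox
    have hR : ((2 * M + 1 : ℕ) : ℝ) ≤ 20 * d.K + 5 := by
      have : (M : ℝ) ≤ 10 * d.K + 2 := Nat.floor_le hK0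
      push_cast
      linarith
    calc ((d.nb k ω0).ncard : ℝ) ≤ (((2 * M + 1) ^ (2 * (d.J + 1) * (k + 1)) : ℕ) : ℝ) := by exact_mod_cast hbox.2
      _ = ((2 * M + 1 : ℕ) : ℝ) ^ (2 * (d.J + 1) * (k + 1)) := by push_cast; rfl
      _ ≤ (20 * d.K + 5) ^ (2 * (d.J + 1) * (k + 1)) := pow_le_pow_left₀ (Nat.cast_nonneg _) hR _
  · intro A hA B hB hAB
    funext k'
    by_cases hk' : k' ≤ k
    · refine Prod.ext ?_ ?_
      · rw [(hA.1 k' hk').1, (hB.1 k' hk').1]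
      · funext col j
        by_cases hj : j ≤ d.J
        · exact congrFun hAB (⟨k', Nat.lt_succ_of_le hk'⟩, col, ⟨j, Nat.lt_succ_of_le hj⟩)
        · rw [((hA.1 k' hk').2 col j).2 (not_le.1 hj), ((hB.1 k' hk').2 col j).2 (not_le.1 hj)]
    · rw [hA.2 k' (not_le.1 hk'), hB.2 k' (not_le.1 hk')]
  · intro A hA x
    exact int_window hK0 (((hA.1 x.1 (Nat.le_of_lt_succ x.1.2)).2 x.2.1 x.2.2).1 (Nat.le_of_lt_succ x.2.2.2))

/-- one fibre of the support: arm `true` and the finest interval are fixed -/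
theorem st_supp_fibre (h : d.OK D) (ω₁ : Ω) :
    ((d.st d.n '' {ω | d.p ω ≠ 0 ∧ d.idx true ω = d.idx true ω₁ ∧ d.ii d.n (d.tc ω) = d.ii d.n (d.tc ω₁)}).ncard : ℝ)
      ≤ (10 * d.K + 3) ^ ((d.J + 1) * (d.n + 1)) := by
  have hK0 : (0 : ℝ) ≤ 5 * d.K + 1 := by linarith [h.K_ge]
  set M : ℕ := ⌊5 * d.K + 1⌋₊ with hM
  set S : Set K3mSt := d.st d.n '' {ω | d.p ω ≠ 0 ∧ d.idx true ω = d.idx true ω₁ ∧ d.ii d.n (d.tc ω) = d.ii d.n (d.tc ω₁)} with hS
  -- the bins of the `true` arm are constant on the fibre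
  have htrue : ∀ ω, d.idx true ω = d.idx true ω₁ → d.ii d.n (d.tc ω) = d.ii d.n (d.tc ω₁) → ∀ k' ≤ d.n, ∀ j,
      d.bn true (d.idx true ω) j k' (d.tc ω) = d.bn true (d.idx true ω₁) j k' (d.tc ω₁) := fun ω h1 h2 k' hk' j => by
    rw [h1]
    exact d.bn_congr true _ j (ii_nest h hk' le_rfl h2)
  have hbox := k3m_card_box (ι := Fin (d.n + 1) × Fin (d.J + 1)) S
    (fun A x => (A x.1).2 false x.2) ?_
    (fun x => d.bn true (d.idx true ω₁) x.2 x.1 (d.tc ω₁) - (M : ℤ)) (2 * M + 1) ?_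
  · have hc : Fintype.card (Fin (d.n + 1) × Fin (d.J + 1)) = (d.J + 1) * (d.n + 1) := by
      simp only [Fintype.card_prod, Fintype.card_fin]
      ring
    rw [hc] at hbox
    have hR : ((2 * M + 1 : ℕ) : ℝ) ≤ 10 * d.K + 3 := by
      have : (M : ℝ) ≤ 5 * d.K + 1 := Nat.floor_le hK0
      push_cast
      linarith
    calc (S.ncard : ℝ) ≤ (((2 * M + 1) ^ ((d.J + 1) * (d.n + 1)) : ℕ) : ℝ) := by exact_mod_cast hbox.2
      _ = ((2 * M + 1 : ℕ) : ℝ) ^ ((d.J + 1) * (d.n + 1)) := by push_cast; rfl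
      _ ≤ (10 * d.K + 3) ^ ((d.J + 1) * (d.n + 1)) := pow_le_pow_left₀ (Nat.cast_nonneg _) hR _
  · rintro _ ⟨ω, ⟨_, h1, h2⟩, rfl⟩ _ ⟨ω', ⟨_, h1', h2'⟩, rfl⟩ hAB
    funext k'
    by_cases hk' : k' ≤ d.n
    · rw [d.st_apply_le hk', d.st_apply_le hk']
      refine Prod.ext ?_ ?_
      · exact (ii_nest h hk' le_rfl h2).trans (ii_nest h hk' le_rfl h2').symm
      · funext col j
        by_cases hj : j ≤ d.J
        · cases col
          · have := congrFun hAB (⟨k', Nat.lt_succ_of_le hk'⟩, ⟨j, Nat.lt_succ_of_le hj⟩)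
            simp only [d.st_apply_le hk'] at this
            exact this
          · simp only [K3mDat.rw, if_pos hj]
            rw [htrue ω h1 h2 k' hk' j, htrue ω' h1' h2' k' hk' j]
        · simp only [K3mDat.rw, if_neg hj]
    · rw [d.st_apply_gt (not_le.1 hk'), d.st_apply_gt (not_le.1 hk')]
  · rintro _ ⟨ω, ⟨hp, h1, h2⟩, rfl⟩ x
    have hk' : (x.1 : ℕ) ≤ d.n := Nat.le_of_lt_succ x.1.2
    have hj : (x.2 : ℕ) ≤ d.J := Nat.le_of_lt_succ x.2.2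
    have hx : d.tl x.1 (d.tc ω) ∈ Set.Icc (0 : ℝ) 1 := tl_mem h hk' (h.tc_lt ω)
    have hd : |d.tl x.1 (d.tc ω) - d.tm (d.tc ω)| ≤ d.ell x.1 := by
      have a1 := tl_le_tm h hk' (d.tc ω)
      have a2 := tm_le h hk' (d.tc ω)
      exact abs_le.2 ⟨by linarith, by linarith [d.ell_pos x.1]⟩
    have hsm := sm_symm (pair_sm h hp hk' hx hd)
    have hb := sm_bn h (col := false) (col' := true) (i := d.idx false ω) (i' := d.idx true ω) hsm x.2 hj
    rw [htrue ω h1 h2 x.1 hk' x.2] at hb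
    have e : (d.st d.n ω x.1).2 false x.2 = d.bn false (d.idx false ω) x.2 x.1 (d.tc ω) := by
      rw [d.st_apply_le hk']
      simp only [K3mDat.rw, if_pos hj]
    simp only [e]
    exact int_window hK0 hb

/-- **support** (a02:state-support).  The state of level `n` of an event of the support is determined by `(idx true ω, ii n (tc ω))` [`< nn true`, `< 2^(kk n)`]
and by the differences (bins of the `false` arm) - (bins of the `true` arm), which are `≤ 5K + 1` in absolute value (`pair_sm`, `sm_bn`).  `k3m_card_box` on each fibre. -/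
theorem st_supp_card (h : d.OK D) :
    ((d.st d.n '' {ω | d.p ω ≠ 0}).ncard : ℝ) ≤ d.nn true * 2 ^ d.kk d.n * (10 * d.K + 3) ^ ((d.J + 1) * (d.n + 1)) := by
  set B : ℝ := (10 * d.K + 3) ^ ((d.J + 1) * (d.n + 1)) with hB
  have hB0 : 0 ≤ B := by
    have : (0 : ℝ) ≤ 10 * d.K + 3 := by linarith [h.K_ge]
    positivity
  set T : Fin (d.nn true) × Fin (2 ^ d.kk d.n) → Set K3mSt := fun x =>
    d.st d.n '' {ω | d.p ω ≠ 0 ∧ d.idx true ω = x.1 ∧ d.ii d.n (d.tc ω) = x.2} with hT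
  have hsub : d.st d.n '' {ω | d.p ω ≠ 0} ⊆ ⋃ x, T x := by
    rintro _ ⟨ω, hω, rfl⟩
    refine Set.mem_iUnion.2 ⟨(⟨d.idx true ω, h.idx_lt ω hω true⟩, ⟨d.ii d.n (d.tc ω), ii_lt h le_rfl (h.tc_lt ω)⟩), ω, ⟨hω, rfl, rfl⟩, rfl⟩
  have hTx : ∀ x, ((T x).ncard : ℝ) ≤ B := fun x => by
    by_cases hne : ∃ ω₁, d.p ω₁ ≠ 0 ∧ d.idx true ω₁ = x.1 ∧ d.ii d.n (d.tc ω₁) = x.2
    · obtain ⟨ω₁, _, h1, h2⟩ := hne
      have := st_supp_fibre h ω₁
      rw [h1, h2] at this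
      exact this
    · have : T x = ∅ := by
        rw [hT]
        simp only [Set.image_eq_empty]
        ext ω
        exact ⟨fun hω => hne ⟨ω, hω⟩, fun hω => hω.elim⟩
      rw [this, Set.ncard_empty]
      simpa using hB0
  have hfin : (⋃ x, T x).Finite := Set.finite_iUnion fun x => (Set.toFinite _).image _
  calc ((d.st d.n '' {ω | d.p ω ≠ 0}).ncard : ℝ) ≤ ((⋃ x, T x).ncard : ℝ) := by exact_mod_cast Set.ncard_le_ncard hsub hfin
    _ ≤ ((∑ x, (T x).ncard : ℕ) : ℝ) := by exact_mod_cast Set.ncard_iUnion_le_of_fintype T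
    _ = ∑ x, ((T x).ncard : ℝ) := by push_cast; rfl
    _ ≤ ∑ _x : Fin (d.nn true) × Fin (2 ^ d.kk d.n), B := Finset.sum_le_sum fun x _ => hTx x
    _ = d.nn true * 2 ^ d.kk d.n * B := by
        rw [Finset.sum_const, Finset.card_univ, Fintype.card_prod, Fintype.card_fin, Fintype.card_fin, nsmul_eq_mul]
        push_cast
        ring

/-! ## 4. light pairs      (leaf L-252-K3M-G4)      (03 l.608-622) -/

/-- the events whose (arm, coarse interval) pair is light -/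
def lt (d : K3mDat Ω) (k : ℕ) (col : Bool) (Λ : ℝ) : Set Ω :=
  {ω | k3mP d.p {ω' | d.x2 k col ω' = d.x2 k col ω} < d.π col (d.idx col ω) * d.ell k / Λ}

theorem k3m_geoA_eqns_cite2 : True := by
  have := @K3mDat.lt.eq_1
  trivial

/-- sum over the pairs `(i, I)`, `i < nn col`, `I < 2^(kk k)`: `∑ π i * ell k / Λ ≤ 1/Λ`   (`k3mP_eq_sum_fiber`) -/
theorem lt_prob (h : d.OK D) {k : ℕ} (hk : k ≤ d.n) (col : Bool) {Λ : ℝ} (hΛ : 0 < Λ) : k3mP d.p (d.lt k col Λ) ≤ 1 / Λ := by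
  classical
  have hell := d.ell_pos k
  rw [k3mP_eq_sum_fiber h.law (d.lt k col Λ) (d.x2 k col) (range (d.nn col) ×ˢ range (2 ^ d.kk k))
    (fun ω _ hω => Finset.mem_product.2 ⟨Finset.mem_range.2 (h.idx_lt ω hω col), Finset.mem_range.2 (ii_lt h hk (h.tc_lt ω))⟩)]
  have hterm : ∀ s : ℕ × ℕ, k3mP d.p {ω | ω ∈ d.lt k col Λ ∧ d.x2 k col ω = s} ≤ d.π col s.1 * d.ell k / Λ := fun s => by
    by_cases hne : ∃ ω₀, ω₀ ∈ d.lt k col Λ ∧ d.x2 k col ω₀ = s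
    · obtain ⟨ω₀, h1, h2⟩ := hne
      have h3 : k3mP d.p {ω' | d.x2 k col ω' = d.x2 k col ω₀} < d.π col (d.idx col ω₀) * d.ell k / Λ := h1
      have h4 : d.idx col ω₀ = s.1 := congrArg Prod.fst h2
      rw [h2, h4] at h3
      exact (k3mP_mono h.law fun ω hω => hω.2).trans h3.le
    · have : {ω | ω ∈ d.lt k col Λ ∧ d.x2 k col ω = s} = ∅ := by
        ext ω
        exact ⟨fun hω => hne ⟨ω, hω⟩, fun hω => hω.elim⟩
      rw [this, k3mP_empty]
      have := h.π_nonneg col s.1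
      positivity
  calc ∑ s ∈ range (d.nn col) ×ˢ range (2 ^ d.kk k), k3mP d.p {ω | ω ∈ d.lt k col Λ ∧ d.x2 k col ω = s}
      ≤ ∑ s ∈ range (d.nn col) ×ˢ range (2 ^ d.kk k), d.π col s.1 * d.ell k / Λ := Finset.sum_le_sum fun s _ => hterm s
    _ = ∑ i ∈ range (d.nn col), ∑ _I ∈ range (2 ^ d.kk k), d.π col i * d.ell k / Λ := Finset.sum_product _ _ _
    _ = (∑ i ∈ range (d.nn col), d.π col i) * (d.ell k * 2 ^ d.kk k) / Λ := by
        simp only [Finset.sum_const, Finset.card_range, nsmul_eq_mul]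
        rw [Finset.sum_mul, Finset.sum_div]
        refine Finset.sum_congr rfl fun i _ => ?_
        push_cast
        ring
    _ ≤ 1 / Λ := by
        rw [ell_mul_pow, mul_one]
        exact div_le_div_of_nonneg_right (h.π_sum col) hΛ.le

/-- time density on a pair which is not light: `marg` and `ell_eq` -/
theorem lt_dens (h : d.OK D) {k : ℕ} (hk : k ≤ d.n) (col : Bool) {Λ : ℝ} (hΛ : 0 < Λ) {ω : Ω} (hω : ω ∉ d.lt k col Λ) (t : ℕ) :
    k3mP d.p {ω' | d.x2 k col ω' = d.x2 k col ω ∧ d.tc ω' = t} ≤ d.K * Λ / 2 ^ (d.kT - d.kk k) * k3mP d.p {ω' | d.x2 k col ω' = d.x2 k col ω} := by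
  have hK0 : 0 < d.K := by linarith [h.K_ge]
  have h1 : d.π col (d.idx col ω) * d.ell k / Λ ≤ k3mP d.p {ω' | d.x2 k col ω' = d.x2 k col ω} := not_lt.1 hω
  have hsub : {ω' | d.x2 k col ω' = d.x2 k col ω ∧ d.tc ω' = t} ⊆ {ω' | d.idx col ω' = d.idx col ω ∧ d.tc ω' = t} :=
    fun ω' hω' => ⟨congrArg Prod.fst hω'.1, hω'.2⟩
  have h2 : k3mP d.p {ω' | d.x2 k col ω' = d.x2 k col ω ∧ d.tc ω' = t} ≤ d.K * d.π col (d.idx col ω) / 2 ^ d.kT :=
    (k3mP_mono h.law hsub).trans (h.marg col (d.idx col ω) t)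
  have hc : (0 : ℝ) < 2 ^ (d.kT - d.kk k) := by positivity
  have hT : (0 : ℝ) < 2 ^ d.kT := by positivity
  have h3 : d.K * d.π col (d.idx col ω) / 2 ^ d.kT = d.K * Λ / 2 ^ (d.kT - d.kk k) * (d.π col (d.idx col ω) * d.ell k / Λ) := by
    rw [ell_eq h hk]
    field_simp
  rw [h3] at h2
  exact h2.trans (mul_le_mul_of_nonneg_left h1 (by positivity))

/-! ## 5. the palette has few values      (leaf L-252-K3M-G5)      (03 l.472-478) -/

/-- on an atom of `st k0` the `m`-th derivative bins of width `N^(-l m k0) = N^(-β m)` are fixed, so each finer bin has at most `N^(2/n) + 2` values.  `k3m_card_box` with `ι = Bool`. -/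
theorem pal_card (h : d.OK D) {q C k0 m : ℕ} (hu : K3mUs d.J d.n d.β q C k0 m) (ω : Ω) :
    ((d.pal k0 m '' {ω' | d.p ω' ≠ 0 ∧ d.st k0 ω' = d.st k0 ω}).ncard : ℝ) ≤ (d.N ^ (2 / (d.n : ℝ)) + 2) ^ 2 := by
  have hN0 : 0 < d.N := by linarith [h.N_ge]
  set M : ℝ := d.N ^ (2 / (d.n : ℝ)) with hM
  have hM0 : 0 < M := Real.rpow_pos_of_pos hN0 _
  have hl : d.l m k0 = d.β m := K3mUs.l_m h.beta h.n_pos hu (Nat.sub_le _ _) (Nat.le_add_right _ _)
  have hbox := k3m_card_box (d.pal k0 m '' {ω' | d.p ω' ≠ 0 ∧ d.st k0 ω' = d.st k0 ω}) id (Set.injOn_id _)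
    (fun col => ⌊(d.bn col (d.idx col ω) m k0 (d.tc ω) : ℝ) * M⌋) (⌈M⌉₊ + 1) (by
      rintro _ ⟨ω', ⟨_, hst⟩, rfl⟩ col
      have hb : d.bn col (d.idx col ω') m k0 (d.tc ω') = d.bn col (d.idx col ω) m k0 (d.tc ω) := d.st_bn le_rfl hst col hu.2.1
      set b : ℤ := d.bn col (d.idx col ω) m k0 (d.tc ω) with hbdef
      set y : ℝ := d.arm col ω' m (d.tl k0 (d.tc ω')) * d.N ^ (d.β m) with hy
      have hfl : ⌊y⌋ = b := by
        rw [← hb, hy, ← hl]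
        rfl
      have hp : id (d.pal k0 m ω') col = ⌊y * M⌋ := by
        simp only [id, K3mDat.pal]
        rw [Real.rpow_add hN0, ← mul_assoc]
      rw [hp]
      have h1 : (b : ℝ) ≤ y := by
        rw [← hfl]
        exact Int.floor_le y
      have h2 : y < b + 1 := by
        rw [← hfl]
        exact Int.lt_floor_add_one y
      refine ⟨Int.floor_le_floor (mul_le_mul_of_nonneg_right h1 hM0.le), ?_⟩
      have h3 : (⌊y * M⌋ : ℝ) ≤ y * M := Int.floor_le _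
      have h4 : y * M < (b + 1) * M := mul_lt_mul_of_pos_right h2 hM0
      have h5 : (b : ℝ) * M < ⌊(b : ℝ) * M⌋ + 1 := Int.lt_floor_add_one _
      have h6 : M ≤ ⌈M⌉₊ := Nat.le_ceil M
      have h7 : (⌊y * M⌋ : ℝ) < ((⌊(b : ℝ) * M⌋ + ((⌈M⌉₊ + 1 : ℕ) : ℤ) : ℤ) : ℝ) := by
        push_cast
        nlinarith
      exact_mod_cast h7)
  have hR : ((⌈M⌉₊ + 1 : ℕ) : ℝ) ≤ M + 2 := by
    push_cast
    linarith [Nat.ceil_lt_add_one hM0.le]
  calc ((d.pal k0 m '' {ω' | d.p ω' ≠ 0 ∧ d.st k0 ω' = d.st k0 ω}).ncard : ℝ) ≤ (((⌈M⌉₊ + 1) ^ Fintype.card Bool : ℕ) : ℝ) := by exact_mod_cast hbox.2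
    _ = ((⌈M⌉₊ + 1 : ℕ) : ℝ) ^ 2 := by
        rw [Fintype.card_bool]
        push_cast
        rfl
    _ ≤ (M + 2) ^ 2 := pow_le_pow_left₀ (by positivity) hR 2

end K3mDat

end

end Claimed.Agent.R252

end PkS3mGeoA

section PkS3mGeoB

/-!
# ROW 252, unit S3m (L3.3 two-colour matching, architect helper93), file GeoB.     CONTRACT file: the `sorry`s are the leaves L-252-K3M-H*.

THE DETERMINISTIC PART OF THE SWITCHING EXPERIMENT (03 l.545-606, l.674-741), with ONE switch.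
Fixed: a usable step `k` with active order `m`, the anchor `k0 ≤ k` of the palette (usable with the same `m`), the fine level `k + C`  (`d.Stp q C k k0 m`).
Events: `ω0` (start, old arm `φ0 = arm true ω0`), `ω1` (same `true` arm, same coarse interval; switching time `t1 = tm (tc ω1)`), `ωt` (refresh: `st (k+C) ωt = st (k+C) ω1`; new arm `φ1 = arm col ωt`),
`ω2` (same arm of colour `col` as `ωt`, same coarse interval; final time `t2`).     `W = φ1 - φ0`.   Abbreviations `b = 1/n`, `xa = tl k (tc ω0)`.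
* `est` : estimate of `φ1^(m)(xa)` from the palette of `ωt` and the coarse state; `wd = est - φ0^(m)(xa)` = the (unnormalised) control.
* `W(t2) = wd (t2 - t1)^m / m! + O(K N^(-a k - 2b))`   (`endpoint`);     `φ1(t2) = py (child state of ω2)(t2) + O(K N^(-a k - b))`   (`child`).
* `tst` = the necessary test; `tst_count` = number of pairs of times which pass it, for fixed control data.
-/

set_option autoImplicit false
set_option linter.unusedSectionVars false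

namespace Claimed.Agent.R252

open scoped BigOperators Nat
open Finset

noncomputable section

namespace K3mDat

variable {Ω : Type} [Fintype Ω] {d : K3mDat Ω} {D : ℕ}

/-! ## Definitions -/

/-- the step data -/
structure Stp (d : K3mDat Ω) (q C k k0 m : ℕ) : Prop where
  hC : 2 * d.J ≤ C
  hq : 2 * d.J ≤ q
  us : K3mUs d.J d.n d.β q C k m
  us0 : K3mUs d.J d.n d.β q C k0 m
  k0_le : k0 ≤ k

/-- start, first arrival, refresh -/
structure Tri (d : K3mDat Ω) (k C : ℕ) (ω0 ω1 ωt : Ω) : Prop where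
  p0 : d.p ω0 ≠ 0
  p1 : d.p ω1 ≠ 0
  pt : d.p ωt ≠ 0
  e1 : d.x2 k true ω1 = d.x2 k true ω0
  et : d.st (k + C) ωt = d.st (k + C) ω1

/-- ... and the final event -/
structure Quad (d : K3mDat Ω) (k C : ℕ) (col : Bool) (ω0 ω1 ωt ω2 : Ω) : Prop extends Tri d k C ω0 ω1 ωt where
  p2 : d.p ω2 ≠ 0
  e2 : d.x2 k col ω2 = d.x2 k col ωt

/-- estimate of the `m`-th derivative of the arm `col` at `tl k c0` from the palette value `z` and the bins of level `k0` recorded in the state `A` -/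
def est (d : K3mDat Ω) (k k0 m : ℕ) (col : Bool) (c0 : ℕ) (A : K3mSt) (z : Bool → ℤ) : ℝ :=
  ∑ i ∈ range (d.J + 1 - m),
    (if i = 0 then (z col : ℝ) * d.N ^ (-(d.β m + 2 / (d.n : ℝ))) else ((A k0).2 col (m + i) : ℝ) * d.N ^ (-d.l (m + i) k0))
      * (d.tl k c0 - d.tl k0 c0) ^ i / i !

/-- the control -/
def wd (d : K3mDat Ω) (k k0 m : ℕ) (col : Bool) (ω0 : Ω) (A : K3mSt) (z : Bool → ℤ) : ℝ :=
  d.est k k0 m col (d.tc ω0) A z - d.arm true ω0 m (d.tl k (d.tc ω0))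

/-- Taylor polynomial of the arm `col` read off the child state `χ` (level `k + 1`) -/
def py (d : K3mDat Ω) (k : ℕ) (col : Bool) (χ : K3mSt) (t : ℝ) : ℝ :=
  ∑ j ∈ range (d.J + 1), ((χ (k + 1)).2 col j : ℝ) * d.N ^ (-d.l j (k + 1)) * (t - ((χ (k + 1)).1 : ℝ) * d.ell (k + 1)) ^ j / j !

/-- the children (in the support) of the neighbours of the start -/
def ch (d : K3mDat Ω) (k : ℕ) (ω0 : Ω) : Set K3mSt := d.st (k + 1) '' {ω | d.p ω ≠ 0 ∧ d.st k ω ∈ d.nb k ω0}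

def u0 (d : K3mDat Ω) (m : ℕ) : ℝ := d.N ^ (-d.β m - d.η) / 4

def rho (d : K3mDat Ω) (k : ℕ) : ℝ := (76 * d.K + 12) * d.N ^ (-d.a k - 1 / (d.n : ℝ))

/-- the necessary test -/
def tst (d : K3mDat Ω) (k k0 m sep : ℕ) (col : Bool) (ω0 : Ω) (t1 : ℕ) (A : K3mSt) (z : Bool → ℤ) (t2 : ℕ) : Prop :=
  sep ≤ Nat.dist t1 t2 ∧ d.u0 m ≤ |d.wd k k0 m col ω0 A z| ∧ ∃ χ ∈ d.ch k ω0, d.ii (k + 1) t2 = (χ (k + 1)).1 ∧
    |d.wd k k0 m col ω0 A z * (d.tm t2 - d.tm t1) ^ m / (m ! : ℝ) - (d.py k col χ (d.tm t2) - d.arm true ω0 0 (d.tm t2))| ≤ d.rho k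

theorem k3m_geoB_eqns_cite : True := by
  have := @K3mDat.est.eq_1
  have := @K3mDat.wd.eq_1
  have := @K3mDat.py.eq_1
  have := @K3mDat.ch.eq_1
  have := @K3mDat.u0.eq_1
  have := @K3mDat.rho.eq_1
  have := @K3mDat.tst.eq_1
  trivial

variable {q C k k0 m : ℕ} {col : Bool} {ω0 ω1 ωt ω2 : Ω}

theorem Stp.k_le (s : d.Stp q C k k0 m) : k + C ≤ d.n := s.us.2.2.2.1
theorem Stp.m_pos (s : d.Stp q C k k0 m) : 1 ≤ m := s.us.1
theorem Stp.m_le (s : d.Stp q C k k0 m) : m ≤ d.J := s.us.2.1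

/-! ## 1. closeness of all arms to the old arm      (leaf L-252-K3M-H1) -/

theorem Stp.k_le' (s : d.Stp q C k k0 m) : k ≤ d.n := le_trans (Nat.le_add_right _ _) s.k_le

theorem Tri.idx1 (T : d.Tri k C ω0 ω1 ωt) : d.idx true ω1 = d.idx true ω0 := congrArg Prod.fst T.e1

theorem Tri.arm1 (T : d.Tri k C ω0 ω1 ωt) : d.arm true ω1 = d.arm true ω0 := by
  unfold K3mDat.arm; rw [T.idx1]

theorem Quad.arm2 (Q : d.Quad k C col ω0 ω1 ωt ω2) : d.arm col ω2 = d.arm col ωt := by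
  unfold K3mDat.arm; rw [show d.idx col ω2 = d.idx col ωt from congrArg Prod.fst Q.e2]

/-- `tl k' c` is in `[0,1]` and within `ell k'` of `tm c` -/
theorem tl_near (h : d.OK D) {k' : ℕ} (hk : k' ≤ d.n) (ω : Ω) :
    d.tl k' (d.tc ω) ∈ Set.Icc (0 : ℝ) 1 ∧ |d.tl k' (d.tc ω) - d.tm (d.tc ω)| ≤ d.ell k' := by
  refine ⟨tl_mem h hk (h.tc_lt ω), ?_⟩
  have h1 := tl_le_tm h hk (d.tc ω)
  have h2 := tm_le h hk (d.tc ω)
  rw [abs_le]; constructor <;> linarith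

/-- the arm `col'` of an event of the support is `5K`-close to its `true` arm -/
theorem pair_sm' (h : d.OK D) {ω : Ω} (hω : d.p ω ≠ 0) {k' : ℕ} (hk : k' ≤ d.n) (col' col'' : Bool) :
    d.sm (k3mDif (d.arm col' ω) (d.arm col'' ω)) k' (5 * d.K) (d.tl k' (d.tc ω)) := by
  have hK : (0 : ℝ) ≤ 5 * d.K := by linarith [h.K_ge]
  have h1 := pair_sm h hω hk (tl_near h hk ω).1 (tl_near h hk ω).2
  cases col' <;> cases col''
  · exact sm_mono h (sm_self h _ _ _) hK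
  · exact sm_symm h1
  · exact h1
  · exact sm_mono h (sm_self h _ _ _) hK

theorem Tri.ii1 (h : d.OK D) (s : d.Stp q C k k0 m) (T : d.Tri k C ω0 ω1 ωt) {k' : ℕ} (hk : k' ≤ k) : d.ii k' (d.tc ω1) = d.ii k' (d.tc ω0) :=
  ii_nest h hk s.k_le' (congrArg Prod.snd T.e1)

theorem Tri.iit (h : d.OK D) (s : d.Stp q C k k0 m) (T : d.Tri k C ω0 ω1 ωt) {k' : ℕ} (hk : k' ≤ k) : d.ii k' (d.tc ωt) = d.ii k' (d.tc ω0) :=
  (d.st_ii (le_trans hk (Nat.le_add_right _ _)) T.et).trans (T.ii1 h s hk)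

theorem Quad.ii2 (h : d.OK D) (s : d.Stp q C k k0 m) (Q : d.Quad k C col ω0 ω1 ωt ω2) {k' : ℕ} (hk : k' ≤ k) : d.ii k' (d.tc ω2) = d.ii k' (d.tc ω0) :=
  (ii_nest h hk s.k_le' (congrArg Prod.snd Q.e2)).trans (Q.toTri.iit h s hk)

/-- `col' = true`: the same arm.  `col' = false`: `pair_sm` for `ω1`. -/
theorem Tri.sm1 (h : d.OK D) (s : d.Stp q C k k0 m) (T : d.Tri k C ω0 ω1 ωt) (col' : Bool) {k' : ℕ} (hk : k' ≤ k) :
    d.sm (k3mDif (d.arm col' ω1) (d.arm true ω0)) k' (5 * d.K) (d.tl k' (d.tc ω0)) := by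
  rw [← T.arm1, ← d.tl_congr (T.ii1 h s hk)]
  exact pair_sm' h T.p1 (hk.trans s.k_le') col' true

/-- `st_sm` + `sm1` -/
theorem Tri.smt (h : d.OK D) (s : d.Stp q C k k0 m) (T : d.Tri k C ω0 ω1 ωt) (col' : Bool) {k' : ℕ} (hk : k' ≤ k) :
    d.sm (k3mDif (d.arm col' ωt) (d.arm true ω0)) k' (5 * d.K + 1) (d.tl k' (d.tc ω0)) := by
  have h1 := st_sm h (le_trans hk (Nat.le_add_right _ _)) T.et col'
  rw [d.tl_congr (T.ii1 h s hk)] at h1
  have h2 := sm_add h1 (T.sm1 h s col' hk)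
  rwa [add_comm] at h2

/-- the arm `col` of `ω2` is the arm `col` of `ωt`; the other arm by `pair_sm` for `ω2` -/
theorem Quad.sm2 (h : d.OK D) (s : d.Stp q C k k0 m) (Q : d.Quad k C col ω0 ω1 ωt ω2) (col' : Bool) {k' : ℕ} (hk : k' ≤ k) :
    d.sm (k3mDif (d.arm col' ω2) (d.arm true ω0)) k' (10 * d.K + 1) (d.tl k' (d.tc ω0)) := by
  have h1 := pair_sm' h Q.p2 (hk.trans s.k_le') col' col
  rw [d.tl_congr (Q.ii2 h s hk), Q.arm2] at h1
  have h2 := sm_add h1 (Q.toTri.smt h s col hk)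
  have e : 5 * d.K + (5 * d.K + 1) = 10 * d.K + 1 := by ring
  rwa [e] at h2

theorem Tri.mem_nb (h : d.OK D) (s : d.Stp q C k k0 m) (T : d.Tri k C ω0 ω1 ωt) : d.st k ωt ∈ d.nb k ω0 :=
  K3mDat.mem_nb h s.k_le' (T.iit h s le_rfl) fun col' _ hk => sm_mono h (T.smt h s col' hk) (by linarith [h.K_ge])

theorem Quad.mem_ch (h : d.OK D) (s : d.Stp q C k k0 m) (Q : d.Quad k C col ω0 ω1 ωt ω2) : d.st (k + 1) ω2 ∈ d.ch k ω0 :=
  ⟨ω2, ⟨Q.p2, K3mDat.mem_nb h s.k_le' (Q.ii2 h s le_rfl) fun col' _ hk => Q.sm2 h s col' hk⟩, rfl⟩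

/-- at the FINE level, at the switching time: at `x = tl (k+C) (tc ω1)`: `arm col' ωt` is `1`-close to `arm col' ω1` (`st_sm`), which is `5K`-close to `arm true ω1 = arm true ω0` (`pair_sm`);
then `sm_translate` (`A = 5K + 1`, `B = 2K`) to `tm (tc ω1)`. -/
theorem Tri.fine (h : d.OK D) (s : d.Stp q C k k0 m) (T : d.Tri k C ω0 ω1 ωt) (col' : Bool) :
    d.sm (k3mDif (d.arm col' ωt) (d.arm true ω0)) (k + C) (17 * d.K + 3) (d.tm (d.tc ω1)) := by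
  have h1 := st_sm h (le_refl (k + C)) T.et col'
  have h2 := pair_sm' h T.p1 s.k_le col' true
  rw [T.arm1] at h2
  have h3 := sm_add h1 h2
  have hn := tl_near h s.k_le ω1
  have h4 := sm_translate h (dif_jet h col' true (d.idx col' ωt) (d.idx true ω0))
    (dif_bound h col' true (d.idx col' ωt) (d.idx true ω0)) (k := k + C) (A := 1 + 5 * d.K)
    (x0 := d.tl (k + C) (d.tc ω1)) (x := d.tm (d.tc ω1)) (by linarith [h.K_ge]) hn.1 (d.tm_mem (h.tc_lt ω1))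
    (by rw [abs_sub_comm]; exact hn.2) h3
  have e : 3 * (1 + 5 * d.K) + 2 * d.K = 17 * d.K + 3 := by ring
  rwa [e] at h4

/-! ## 2. the control      (leaves L-252-K3M-H2, H3) -/

theorem N_rpow_le (h : d.OK D) {x y : ℝ} (hxy : x ≤ y) : d.N ^ x ≤ d.N ^ y :=
  Real.rpow_le_rpow_of_exponent_le (by linarith [h.N_ge]) hxy

theorem N_rpow_pos (h : d.OK D) (x : ℝ) : 0 < d.N ^ x := Real.rpow_pos_of_pos (N_pos h) x

/-- `ell k ^ i ≤ N^(- i r(a k))` -/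
theorem ell_pow_leB (h : d.OK D) (k i : ℕ) : d.ell k ^ i ≤ d.N ^ (-((i : ℝ) * d.r (d.a k))) := by
  have h1 : d.ell k ^ i ≤ (d.N ^ (-d.r (d.a k))) ^ i := pow_le_pow_left₀ (d.ell_pos k).le (ell_le h k) i
  refine h1.trans (le_of_eq ?_)
  rw [← Real.rpow_natCast, ← Real.rpow_mul (N_pos h).le]
  congr 1
  ring

/-- `N^(-l) ell k ^ i ≤ N^(-e)` if `e ≤ l + i r(a k)` -/
theorem lam_ell_le (h : d.OK D) (k i : ℕ) {l e : ℝ} (hle : e ≤ l + (i : ℝ) * d.r (d.a k)) : d.N ^ (-l) * d.ell k ^ i ≤ d.N ^ (-e) := by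
  calc d.N ^ (-l) * d.ell k ^ i ≤ d.N ^ (-l) * d.N ^ (-((i : ℝ) * d.r (d.a k))) :=
        mul_le_mul_of_nonneg_left (ell_pow_leB h k i) (N_rpow_pos h _).le
    _ = d.N ^ (-l + -((i : ℝ) * d.r (d.a k))) := (Real.rpow_add (N_pos h) _ _).symm
    _ ≤ d.N ^ (-e) := N_rpow_le h (by linarith)

theorem k3m_floor_approx (h : d.OK D) (y e : ℝ) : |y - (⌊y * d.N ^ e⌋ : ℝ) * d.N ^ (-e)| ≤ d.N ^ (-e) := by
  have hX := N_rpow_pos h e
  rw [Real.rpow_neg (N_pos h).le]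
  have h1 := Int.floor_le (y * d.N ^ e)
  have h2 := Int.lt_floor_add_one (y * d.N ^ e)
  have e1 : y - (⌊y * d.N ^ e⌋ : ℝ) * (d.N ^ e)⁻¹ = (y * d.N ^ e - ⌊y * d.N ^ e⌋) * (d.N ^ e)⁻¹ := by
    field_simp
  rw [e1, abs_mul, abs_of_pos (inv_pos.2 hX)]
  have h3 : |y * d.N ^ e - ⌊y * d.N ^ e⌋| ≤ 1 := by
    rw [abs_le]; constructor <;> linarith
  calc _ ≤ 1 * (d.N ^ e)⁻¹ := mul_le_mul_of_nonneg_right h3 (inv_pos.2 hX).le
    _ = _ := one_mul _

/-- two left end points of nested levels -/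
theorem tl_tl_near (h : d.OK D) {k k' : ℕ} (hkk : k' ≤ k) (hk : k ≤ d.n) (c : ℕ) : |d.tl k c - d.tl k' c| ≤ d.ell k' := by
  have h1 := tl_mono h hkk hk c
  have h2 := tl_le_tm h hk c
  have h3 := tm_le h (hkk.trans hk) c
  rw [abs_le]; constructor <;> linarith [(d.ell_pos k').le]

theorem Stp.n_pos (h : d.OK D) : (0 : ℝ) < d.n := by exact_mod_cast h.n_pos

/-- `2/n ≤ (q/n)(i/m)` -/
theorem Stp.two_le_q (h : d.OK D) (s : d.Stp q C k k0 m) {i : ℕ} (hi : 1 ≤ i) : 2 / (d.n : ℝ) ≤ ((q : ℝ) / d.n) * ((i : ℝ) / m) := by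
  have hn := Stp.n_pos h
  have hm : (0 : ℝ) < m := by exact_mod_cast s.m_pos
  have h1 : (2 : ℝ) * m ≤ q := by
    have : 2 * m ≤ q := le_trans (Nat.mul_le_mul_left 2 s.m_le) s.hq
    exact_mod_cast this
  have h2 : (1 : ℝ) ≤ i := by exact_mod_cast hi
  rw [div_mul_div_comm, div_le_div_iff₀ hn (mul_pos hn hm)]
  have h3 : (q : ℝ) ≤ q * i := le_mul_of_one_le_right (Nat.cast_nonneg q) h2
  have h4 : (2 : ℝ) * m * d.n ≤ q * i * d.n := mul_le_mul_of_nonneg_right (h1.trans h3) hn.le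
  linarith

/-- `2/n ≤ a k' / J` for `q ≤ k'` -/
theorem Stp.two_le_a (h : d.OK D) (s : d.Stp q C k k0 m) {k' : ℕ} (hk : q ≤ k') : 2 / (d.n : ℝ) ≤ d.a k' / d.J := by
  have hn := Stp.n_pos h
  have hJ : (0 : ℝ) < d.J := by exact_mod_cast J_pos h
  have h1 : (2 : ℝ) * d.J ≤ k' := by
    have : 2 * d.J ≤ k' := s.hq.trans hk
    exact_mod_cast this
  unfold K3mDat.a k3mA
  rw [div_div, div_le_div_iff₀ hn (mul_pos hn hJ)]
  nlinarith

/-- **H2** `k3m_estimate` with `g = arm col' ωt`, `x0 = tl k0 (tc ω0)`, `x = tl k (tc ω0)`, `ℓ = ell k0`, `B = K`, `E = K N^(-β m - 2/n)`: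
`i = 0`: floor of the palette, error `≤ N^(-β m - 2/n)`;  `i ≥ 1`: `bn_approx` at level `k0`, `N^(-l (m+i) k0) ell k0 ^ i ≤ N^(-β m - (q/n)(i/m)) ≤ N^(-β m - 2/n)` (`K3mUs.l_high` for `us0`, `2J ≤ q`);
remainder: `lam_rem'` with `j = m` (`l m k0 = β m`, `a k0 / J ≥ q/(n J) ≥ 2/n`). -/
theorem est_close (h : d.OK D) (s : d.Stp q C k k0 m) (hI : d.ii k (d.tc ωt) = d.ii k (d.tc ω0)) (col' : Bool) :
    |d.arm col' ωt m (d.tl k (d.tc ω0)) - d.est k k0 m col' (d.tc ω0) (d.st k ωt) (d.pal k0 m ωt)| ≤ 4 * d.K * d.N ^ (-d.β m - 2 / (d.n : ℝ)) := by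
  have hk0n : k0 ≤ d.n := s.k0_le.trans s.k_le'
  have hI0 : d.ii k0 (d.tc ωt) = d.ii k0 (d.tc ω0) := ii_nest h s.k0_le s.k_le' hI
  have htl : d.tl k0 (d.tc ωt) = d.tl k0 (d.tc ω0) := d.tl_congr hI0
  have hK := h.K_ge
  have hX := N_rpow_pos h (-d.β m - 2 / (d.n : ℝ))
  have hXK : d.N ^ (-d.β m - 2 / (d.n : ℝ)) ≤ d.K * d.N ^ (-d.β m - 2 / (d.n : ℝ)) := le_mul_of_one_le_left hX.le hK
  have key := k3m_estimate (g := d.arm col' ωt) (J := d.J) (m := m) s.m_le (h.jet col' _) (B := d.K)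
    (h.bound col' _ (d.J + 1) le_rfl) (ℓ := d.ell k0) (d.ell_pos k0).le (x0 := d.tl k0 (d.tc ω0)) (x := d.tl k (d.tc ω0))
    (tl_mem h hk0n (h.tc_lt ω0)) (tl_mem h s.k_le' (h.tc_lt ω0)) (tl_tl_near h s.k0_le s.k_le' _)
    (fun i => if i = 0 then ((d.pal k0 m ωt) col' : ℝ) * d.N ^ (-(d.β m + 2 / (d.n : ℝ)))
      else (((d.st k ωt) k0).2 col' (m + i) : ℝ) * d.N ^ (-d.l (m + i) k0))
    (E := d.K * d.N ^ (-d.β m - 2 / (d.n : ℝ))) ?_ ?_
  · rw [mul_assoc]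
    exact key
  · intro i hi
    by_cases h0 : i = 0
    · subst h0
      simp only [if_true, pow_zero, mul_one, add_zero]
      refine le_trans ?_ hXK
      have := k3m_floor_approx h (d.arm col' ωt m (d.tl k0 (d.tc ωt))) (d.β m + 2 / (d.n : ℝ))
      rw [htl] at this
      have e : -d.β m - 2 / (d.n : ℝ) = -(d.β m + 2 / (d.n : ℝ)) := by ring
      rw [e]
      unfold K3mDat.pal
      rw [htl]
      exact this
    · simp only [h0, if_false]
      have e1 : ((d.st k ωt) k0).2 col' (m + i) = d.bn col' (d.idx col' ωt) (m + i) k0 (d.tc ωt) := by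
        rw [d.st_apply_le s.k0_le]
        simp [K3mDat.rw, hi]
      rw [e1]
      have h1 := bn_approx h col' (d.idx col' ωt) (m + i) k0 (d.tc ωt)
      rw [htl] at h1
      refine le_trans (mul_le_mul_of_nonneg_right h1 (pow_nonneg (d.ell_pos k0).le i)) (le_trans ?_ hXK)
      have h2 := s.us0.l_high h.beta h.n_pos (i := i) (k' := k0) le_rfl (Nat.le_add_right _ _)
      have h3 := s.two_le_q h (Nat.one_le_iff_ne_zero.2 h0)
      have e : -d.β m - 2 / (d.n : ℝ) = -(d.β m + 2 / (d.n : ℝ)) := by ring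
      rw [e]
      refine lam_ell_le h k0 i ?_
      unfold K3mDat.l K3mDat.r K3mDat.a
      linarith
  · refine mul_le_mul_of_nonneg_left ?_ (by linarith)
    refine (lam_rem' h s.m_le k0).trans (N_rpow_le h ?_)
    have h1 : d.l m k0 = d.β m := s.us0.l_m h.beta h.n_pos (Nat.sub_le _ _) (Nat.le_add_right _ _)
    have h2 := s.two_le_a h s.us0.2.2.1
    rw [h1]
    linarith

/-- **H3** one of the two controls is large.  `wd true - wd false = est true - est false`; `est_close` twice (`8 K N^(-β m - 2/n)`); the `m`-th gap of `ωt` at its own time is `≥ N^(-β m - η)` (`gap_ge`, `K3mUs.beta_le_one`);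
`k3m_variation` for `Δ = arm true ωt - arm false ωt` from `tm (tc ωt)` to `tl k (tc ω0)`, `ℓ = ell k`, `B = 2K`, `E = 2 K N^(-β m - 2/n)`
(`|Δ_(m+i)| ≤ K N^(-β (m+i))` by `gap_le`, `β (m+i) ≥ l (m+i) k`, `K3mUs.l_high`; remainder `lam_rem'`): variation `≤ 8 K N^(-β m - 2/n)`. -/
theorem Tri.sel_or (h : d.OK D) (s : d.Stp q C k k0 m) (T : d.Tri k C ω0 ω1 ωt) (h32 : 32 * d.K ≤ d.N ^ (2 / (d.n : ℝ) - d.η)) :
    d.u0 m ≤ |d.wd k k0 m true ω0 (d.st k ωt) (d.pal k0 m ωt)| ∨ d.u0 m ≤ |d.wd k k0 m false ω0 (d.st k ωt) (d.pal k0 m ωt)| := by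
  have hK := h.K_ge
  have hI := T.iit h s (le_refl k)
  have hX := N_rpow_pos h (-d.β m - 2 / (d.n : ℝ))
  have e1 := est_close h s hI true
  have e2 := est_close h s hI false
  have hn := tl_near h s.k_le' ωt
  rw [d.tl_congr hI] at hn
  have e0 : -d.β m - 2 / (d.n : ℝ) = -(d.β m + 2 / (d.n : ℝ)) := by ring
  have hv := k3m_variation (g := k3mDif (d.arm true ωt) (d.arm false ωt)) (J := d.J) (m := m) s.m_le
    (dif_jet h true false _ _) (B := 2 * d.K) (dif_bound h true false _ _) (ℓ := d.ell k) (d.ell_pos k).le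
    (x0 := d.tm (d.tc ωt)) (x := d.tl k (d.tc ω0)) (d.tm_mem (h.tc_lt ωt)) hn.1 hn.2
    (E := 2 * d.K * d.N ^ (-d.β m - 2 / (d.n : ℝ))) (by positivity) ?_ ?_
  · have hg := h.gap_ge ωt T.pt m s.m_pos s.m_le (s.us.beta_le_one h.beta h.n_pos)
    have h32' : 32 * d.K * d.N ^ (-d.β m - 2 / (d.n : ℝ)) ≤ d.N ^ (-d.β m - d.η) := by
      have := mul_le_mul_of_nonneg_right h32 hX.le
      rw [← Real.rpow_add (N_pos h)] at this
      have e : 2 / (d.n : ℝ) - d.η + (-d.β m - 2 / (d.n : ℝ)) = -d.β m - d.η := by ring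
      rwa [e] at this
    unfold K3mDat.gap at hg
    unfold k3mDif at hv
    unfold K3mDat.u0 K3mDat.wd
    generalize d.N ^ (-d.β m - d.η) = G at *
    generalize d.N ^ (-d.β m - 2 / (d.n : ℝ)) = X at *
    generalize d.est k k0 m true (d.tc ω0) (d.st k ωt) (d.pal k0 m ωt) = et at *
    generalize d.est k k0 m false (d.tc ω0) (d.st k ωt) (d.pal k0 m ωt) = ef at *
    generalize d.arm true ωt m (d.tl k (d.tc ω0)) = at' at *
    generalize d.arm false ωt m (d.tl k (d.tc ω0)) = af at *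
    generalize d.arm true ωt m (d.tm (d.tc ωt)) - d.arm false ωt m (d.tm (d.tc ωt)) = Δ at *
    generalize d.arm true ω0 m (d.tl k (d.tc ω0)) = o at *
    by_contra hcon
    push Not at hcon
    obtain ⟨c1, c2⟩ := hcon
    rw [abs_lt] at c1 c2
    rw [abs_le] at e1 e2 hv
    rcases le_total 0 Δ with hs | hs
    · rw [abs_of_nonneg hs] at hg
      linarith [e1.1, e1.2, e2.1, e2.2, hv.1, hv.2, c1.1, c1.2, c2.1, c2.2]
    · rw [abs_of_nonpos hs] at hg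
      linarith [e1.1, e1.2, e2.1, e2.2, hv.1, hv.2, c1.1, c1.2, c2.1, c2.2]
  · intro i hi1 hi
    have h1 : |k3mDif (d.arm true ωt) (d.arm false ωt) (m + i) (d.tm (d.tc ωt))| ≤ d.K * d.N ^ (-d.β (m + i)) :=
      h.gap_le ωt T.pt (m + i) hi
    have h2 := s.us.l_high h.beta h.n_pos (i := i) (k' := k) le_rfl (Nat.le_add_right _ _)
    have h3 := s.two_le_q h hi1
    have h4 := k3mL_le_beta h.beta (n := d.n) hi s.k_le'
    have h5 : d.N ^ (-d.β (m + i)) * d.ell k ^ i ≤ d.N ^ (-d.β m - 2 / (d.n : ℝ)) := by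
      rw [e0]
      refine lam_ell_le h k i ?_
      unfold K3mDat.r K3mDat.a
      linarith
    calc _ ≤ d.K * d.N ^ (-d.β (m + i)) * d.ell k ^ i := mul_le_mul_of_nonneg_right h1 (pow_nonneg (d.ell_pos k).le i)
      _ = d.K * (d.N ^ (-d.β (m + i)) * d.ell k ^ i) := mul_assoc _ _ _
      _ ≤ d.K * d.N ^ (-d.β m - 2 / (d.n : ℝ)) := mul_le_mul_of_nonneg_left h5 (by linarith)
      _ ≤ 2 * d.K * d.N ^ (-d.β m - 2 / (d.n : ℝ)) := by nlinarith
  · refine mul_le_mul_of_nonneg_left ?_ (by linarith)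
    refine (lam_rem' h s.m_le k).trans (N_rpow_le h ?_)
    have h1 : d.l m k = d.β m := s.us.l_m h.beta h.n_pos (Nat.sub_le _ _) (Nat.le_add_right _ _)
    have h2 := s.two_le_a h s.us.2.2.1
    rw [h1]
    linarith

/-! ## 3. the end point and the child      (leaves L-252-K3M-H4, H5) -/

theorem hb_mono (h : d.OK D) {u v : ℝ} (huv : u ≤ v) : d.N ^ u ≤ d.N ^ v :=
  Real.rpow_le_rpow_of_exponent_le (by linarith [h.N_ge]) huv

theorem hb_nonneg (h : d.OK D) (u : ℝ) : 0 ≤ d.N ^ u := Real.rpow_nonneg (N_pos h).le u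

theorem hb_ell_pow (h : d.OK D) (k j : ℕ) : d.ell k ^ j ≤ d.N ^ (-((j : ℝ) * d.r (d.a k))) := by
  calc d.ell k ^ j ≤ (d.N ^ (-d.r (d.a k))) ^ j := pow_le_pow_left₀ (d.ell_pos k).le (ell_le h k) j
    _ = d.N ^ (-((j : ℝ) * d.r (d.a k))) := by
      rw [← Real.rpow_natCast, ← Real.rpow_mul (N_pos h).le]
      congr 1
      ring

theorem hb_mul (h : d.OK D) {x y A u v w : ℝ} (hA : 0 ≤ A) (hx : x ≤ A * d.N ^ (-u)) (hy0 : 0 ≤ y) (hy : y ≤ d.N ^ (-v))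
    (hw : w ≤ u + v) : x * y ≤ A * d.N ^ (-w) := by
  calc x * y ≤ (A * d.N ^ (-u)) * d.N ^ (-v) := mul_le_mul hx hy hy0 (mul_nonneg hA (hb_nonneg h _))
    _ = A * d.N ^ (-u + -v) := by rw [mul_assoc, ← Real.rpow_add (N_pos h)]
    _ ≤ A * d.N ^ (-w) := mul_le_mul_of_nonneg_left (hb_mono h (by linarith)) hA

/-- `2/n ≤ (c/n) x` if `2 m ≤ c` and `1/m ≤ x` -/
theorem hb_two_div {n m c x : ℝ} (hn : 0 < n) (hm : 0 < m) (hc : 2 * m ≤ c) (hx : 1 / m ≤ x) : 2 / n ≤ c / n * x := by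
  rw [div_mul_eq_mul_div, div_le_div_iff_of_pos_right hn]
  calc (2 : ℝ) = 2 * m * (1 / m) := by field_simp
    _ ≤ c * x := mul_le_mul hc hx (by positivity) (by linarith)

theorem hb_l_zero (d : K3mDat Ω) (k : ℕ) : d.l 0 k = d.a k := k3mL_order_zero _ _ _ _

/-- **H4** `k3m_endpoint` with `W = arm col ωt - arm true ω0`, `B = 2K`, `ℓ = ell k`, `xa = tl k (tc ω0)`, `w = wd`, and with `X = N^(-a k - 2/n)`:
`E1 = (17K+3) X` (`Tri.fine`, `K3mUs.l_fine`, `1 - j/m ≥ 1/m`, `C ≥ 2J ≥ 2m`);  `E2 = (5K+1) X` (`Tri.smt` at `k' = k`, `K3mUs.l_high`, `K3mUs.m_mul_r`);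
`E3 = 4K X` (`est_close`, `m r = a k - β m`);  `E4 = 2K X` (`lam_rem'` with `j = 0`, `a k / J ≥ 2/n`). -/
theorem Quad.endpoint (h : d.OK D) (s : d.Stp q C k k0 m) (Q : d.Quad k C col ω0 ω1 ωt ω2) :
    |(d.arm col ωt 0 (d.tm (d.tc ω2)) - d.arm true ω0 0 (d.tm (d.tc ω2)))
        - d.wd k k0 m col ω0 (d.st k ωt) (d.pal k0 m ωt) * (d.tm (d.tc ω2) - d.tm (d.tc ω1)) ^ m / (m ! : ℝ)| ≤ (72 * d.K + 12) * d.N ^ (-d.a k - 2 / (d.n : ℝ)) := by
  have hK := h.K_ge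
  have hn : (0 : ℝ) < d.n := Nat.cast_pos.2 h.n_pos
  have hm1 := s.m_pos
  have hmJ := s.m_le
  have hmp : (0 : ℝ) < m := Nat.cast_pos.2 hm1
  have T := Q.toTri
  have eX : -d.a k - 2 / (d.n : ℝ) = -(d.a k + 2 / (d.n : ℝ)) := by ring
  have hmr : (m : ℝ) * d.r (d.a k) = d.a k - d.β m := s.us.m_mul_r (Nat.sub_le _ _) (Nat.le_add_right _ _)
  have hCm : (2 : ℝ) * m ≤ C := by
    have := s.hC
    exact_mod_cast (show 2 * m ≤ C by omega)
  have hqm : (2 : ℝ) * m ≤ q := by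
    have := s.hq
    exact_mod_cast (show 2 * m ≤ q by omega)
  have e1 : d.tl k (d.tc ω1) = d.tl k (d.tc ω0) := d.tl_congr (T.ii1 h s le_rfl)
  have e2 : d.tl k (d.tc ω2) = d.tl k (d.tc ω0) := d.tl_congr (Q.ii2 h s le_rfl)
  have i1 : d.tm (d.tc ω1) ∈ Set.Icc (d.tl k (d.tc ω0)) (d.tl k (d.tc ω0) + d.ell k) := by
    rw [← e1]
    exact ⟨tl_le_tm h s.k_le' _, tm_le h s.k_le' _⟩
  have i2 : d.tm (d.tc ω2) ∈ Set.Icc (d.tl k (d.tc ω0)) (d.tl k (d.tc ω0) + d.ell k) := by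
    rw [← e2]
    exact ⟨tl_le_tm h s.k_le' _, tm_le h s.k_le' _⟩
  have ha : ∀ j < m, |k3mDif (d.arm col ωt) (d.arm true ω0) j (d.tm (d.tc ω1))| * d.ell k ^ j
      ≤ (17 * d.K + 3) * d.N ^ (-d.a k - 2 / (d.n : ℝ)) := by
    intro j hj
    have f := T.fine h s col j (by omega)
    have lf : d.l j (k + C) + j * d.r (d.a k) = d.a k + ((C : ℝ) / d.n) * (1 - (j : ℝ) / m) := s.us.l_fine h.beta h.n_pos hj.le
    have hj1 : (j : ℝ) + 1 ≤ m := by exact_mod_cast hj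
    have h1m : 1 / (m : ℝ) ≤ 1 - (j : ℝ) / m := by
      rw [le_sub_iff_add_le, ← add_div, div_le_one hmp]
      linarith
    have h2 := hb_two_div hn hmp hCm h1m
    rw [eX]
    exact hb_mul h (by linarith) f (pow_nonneg (d.ell_pos k).le _) (hb_ell_pow h k j) (by linarith)
  have hb : ∀ i, 1 ≤ i → m + i ≤ d.J → |k3mDif (d.arm col ωt) (d.arm true ω0) (m + i) (d.tl k (d.tc ω0))| * d.ell k ^ (i + m)
      ≤ (5 * d.K + 1) * d.N ^ (-d.a k - 2 / (d.n : ℝ)) := by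
    intro i hi hmi
    have f := T.smt h s col le_rfl (m + i) hmi
    have lh : d.β m + ((q : ℝ) / d.n) * ((i : ℝ) / m) ≤ d.l (m + i) k + i * d.r (d.a k) :=
      s.us.l_high h.beta h.n_pos le_rfl (Nat.le_add_right _ _)
    have hi1 : (1 : ℝ) ≤ i := by exact_mod_cast hi
    have h1m : 1 / (m : ℝ) ≤ (i : ℝ) / m := div_le_div_of_nonneg_right hi1 hmp.le
    have h2 := hb_two_div hn hmp hqm h1m
    have h3 := hb_ell_pow h k (i + m)
    push_cast at h3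
    rw [eX]
    exact hb_mul h (by linarith) f (pow_nonneg (d.ell_pos k).le _) h3 (by nlinarith)
  have hc : |k3mDif (d.arm col ωt) (d.arm true ω0) m (d.tl k (d.tc ω0)) - d.wd k k0 m col ω0 (d.st k ωt) (d.pal k0 m ωt)| * d.ell k ^ m
      ≤ 4 * d.K * d.N ^ (-d.a k - 2 / (d.n : ℝ)) := by
    have e : k3mDif (d.arm col ωt) (d.arm true ω0) m (d.tl k (d.tc ω0)) - d.wd k k0 m col ω0 (d.st k ωt) (d.pal k0 m ωt)
        = d.arm col ωt m (d.tl k (d.tc ω0)) - d.est k k0 m col (d.tc ω0) (d.st k ωt) (d.pal k0 m ωt) := by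
      unfold k3mDif K3mDat.wd
      ring
    have f := est_close h s (T.iit h s le_rfl) col
    have eY : -d.β m - 2 / (d.n : ℝ) = -(d.β m + 2 / (d.n : ℝ)) := by ring
    rw [eY] at f
    rw [e, eX]
    exact hb_mul h (by linarith) f (pow_nonneg (d.ell_pos k).le _) (hb_ell_pow h k m) (by linarith)
  have hd : 2 * d.K * d.ell k ^ (d.J + 1) ≤ 2 * d.K * d.N ^ (-d.a k - 2 / (d.n : ℝ)) := by
    refine mul_le_mul_of_nonneg_left ?_ (by linarith)
    have f := lam_rem' h (Nat.zero_le d.J) k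
    rw [Nat.sub_zero, hb_l_zero] at f
    refine f.trans (hb_mono h ?_)
    have hJp : (0 : ℝ) < d.J := Nat.cast_pos.2 (J_pos h)
    have hkq : (2 : ℝ) * d.J ≤ k := by
      have h1 := s.hq
      have h2 := s.us.2.2.1
      exact_mod_cast (show 2 * d.J ≤ k by omega)
    have h3 : 2 / (d.n : ℝ) ≤ d.a k / d.J := by
      have ea : d.a k = (k : ℝ) / d.n := rfl
      rw [ea, div_div, div_le_div_iff₀ hn (by positivity)]
      nlinarith
    linarith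
  have key := k3m_endpoint hm1 hmJ (dif_jet h col true (d.idx col ωt) (d.idx true ω0))
    (dif_bound h col true (d.idx col ωt) (d.idx true ω0)) (d.ell_pos k).le (tl_mem h s.k_le' (h.tc_lt ω0))
    (d.tm_mem (h.tc_lt ω1)) (d.tm_mem (h.tc_lt ω2)) i1 i2 (mul_nonneg (by linarith) (hb_nonneg h _)) ha hb hc hd
  refine le_trans key (le_of_eq ?_)
  ring

/-- **H5** (a02:final-target-widths) for the value only.  `k3m_estimate` with `m := 0`, `g = arm col' ω`, `x0 = tl (k+1) (tc ω)`, `x = tm (tc ω)`, `ℓ = ell (k+1)`, `B = K`, `cf j = bin * N^(-l j (k+1))`,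
`E = K N^(-a (k+1))` (`bn_approx`, `lam_shift` with `j = 0`, `k3mL_order_zero`, `lam_rem`). -/
theorem child (h : d.OK D) {k : ℕ} (hk : k + 1 ≤ d.n) (ω : Ω) (col' : Bool) :
    |d.arm col' ω 0 (d.tm (d.tc ω)) - d.py k col' (d.st (k + 1) ω) (d.tm (d.tc ω))| ≤ 4 * d.K * d.N ^ (-d.a k - 1 / (d.n : ℝ)) := by
  have hK := h.K_ge
  have hx0 := tl_near h hk ω
  have eA : d.a (k + 1) = d.a k + 1 / (d.n : ℝ) := by
    have e0 : k3mA d.n (k + 1) = k3mA d.n k + ((1 : ℕ) : ℝ) / d.n := k3mA_add d.n k 1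
    rw [Nat.cast_one] at e0
    exact e0
  have key := k3m_estimate (g := d.arm col' ω) (J := d.J) (m := 0) (Nat.zero_le _) (h.jet col' _) (B := d.K)
    (fun t ht => h.bound col' _ (d.J + 1) le_rfl t ht) (d.ell_pos (k + 1)).le hx0.1 (d.tm_mem (h.tc_lt ω))
    (by rw [abs_sub_comm]; exact hx0.2)
    (fun i => (d.bn col' (d.idx col' ω) i (k + 1) (d.tc ω) : ℝ) * d.N ^ (-d.l i (k + 1))) (E := d.K * d.N ^ (-d.a (k + 1)))
    (fun i hi => by
      rw [zero_add]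
      have b := bn_approx h col' (d.idx col' ω) i (k + 1) (d.tc ω)
      have ls := lam_shift h 0 i (k + 1)
      rw [zero_add, hb_l_zero] at ls
      calc |d.arm col' ω i (d.tl (k + 1) (d.tc ω)) - (d.bn col' (d.idx col' ω) i (k + 1) (d.tc ω) : ℝ) * d.N ^ (-d.l i (k + 1))| * d.ell (k + 1) ^ i
          ≤ d.N ^ (-d.l i (k + 1)) * d.ell (k + 1) ^ i := mul_le_mul_of_nonneg_right b (pow_nonneg (d.ell_pos _).le _)
        _ ≤ d.N ^ (-d.a (k + 1)) := ls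
        _ ≤ d.K * d.N ^ (-d.a (k + 1)) := le_mul_of_one_le_left (hb_nonneg h _) hK)
    (by
      have f := lam_rem h (Nat.zero_le d.J) (k + 1)
      rw [hb_l_zero] at f
      exact mul_le_mul_of_nonneg_left f (by linarith))
  have e : d.py k col' (d.st (k + 1) ω) (d.tm (d.tc ω))
      = ∑ i ∈ range (d.J + 1 - 0), (fun i => (d.bn col' (d.idx col' ω) i (k + 1) (d.tc ω) : ℝ) * d.N ^ (-d.l i (k + 1))) i
          * (d.tm (d.tc ω) - d.tl (k + 1) (d.tc ω)) ^ i / i ! := by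
    unfold K3mDat.py
    rw [st_apply_le d le_rfl ω, Nat.sub_zero]
    refine Finset.sum_congr rfl fun j hj => ?_
    have hj' : j ≤ d.J := Nat.lt_succ_iff.1 (Finset.mem_range.1 hj)
    have e1 : (d.rw (k + 1) ω).2 col' j = d.bn col' (d.idx col' ω) j (k + 1) (d.tc ω) := if_pos hj'
    rw [e1]
    rfl
  rw [e]
  refine key.trans (le_of_eq ?_)
  rw [eA]
  have : -d.a k - 1 / (d.n : ℝ) = -(d.a k + 1 / (d.n : ℝ)) := by ring
  rw [this]
  ring

/-- **the necessary test** (glue: `endpoint`, `child` for `ω2`, `arm col ω2 = arm col ωt`, `mem_ch`) -/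
theorem Quad.nec (h : d.OK D) (s : d.Stp q C k k0 m) (Q : d.Quad k C col ω0 ω1 ωt ω2) {sep : ℕ}
    (hsel : d.u0 m ≤ |d.wd k k0 m col ω0 (d.st k ωt) (d.pal k0 m ωt)|) (hsep : sep ≤ Nat.dist (d.tc ω1) (d.tc ω2)) :
    d.tst k k0 m sep col ω0 (d.tc ω1) (d.st k ωt) (d.pal k0 m ωt) (d.tc ω2) := by
  have hK := h.K_ge
  have hk1 : k + 1 ≤ d.n := by
    have h1 := s.k_le
    have h2 := s.hC
    have h3 := J_pos h
    omega
  refine ⟨hsep, hsel, d.st (k + 1) ω2, Q.mem_ch h s, ?_, ?_⟩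
  · rw [st_apply_le d le_rfl ω2]
    rfl
  · have h1 := Q.endpoint h s
    have h2 := child h hk1 ω2 col
    rw [Q.arm2] at h2
    have hn : (0 : ℝ) < d.n := Nat.cast_pos.2 h.n_pos
    have h3 : d.N ^ (-d.a k - 2 / (d.n : ℝ)) ≤ d.N ^ (-d.a k - 1 / (d.n : ℝ)) := by
      refine hb_mono h ?_
      have : 1 / (d.n : ℝ) ≤ 2 / (d.n : ℝ) := div_le_div_of_nonneg_right (by norm_num) hn.le
      linarith
    have h4 : (72 * d.K + 12) * d.N ^ (-d.a k - 2 / (d.n : ℝ)) ≤ (72 * d.K + 12) * d.N ^ (-d.a k - 1 / (d.n : ℝ)) :=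
      mul_le_mul_of_nonneg_left h3 (by linarith)
    have e : d.wd k k0 m col ω0 (d.st k ωt) (d.pal k0 m ωt) * (d.tm (d.tc ω2) - d.tm (d.tc ω1)) ^ m / (m ! : ℝ)
          - (d.py k col (d.st (k + 1) ω2) (d.tm (d.tc ω2)) - d.arm true ω0 0 (d.tm (d.tc ω2)))
        = -((d.arm col ωt 0 (d.tm (d.tc ω2)) - d.arm true ω0 0 (d.tm (d.tc ω2)))
            - d.wd k k0 m col ω0 (d.st k ωt) (d.pal k0 m ωt) * (d.tm (d.tc ω2) - d.tm (d.tc ω1)) ^ m / (m ! : ℝ))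
          + (d.arm col ωt 0 (d.tm (d.tc ω2)) - d.py k col (d.st (k + 1) ω2) (d.tm (d.tc ω2))) := by ring
    rw [e]
    refine (abs_add_le _ _).trans ?_
    rw [abs_neg]
    unfold K3mDat.rho
    have e2 : (76 * d.K + 12) * d.N ^ (-d.a k - 1 / (d.n : ℝ))
        = (72 * d.K + 12) * d.N ^ (-d.a k - 1 / (d.n : ℝ)) + 4 * d.K * d.N ^ (-d.a k - 1 / (d.n : ℝ)) := by ring
    rw [e2]
    linarith

/-! ## 4. counting      (leaf L-252-K3M-H6) -/

/-- number of children of the neighbours -/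
theorem ch_card (h : d.OK D) (k : ℕ) (ω0 : Ω) {Mch : ℝ} (hM : ∀ A : K3mSt, ((d.st (k + 1) '' {ω | d.p ω ≠ 0 ∧ d.st k ω = A}).ncard : ℝ) ≤ Mch) :
    (d.ch k ω0).Finite ∧ ((d.ch k ω0).ncard : ℝ) ≤ (20 * d.K + 5) ^ (2 * (d.J + 1) * (k + 1)) * Mch := by
  classical
  obtain ⟨hfin, hcard⟩ := nb_card h k ω0
  have hM0 : 0 ≤ Mch := le_trans (Nat.cast_nonneg _) (hM fun _ => (0, fun _ _ => 0))
  have hchfin : (d.ch k ω0).Finite := (Set.toFinite _).image _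
  refine ⟨hchfin, ?_⟩
  have hsub : d.ch k ω0 ⊆ ⋃ A ∈ hfin.toFinset, d.st (k + 1) '' {ω | d.p ω ≠ 0 ∧ d.st k ω = A} := by
    rintro _ ⟨ω, ⟨hp, hnb⟩, rfl⟩
    simp only [Set.mem_iUnion]
    exact ⟨d.st k ω, hfin.mem_toFinset.2 hnb, ω, ⟨hp, rfl⟩, rfl⟩
  have hUfin : (⋃ A ∈ hfin.toFinset, d.st (k + 1) '' {ω | d.p ω ≠ 0 ∧ d.st k ω = A}).Finite :=
    Set.Finite.biUnion (Finset.finite_toSet _) fun A _ => (Set.toFinite _).image _
  have h1 : (d.ch k ω0).ncard ≤ ∑ A ∈ hfin.toFinset, (d.st (k + 1) '' {ω | d.p ω ≠ 0 ∧ d.st k ω = A}).ncard :=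
    (Set.ncard_le_ncard hsub hUfin).trans (Finset.set_ncard_biUnion_le _ _)
  calc ((d.ch k ω0).ncard : ℝ) ≤ ((∑ A ∈ hfin.toFinset, (d.st (k + 1) '' {ω | d.p ω ≠ 0 ∧ d.st k ω = A}).ncard : ℕ) : ℝ) := by
        exact_mod_cast h1
    _ = ∑ A ∈ hfin.toFinset, ((d.st (k + 1) '' {ω | d.p ω ≠ 0 ∧ d.st k ω = A}).ncard : ℝ) := by push_cast; rfl
    _ ≤ ∑ _A ∈ hfin.toFinset, Mch := Finset.sum_le_sum fun A _ => hM A
    _ = (hfin.toFinset.card : ℝ) * Mch := by rw [Finset.sum_const, nsmul_eq_mul]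
    _ = ((d.nb k ω0).ncard : ℝ) * Mch := by rw [Set.ncard_eq_toFinset_card _ hfin]
    _ ≤ (20 * d.K + 5) ^ (2 * (d.J + 1) * (k + 1)) * Mch := mul_le_mul_of_nonneg_right hcard hM0

/-- for fixed control data: `k3mI (tst ..) ≤ ∑_{χ ∈ ch} k3mI (ii (k+1) t2 = χ-index) * k3mI (sep ≤ dist ∧ |w' ((t2 - t1) h)^m - y0| ≤ rho)` with `w' = wd / m!`, `h = 1/2^kT`, `|w'| ≥ u0 / m!`;
sum over `t1` by `k3m_count_pow`, over `t2` by `ii_count`, over `χ`. -/
theorem tst_count (h : d.OK D) {k : ℕ} (hk : k + 1 ≤ d.n) (k0 : ℕ) {m : ℕ} (hm : 1 ≤ m) {sep : ℕ} (hsep : 1 ≤ sep) (col : Bool) (ω0 : Ω) (A : K3mSt) (z : Bool → ℤ) :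
    ∑ t1 ∈ range (2 ^ d.kT), ∑ t2 ∈ range (2 ^ d.kT), k3mI (d.tst k k0 m sep col ω0 t1 A z t2)
      ≤ ((d.ch k ω0).ncard : ℝ) * 2 ^ (d.kT - d.kk (k + 1)) *
          (2 * (2 * d.rho k / (d.u0 m / (m ! : ℝ) * ((sep : ℝ) * (1 / 2 ^ d.kT)) ^ (m - 1) * (1 / 2 ^ d.kT)) + 1)) := by
  classical
  have hK := h.K_ge
  have hchfin : (d.ch k ω0).Finite := (Set.toFinite _).image _
  have hhh : (0 : ℝ) < 1 / 2 ^ d.kT := by positivity
  have hu0 : 0 < d.u0 m := div_pos (Real.rpow_pos_of_pos (N_pos h) _) (by norm_num)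
  have hrho : 0 ≤ d.rho k := mul_nonneg (by linarith) (hb_nonneg h _)
  have hfac : (0 : ℝ) < (m ! : ℝ) := by exact_mod_cast Nat.factorial_pos m
  have hsepR : (0 : ℝ) < sep := by exact_mod_cast hsep
  obtain ⟨Cst, hCst⟩ : ∃ Cst : ℝ, Cst = 2 * (2 * d.rho k / (d.u0 m / (m ! : ℝ) * ((sep : ℝ) * (1 / 2 ^ d.kT)) ^ (m - 1) * (1 / 2 ^ d.kT)) + 1) := ⟨_, rfl⟩
  rw [← hCst]
  have hCst0 : 0 ≤ Cst := by
    rw [hCst]
    positivity
  by_cases hw : d.u0 m ≤ |d.wd k k0 m col ω0 A z|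
  · obtain ⟨w, hwdef⟩ : ∃ w : ℝ, w = d.wd k k0 m col ω0 A z / (m ! : ℝ) := ⟨_, rfl⟩
    have hwabs : d.u0 m / (m ! : ℝ) ≤ |w| := by
      rw [hwdef, abs_div, abs_of_pos hfac]
      exact div_le_div_of_nonneg_right hw hfac.le
    have hw0 : w ≠ 0 := by
      intro e
      rw [e, abs_zero] at hwabs
      exact absurd hwabs (not_le.2 (div_pos hu0 hfac))
    obtain ⟨a, ha⟩ : ∃ a : K3mSt → ℕ → ℝ, a = fun χ t2 => k3mI (d.ii (k + 1) t2 = (χ (k + 1)).1) := ⟨_, rfl⟩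
    obtain ⟨b, hb⟩ : ∃ b : K3mSt → ℕ → ℕ → ℝ, b = fun χ t1 t2 =>
        k3mI (sep ≤ Nat.dist t1 t2 ∧ |w * (((t2 : ℝ) - t1) * (1 / 2 ^ d.kT)) ^ m - (d.py k col χ (d.tm t2) - d.arm true ω0 0 (d.tm t2))| ≤ d.rho k) := ⟨_, rfl⟩
    have ha0 : ∀ χ t2, 0 ≤ a χ t2 := fun χ t2 => by
      rw [ha]
      exact k3mI_nonneg _
    have hb0 : ∀ χ t1 t2, 0 ≤ b χ t1 t2 := fun χ t1 t2 => by
      rw [hb]
      exact k3mI_nonneg _
    -- pointwise bound
    have hpt : ∀ t1 t2, k3mI (d.tst k k0 m sep col ω0 t1 A z t2) ≤ ∑ χ ∈ hchfin.toFinset, a χ t2 * b χ t1 t2 := by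
      intro t1 t2
      by_cases ht : d.tst k k0 m sep col ω0 t1 A z t2
      · obtain ⟨a1, _, χ, hχ, a3, a4⟩ := ht
        have e : d.wd k k0 m col ω0 A z * (d.tm t2 - d.tm t1) ^ m / (m ! : ℝ) = w * (((t2 : ℝ) - t1) * (1 / 2 ^ d.kT)) ^ m := by
          rw [hwdef]
          unfold K3mDat.tm
          have : (t2 : ℝ) / 2 ^ d.kT - (t1 : ℝ) / 2 ^ d.kT = ((t2 : ℝ) - t1) * (1 / 2 ^ d.kT) := by ring
          rw [this]
          ring
        rw [e] at a4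
        refine le_trans (k3mI_le_one _) ?_
        refine le_trans (le_of_eq ?_) (Finset.single_le_sum (f := fun χ => a χ t2 * b χ t1 t2)
          (fun χ _ => mul_nonneg (ha0 _ _) (hb0 _ _ _)) (hchfin.mem_toFinset.2 hχ))
        simp only [ha, hb]
        rw [k3mI_true a3, k3mI_true ⟨a1, a4⟩, one_mul]
      · rw [k3mI_false ht]
        exact Finset.sum_nonneg fun χ _ => mul_nonneg (ha0 _ _) (hb0 _ _ _)
    -- the count over `t1`
    have hc1 : ∀ (χ : K3mSt) (t2 : ℕ), ∑ t1 ∈ range (2 ^ d.kT), b χ t1 t2 ≤ Cst := by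
      intro χ t2
      simp only [hb]
      refine (k3m_count_pow hm hw0 hrho hhh hsep t2 (2 ^ d.kT)).trans ?_
      rw [hCst]
      have hden : 0 < d.u0 m / (m ! : ℝ) * ((sep : ℝ) * (1 / 2 ^ d.kT)) ^ (m - 1) * (1 / 2 ^ d.kT) := by positivity
      have hle : d.u0 m / (m ! : ℝ) * ((sep : ℝ) * (1 / 2 ^ d.kT)) ^ (m - 1) * (1 / 2 ^ d.kT) ≤ |w| * ((sep : ℝ) * (1 / 2 ^ d.kT)) ^ (m - 1) * (1 / 2 ^ d.kT) :=
        mul_le_mul_of_nonneg_right (mul_le_mul_of_nonneg_right hwabs (by positivity)) hhh.le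
      have := div_le_div_of_nonneg_left (show 0 ≤ 2 * d.rho k by linarith) hden hle
      linarith
    have hc2 : ∀ χ : K3mSt, ∑ t2 ∈ range (2 ^ d.kT), a χ t2 ≤ (2 : ℝ) ^ (d.kT - d.kk (k + 1)) := by
      intro χ
      simp only [ha]
      exact ii_count h hk _
    have hex : ∑ t1 ∈ range (2 ^ d.kT), ∑ t2 ∈ range (2 ^ d.kT), ∑ χ ∈ hchfin.toFinset, a χ t2 * b χ t1 t2
        = ∑ χ ∈ hchfin.toFinset, ∑ t2 ∈ range (2 ^ d.kT), a χ t2 * ∑ t1 ∈ range (2 ^ d.kT), b χ t1 t2 := by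
      have s1 : ∀ t1, ∑ t2 ∈ range (2 ^ d.kT), ∑ χ ∈ hchfin.toFinset, a χ t2 * b χ t1 t2
          = ∑ χ ∈ hchfin.toFinset, ∑ t2 ∈ range (2 ^ d.kT), a χ t2 * b χ t1 t2 := fun t1 => Finset.sum_comm
      simp only [s1]
      rw [Finset.sum_comm]
      refine Finset.sum_congr rfl fun χ _ => ?_
      rw [Finset.sum_comm]
      refine Finset.sum_congr rfl fun t2 _ => ?_
      rw [Finset.mul_sum]
    calc ∑ t1 ∈ range (2 ^ d.kT), ∑ t2 ∈ range (2 ^ d.kT), k3mI (d.tst k k0 m sep col ω0 t1 A z t2)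
        ≤ ∑ t1 ∈ range (2 ^ d.kT), ∑ t2 ∈ range (2 ^ d.kT), ∑ χ ∈ hchfin.toFinset, a χ t2 * b χ t1 t2 :=
          Finset.sum_le_sum fun t1 _ => Finset.sum_le_sum fun t2 _ => hpt t1 t2
      _ = ∑ χ ∈ hchfin.toFinset, ∑ t2 ∈ range (2 ^ d.kT), a χ t2 * ∑ t1 ∈ range (2 ^ d.kT), b χ t1 t2 := hex
      _ ≤ ∑ χ ∈ hchfin.toFinset, ∑ t2 ∈ range (2 ^ d.kT), a χ t2 * Cst :=
          Finset.sum_le_sum fun χ _ => Finset.sum_le_sum fun t2 _ => mul_le_mul_of_nonneg_left (hc1 χ t2) (ha0 _ _)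
      _ ≤ ∑ _χ ∈ hchfin.toFinset, (2 : ℝ) ^ (d.kT - d.kk (k + 1)) * Cst := by
          refine Finset.sum_le_sum fun χ _ => ?_
          rw [← Finset.sum_mul]
          exact mul_le_mul_of_nonneg_right (hc2 χ) hCst0
      _ = ((d.ch k ω0).ncard : ℝ) * 2 ^ (d.kT - d.kk (k + 1)) * Cst := by
          rw [Finset.sum_const, nsmul_eq_mul, Set.ncard_eq_toFinset_card _ hchfin, mul_assoc]
  · have h0 : ∀ t1 t2, k3mI (d.tst k k0 m sep col ω0 t1 A z t2) = 0 := fun t1 t2 => k3mI_false fun ht => hw ht.2.1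
    simp only [h0, Finset.sum_const_zero]
    positivity

end K3mDat

end

end Claimed.Agent.R252

end PkS3mGeoB
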