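-- KEEP
import Claimed.Agent.R252.S3m.GeoA
import Claimed.Agent.R252.S3m.Prob

/-! PACKED FILE (helper10, closed unit): parts S3m.Step, S3m.Main, S3m.Sum, S3m.Beta.  Each part is wrapped in its own `section`. -/

section PkS3mStep

/-!
# ROW 252, unit S3m (L3.3 two-colour matching, architect helper93), file Step.     CONTRACT file: the `sorry`s are the leaves L-252-K3M-Q*.

THE INCREMENT (a02:entropy-increment): at a usable step `k` (active order `m`) where the palette is good, an atom of level `k` has many children of level `k + 1`: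
  `1 ≤ Θ(J, n, K) N^σ Mch N^(η - (1/n)(1 + 1/m))`.
`chn` = the instance of the abstract switching experiment (`Chain.lean`), `chn_ok` = its hypotheses (glue from `GeoA`, `GeoB`), `k3m_step` = `k3m_chain` + arithmetic.
-/

set_option autoImplicit false
set_option linter.unusedSectionVars false

namespace Claimed.Agent.R252

open scoped BigOperators Nat
open Finset

noncomputable section

namespace K3mDat

variable {Ω : Type} [Fintype Ω] {d : K3mDat Ω} {D : ℕ}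

/-- separation of the two times, in cells -/
def sep (d : K3mDat Ω) (k : ℕ) : ℕ := ⌊(2 : ℝ) ^ (d.kT - d.kk k) / (600 * d.K)⌋₊

/-- the palette is bad at `ω` -/
def bad (d : K3mDat Ω) (C k k0 m : ℕ) (σ : ℝ) : Set Ω :=
  {ω | d.N ^ σ * k3mX d.p (d.st k) (d.pal k0 m) ω < k3mX d.p (d.st (k + C)) (d.pal k0 m) ω}

open Classical in
/-- the neighbours as a `Finset` -/
def nbF (d : K3mDat Ω) (k : ℕ) (ω0 : Ω) : Finset K3mSt := if hf : (d.nb k ω0).Finite then hf.toFinset else ∅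

/-- the number `V` of the experiment -/
def vv (d : K3mDat Ω) (k m : ℕ) (Mch : ℝ) : ℝ :=
  (20 * d.K + 5) ^ (2 * (d.J + 1) * (k + 1)) * Mch * 2 ^ (d.kT - d.kk (k + 1)) *
    (2 * (2 * d.rho k / (d.u0 m / (m ! : ℝ) * ((d.sep k : ℝ) * (1 / 2 ^ d.kT)) ^ (m - 1) * (1 / 2 ^ d.kT)) + 1))

/-- the switching experiment of the step `k` -/
def chn (d : K3mDat Ω) (C k k0 m : ℕ) (σ Mch : ℝ) : K3mCh Ω (ℕ × ℕ) (ℕ × ℕ) K3mSt K3mSt (Bool → ℤ) where
  p := d.p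
  X1 := d.x2 k true
  X2 := d.x2 k
  G := d.st (k + C)
  Fc := d.st k
  Z := d.pal k0 m
  tc := d.tc
  Tn := 2 ^ d.kT
  sep := d.sep k
  κ := d.K * 30 / 2 ^ (d.kT - d.kk k)
  Γ := d.N ^ σ
  ζ1 := 1 / 30
  ζ2 := 1 / 10
  ζ3 := 1 / 10
  V := d.vv k m Mch
  Nn := (20 * d.K + 5) ^ (2 * (d.J + 1) * (k + 1))
  Lt1 := d.lt k true 30
  Lt2 := fun col => d.lt k col 30
  Bad := d.bad C k k0 m σ
  Sel := fun col ω0 ωt => d.u0 m ≤ |d.wd k k0 m col ω0 (d.st k ωt) (d.pal k0 m ωt)|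
  Nb := d.nbF k
  Tst := d.tst k k0 m (d.sep k)

end K3mDat

/-- the constant of the increment -/
def k3mTheta (J n : ℕ) (K : ℝ) : ℝ :=
  12000 * K ^ 2 * (20 * K + 5) ^ (4 * (J + 1) * (n + 1)) * (8 * 2 ^ J * (J ! : ℝ) * (1200 * K) ^ J * (76 * K + 12) + 1)

theorem k3m_step_eqns_cite : True := by
  have := @K3mDat.sep.eq_1
  have := @K3mDat.bad.eq_1
  have := @K3mDat.nbF.eq_1
  have := @K3mDat.vv.eq_1
  have := @K3mDat.chn.eq_1
  have := @k3mTheta.eq_1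
  trivial

namespace K3mDat

variable {Ω : Type} [Fintype Ω] {d : K3mDat Ω} {D : ℕ} {q C k k0 m : ℕ} {σ Mch : ℝ}

/-- **Q1** `1 ≤ sep`, `2^(kT - kk k)/(1200 K) ≤ sep ≤ 2^(kT - kk k)/(600 K)`   (`cells_ge`, `Nat.floor_le`, `⌊x⌋₊ ≥ x/2` for `x ≥ 1`) -/
theorem sep_bounds (h : d.OK D) {k : ℕ} (hk : k ≤ d.n) (hN : 1200 * d.K ≤ d.N ^ 2) :
    1 ≤ d.sep k ∧ (2 : ℝ) ^ (d.kT - d.kk k) / (1200 * d.K) ≤ d.sep k ∧ (d.sep k : ℝ) ≤ (2 : ℝ) ^ (d.kT - d.kk k) / (600 * d.K) := by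
  have hK := h.K_ge
  have hc := cells_ge h hk
  obtain ⟨x, hx⟩ : ∃ x : ℝ, x = (2 : ℝ) ^ (d.kT - d.kk k) / (600 * d.K) := ⟨_, rfl⟩
  have hx1 : 1 ≤ x := by
    rw [hx, le_div_iff₀ (by linarith)]
    linarith
  have hs : d.sep k = ⌊x⌋₊ := by
    rw [hx]
    rfl
  have h1 : 1 ≤ ⌊x⌋₊ := Nat.le_floor (by simpa using hx1)
  have h2 : (⌊x⌋₊ : ℝ) ≤ x := Nat.floor_le (by linarith)
  have h3 : x < ⌊x⌋₊ + 1 := Nat.lt_floor_add_one x
  have h1R : (1 : ℝ) ≤ ⌊x⌋₊ := by exact_mod_cast h1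
  rw [hs]
  refine ⟨h1, ?_, ?_⟩
  · have e : (2 : ℝ) ^ (d.kT - d.kk k) / (1200 * d.K) = x / 2 := by
      rw [hx]
      field_simp
      ring
    rw [e]
    linarith
  · rw [← hx]
    exact h2

/-- **Q2** the hypotheses of the abstract experiment: field by field from `GeoA`, `GeoB`:
`law`, `tc_lt` : `h`;  `refine` : `(st_nest d).le`;  `light1/2` : `lt_prob` (`Λ = 30`);  `bad` : `hbad`;  `dens1/2` : `lt_dens`;  `pal` : definition of `bad` (`not_lt`);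
`sel` : `Tri.sel_or`;  `nec` : `Tri.mem_nb` (membership in `nbF` by `nb_card.1`) and `Quad.nec`;  `nb_card` : `nb_card` (`Set.ncard_eq_toFinset_card`);
`count` : `tst_count` + `ch_card`;  `close` : `sep_bounds`. -/
theorem chn_ok (h : d.OK D) (s : d.Stp q C k k0 m) (hσ : 0 ≤ σ) (hbad : k3mP d.p (d.bad C k k0 m σ) ≤ 1 / 10)
    (hch : ∀ A : K3mSt, ((d.st (k + 1) '' {ω | d.p ω ≠ 0 ∧ d.st k ω = A}).ncard : ℝ) ≤ Mch)
    (h32 : 32 * d.K ≤ d.N ^ (2 / (d.n : ℝ) - d.η)) (hN : 1200 * d.K ≤ d.N ^ 2) : (d.chn C k k0 m σ Mch).OK := by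
  have hK := h.K_ge
  have hk' := s.k_le'
  have hk1 : k + 1 ≤ d.n := by
    have h1 := s.k_le
    have h2 := s.hC
    have h3 := J_pos h
    omega
  obtain ⟨hs1, hs2, hs3⟩ := sep_bounds h hk' hN
  have hM0 : 0 ≤ Mch := le_trans (Nat.cast_nonneg _) (hch fun _ => (0, fun _ _ => 0))
  have hL0 : (0 : ℝ) < 2 ^ (d.kT - d.kk k) := by positivity
  have hrho : 0 ≤ d.rho k := mul_nonneg (by linarith) (hb_nonneg h _)
  have hu0 : 0 ≤ d.u0 m := div_nonneg (hb_nonneg h _) (by norm_num)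
  have hZ : 0 ≤ 2 * (2 * d.rho k / (d.u0 m / (m ! : ℝ) * ((d.sep k : ℝ) * (1 / 2 ^ d.kT)) ^ (m - 1) * (1 / 2 ^ d.kT)) + 1) := by
    refine mul_nonneg zero_le_two (add_nonneg (div_nonneg (by linarith) ?_) zero_le_one)
    exact mul_nonneg (mul_nonneg (div_nonneg hu0 (Nat.cast_nonneg _)) (pow_nonneg (mul_nonneg (Nat.cast_nonneg _) (by positivity)) _))
      (by positivity)
  have hnbF : ∀ ω0, d.nbF k ω0 = (nb_card h k ω0).1.toFinset := fun ω0 => by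
    unfold K3mDat.nbF
    rw [dif_pos (nb_card h k ω0).1]
  exact
  { law := h.law
    tc_lt := h.tc_lt
    κ_nonneg := div_nonneg (by linarith) hL0.le
    Γ_nonneg := hb_nonneg h σ
    V_nonneg := mul_nonneg (mul_nonneg (mul_nonneg (pow_nonneg (by linarith) _) hM0) (by positivity)) hZ
    refine := fun ω ω' e => (st_nest d).le (Nat.le_add_right k C) e
    light1 := lt_prob h hk' true (by norm_num)
    light2 := fun col => lt_prob h hk' col (by norm_num)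
    bad := hbad
    dens1 := fun ω hω t => lt_dens h hk' true (by norm_num) hω t
    dens2 := fun col ω hω t => lt_dens h hk' col (by norm_num) hω t
    pal := fun ω hω _ => not_lt.1 hω
    sel := fun ω0 ω1 ωt p0 p1 pt e1 et => Tri.sel_or h s ⟨p0, p1, pt, e1, et⟩ h32
    nec := fun col ω0 ω1 ωt ω2 p0 p1 pt p2 e1 et e2 hsel hsep => by
      refine ⟨?_, Quad.nec h s ⟨⟨p0, p1, pt, e1, et⟩, p2, e2⟩ hsel hsep⟩
      show d.st k ωt ∈ d.nbF k ω0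
      rw [hnbF]
      exact (Set.Finite.mem_toFinset _).2 (Tri.mem_nb h s ⟨p0, p1, pt, e1, et⟩)
    nb_card := fun ω0 => by
      show ((d.nbF k ω0).card : ℝ) ≤ _
      rw [hnbF, ← Set.ncard_eq_toFinset_card _ (nb_card h k ω0).1]
      exact (nb_card h k ω0).2
    count := fun col ω0 A z => (tst_count h hk1 k0 s.m_pos hs1 col ω0 A z).trans
      (mul_le_mul_of_nonneg_right (mul_le_mul_of_nonneg_right (ch_card h k ω0 hch).2 (by positivity)) hZ)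
    close := by
      show d.K * 30 / 2 ^ (d.kT - d.kk k) * (2 * (d.sep k : ℝ)) ≤ 1 / 10
      calc d.K * 30 / 2 ^ (d.kT - d.kk k) * (2 * (d.sep k : ℝ))
          ≤ d.K * 30 / 2 ^ (d.kT - d.kk k) * (2 * ((2 : ℝ) ^ (d.kT - d.kk k) / (600 * d.K))) :=
            mul_le_mul_of_nonneg_left (by linarith) (div_nonneg (by linarith) hL0.le)
        _ = 1 / 10 := by
            have hK0 : d.K ≠ 0 := by linarith
            field_simp
            norm_num }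

/-- pure arithmetic of the denominator -/
theorem sa_den {m : ℕ} (hm : 1 ≤ m) {ρ c0 Xρ u Xu e0 Xe Y2 Sh κ f A2 Af Aκ dL : ℝ} (hc0 : 0 ≤ c0) (hXu : 0 ≤ Xu) (hXe : 0 ≤ Xe) (hY2 : 0 ≤ Y2)
    (hκ : 0 < κ) (hf : 0 < f) (hρ : ρ = c0 * Xρ) (hu : u = Xu / 4) (he0 : Xe / 2 ≤ e0) (hid : Xu * Xe ^ m * Y2 = Xρ) (hSh : e0 / κ ≤ Sh)
    (hdL : dL = u / f * Sh ^ (m - 1) * e0) (h2 : (2 : ℝ) ^ m ≤ A2) (hfA : f ≤ Af) (hκA : κ ^ (m - 1) ≤ Aκ) :
    2 * ρ ≤ 8 * A2 * Af * Aκ * c0 * Y2 * dL := by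
  have he00 : 0 ≤ e0 := le_trans (by positivity) he0
  have hSh0 : 0 ≤ Sh := le_trans (div_nonneg he00 hκ.le) hSh
  have hdL0 : 0 ≤ dL := by
    rw [hdL, hu]
    positivity
  have c1 : Xu * Xe ^ m ≤ 4 * 2 ^ m * f * κ ^ (m - 1) * dL := by
    have e1 : 4 * 2 ^ m * f * κ ^ (m - 1) * dL = Xu * (2 ^ m * ((κ * Sh) ^ (m - 1) * e0)) := by
      rw [hdL, hu, mul_pow]
      field_simp
    rw [e1]
    refine mul_le_mul_of_nonneg_left ?_ hXu
    have h3 : e0 ≤ κ * Sh := by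
      rw [div_le_iff₀ hκ] at hSh
      linarith
    have h4 : e0 ^ (m - 1) ≤ (κ * Sh) ^ (m - 1) := pow_le_pow_left₀ he00 h3 _
    have h5 : e0 ^ m = e0 ^ (m - 1) * e0 := by
      rw [← pow_succ]
      congr 1
      omega
    calc Xe ^ m ≤ (2 * e0) ^ m := pow_le_pow_left₀ hXe (by linarith) m
      _ = 2 ^ m * (e0 ^ (m - 1) * e0) := by rw [mul_pow, h5]
      _ ≤ 2 ^ m * ((κ * Sh) ^ (m - 1) * e0) := mul_le_mul_of_nonneg_left (mul_le_mul_of_nonneg_right h4 he00) (by positivity)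
  have c2 : 4 * 2 ^ m * f * κ ^ (m - 1) ≤ 4 * A2 * Af * Aκ := by
    have p1 : (0 : ℝ) ≤ 2 ^ m := by positivity
    have p2 : 0 ≤ κ ^ (m - 1) := by positivity
    have p3 : 0 ≤ A2 := p1.trans h2
    have p4 : 0 ≤ Af := hf.le.trans hfA
    calc 4 * 2 ^ m * f * κ ^ (m - 1) ≤ 4 * A2 * Af * κ ^ (m - 1) :=
          mul_le_mul_of_nonneg_right (mul_le_mul (by linarith) hfA hf.le (by linarith)) p2
      _ ≤ 4 * A2 * Af * Aκ := mul_le_mul_of_nonneg_left hκA (by positivity)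
  calc 2 * ρ = 2 * c0 * Y2 * (Xu * Xe ^ m) := by rw [hρ, ← hid]; ring
    _ ≤ 2 * c0 * Y2 * (4 * 2 ^ m * f * κ ^ (m - 1) * dL) := mul_le_mul_of_nonneg_left c1 (by positivity)
    _ ≤ 2 * c0 * Y2 * (4 * A2 * Af * Aκ * dL) :=
        mul_le_mul_of_nonneg_left (mul_le_mul_of_nonneg_right c2 hdL0) (by positivity)
    _ = 8 * A2 * Af * Aκ * c0 * Y2 * dL := by ring

/-- **Q3** arithmetic.  With `L0 = 2^(kT - kk k)`, `L1 = 2^(kT - kk (k+1))`, `hh = 1/2^kT`: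
`L1 / L0 = ell (k+1) / ell k ≤ 2 N^(-1/(n m))` (`ell_le`, `ell_ge`, `K3mUs.r_step`);   `sep hh ≥ ell k/(1200 K)`;
`rho / (u0 ell k ^ m) ≤ 4 2^m (76K+12) N^(η - 1/n)` (`ell_ge`, `K3mUs.m_mul_r`);   `1/L0 ≤ 2/N^2 ≤ N^(η - 1/n)`;   `m ≤ J`, `k + 1 ≤ n + 1`. -/
theorem step_arith (h : d.OK D) (s : d.Stp q C k k0 m) (hσ : 0 ≤ σ) (hM : 0 ≤ Mch) (hN : 1200 * d.K ≤ d.N ^ 2) :
    2 * ((d.K * 30 / 2 ^ (d.kT - d.kk k)) ^ 2 * d.N ^ σ * (20 * d.K + 5) ^ (2 * (d.J + 1) * (k + 1)) * d.vv k m Mch)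
      ≤ (3 / 5) * (k3mTheta d.J d.n d.K * d.N ^ σ * Mch * d.N ^ (d.η - (1 / (d.n : ℝ)) * (1 + 1 / (m : ℝ)))) := by
  have hK := h.K_ge
  have hN0 := N_pos h
  have hN2 := h.N_ge
  have hk' := s.k_le'
  have hk1 : k + 1 ≤ d.n := by
    have h1 := s.k_le
    have h2 := s.hC
    have h3 := J_pos h
    omega
  have hC1 : 1 ≤ C := by
    have h2 := s.hC
    have h3 := J_pos h
    omega
  have hm1 := s.m_pos
  have hmJ := s.m_le
  have hn : (0 : ℝ) < d.n := Nat.cast_pos.2 h.n_pos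
  have hmp : (0 : ℝ) < m := Nat.cast_pos.2 hm1
  obtain ⟨hs1, hs2, hs3⟩ := sep_bounds h hk' hN
  have hmr : (m : ℝ) * d.r (d.a k) = d.a k - d.β m := s.us.m_mul_r (Nat.sub_le _ _) (Nat.le_add_right _ _)
  have hrs : d.r (d.a (k + 1)) - d.r (d.a k) = 1 / ((d.n : ℝ) * m) := s.us.r_step h.n_pos hC1
  have hT : (0 : ℝ) < 2 ^ d.kT := by positivity
  have hL0 : (0 : ℝ) < 2 ^ (d.kT - d.kk k) := by positivity
  have hL1 : (0 : ℝ) < 2 ^ (d.kT - d.kk (k + 1)) := by positivity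
  have he0 := ell_eq h hk'
  have he1 := ell_eq h hk1
  -- (A)
  have hA : (2 : ℝ) ^ (d.kT - d.kk (k + 1)) / 2 ^ (d.kT - d.kk k) ≤ 2 * d.N ^ (-(1 / ((d.n : ℝ) * m))) := by
    rw [div_le_iff₀ hL0]
    have a1 := ell_le h (k + 1)
    have a2 := ell_ge h k
    have a3 : d.N ^ (-d.r (d.a (k + 1))) = d.N ^ (-(1 / ((d.n : ℝ) * m))) * d.N ^ (-d.r (d.a k)) := by
      rw [← Real.rpow_add hN0]
      congr 1
      linarith
    have a4 : d.ell (k + 1) ≤ 2 * d.N ^ (-(1 / ((d.n : ℝ) * m))) * d.ell k := by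
      calc d.ell (k + 1) ≤ d.N ^ (-(1 / ((d.n : ℝ) * m))) * d.N ^ (-d.r (d.a k)) := a3 ▸ a1
        _ ≤ d.N ^ (-(1 / ((d.n : ℝ) * m))) * (2 * d.ell k) := mul_le_mul_of_nonneg_left (by linarith) (hb_nonneg h _)
        _ = 2 * d.N ^ (-(1 / ((d.n : ℝ) * m))) * d.ell k := by ring
    rw [he0, he1, ← mul_div_assoc, div_le_div_iff_of_pos_right hT] at a4
    exact a4
  -- (B)
  obtain ⟨den, hden⟩ : ∃ den : ℝ, den = d.u0 m / (m ! : ℝ) * ((d.sep k : ℝ) * (1 / 2 ^ d.kT)) ^ (m - 1) * (1 / 2 ^ d.kT) := ⟨_, rfl⟩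
  have hu0 : 0 < d.u0 m := div_pos (Real.rpow_pos_of_pos hN0 _) (by norm_num)
  have hfac : (0 : ℝ) < (m ! : ℝ) := by exact_mod_cast Nat.factorial_pos m
  have hsepR : (0 : ℝ) < d.sep k := by exact_mod_cast hs1
  have hden0 : 0 < den := by
    rw [hden]
    positivity
  have hB1 : 2 * d.rho k ≤ 8 * 2 ^ d.J * (d.J ! : ℝ) * (1200 * d.K) ^ d.J * (76 * d.K + 12) * d.N ^ (d.η - 1 / (d.n : ℝ)) * (den * 2 ^ (d.kT - d.kk k)) := by
    refine sa_den hm1 (Xρ := d.N ^ (-d.a k - 1 / (d.n : ℝ))) (u := d.u0 m) (Xu := d.N ^ (-d.β m - d.η)) (e0 := d.ell k)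
      (Xe := d.N ^ (-d.r (d.a k))) (Sh := (d.sep k : ℝ) * (1 / 2 ^ d.kT)) (κ := 1200 * d.K) (f := (m ! : ℝ))
      (by linarith) (hb_nonneg h _) (hb_nonneg h _) (hb_nonneg h _) (by linarith) hfac rfl rfl (ell_ge h k) ?_ ?_ ?_ ?_ ?_ ?_
    · rw [← Real.rpow_natCast, ← Real.rpow_mul hN0.le, ← Real.rpow_add hN0, ← Real.rpow_add hN0]
      congr 1
      have : -d.r (d.a k) * (m : ℝ) = -(d.a k - d.β m) := by rw [← hmr]; ring
      rw [this]
      ring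
    · rw [he0]
      calc (2 : ℝ) ^ (d.kT - d.kk k) / 2 ^ d.kT / (1200 * d.K) = (2 : ℝ) ^ (d.kT - d.kk k) / (1200 * d.K) * (1 / 2 ^ d.kT) := by
            field_simp
        _ ≤ (d.sep k : ℝ) * (1 / 2 ^ d.kT) := mul_le_mul_of_nonneg_right hs2 (by positivity)
    · rw [hden, he0]
      field_simp
    · exact pow_le_pow_right₀ (by norm_num) hmJ
    · exact_mod_cast Nat.factorial_le hmJ
    · exact pow_le_pow_right₀ (by linarith) (by omega)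
  have hB2 : 1 / (2 : ℝ) ^ (d.kT - d.kk k) ≤ d.N ^ (d.η - 1 / (d.n : ℝ)) := by
    have b1 : d.N ≤ (2 : ℝ) ^ (d.kT - d.kk k) := by
      refine le_trans ?_ (cells_ge h hk')
      nlinarith
    have b2 : 1 / (2 : ℝ) ^ (d.kT - d.kk k) ≤ 1 / d.N := one_div_le_one_div_of_le hN0 b1
    have b3 : 1 / d.N = d.N ^ (-1 : ℝ) := by rw [Real.rpow_neg_one, one_div]
    refine b2.trans (b3 ▸ hb_mono h ?_)
    have b4 : 1 / (d.n : ℝ) ≤ 1 := by
      rw [div_le_one hn]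
      exact_mod_cast h.n_pos
    have := h.η_pos
    linarith
  have hB : 1 / (2 : ℝ) ^ (d.kT - d.kk k) * (2 * d.rho k / den + 1)
      ≤ (8 * 2 ^ d.J * (d.J ! : ℝ) * (1200 * d.K) ^ d.J * (76 * d.K + 12) + 1) * d.N ^ (d.η - 1 / (d.n : ℝ)) := by
    have b5 : 1 / (2 : ℝ) ^ (d.kT - d.kk k) * (2 * d.rho k / den) = 2 * d.rho k / (den * 2 ^ (d.kT - d.kk k)) := by
      field_simp
    have b6 : 2 * d.rho k / (den * 2 ^ (d.kT - d.kk k))
        ≤ 8 * 2 ^ d.J * (d.J ! : ℝ) * (1200 * d.K) ^ d.J * (76 * d.K + 12) * d.N ^ (d.η - 1 / (d.n : ℝ)) := by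
      rw [div_le_iff₀ (mul_pos hden0 hL0)]
      exact hB1
    rw [mul_add, mul_one, b5, add_mul, one_mul]
    exact add_le_add b6 hB2
  -- (C)
  have hCC : (20 * d.K + 5) ^ (2 * (d.J + 1) * (k + 1)) * (20 * d.K + 5) ^ (2 * (d.J + 1) * (k + 1)) ≤ (20 * d.K + 5) ^ (4 * (d.J + 1) * (d.n + 1)) := by
    rw [← pow_add]
    refine pow_le_pow_right₀ (by linarith) ?_
    have e : 2 * (d.J + 1) * (k + 1) + 2 * (d.J + 1) * (k + 1) = 4 * (d.J + 1) * (k + 1) := by ring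
    rw [e]
    exact Nat.mul_le_mul_left _ (by omega)
  -- (D)
  have hD : d.N ^ (d.η - (1 / (d.n : ℝ)) * (1 + 1 / (m : ℝ))) = d.N ^ (-(1 / ((d.n : ℝ) * m))) * d.N ^ (d.η - 1 / (d.n : ℝ)) := by
    rw [← Real.rpow_add hN0]
    congr 1
    field_simp
    ring
  -- assembly
  unfold K3mDat.vv k3mTheta
  rw [← hden, hD]
  have hP0 : 0 ≤ (20 * d.K + 5) ^ (2 * (d.J + 1) * (k + 1)) := pow_nonneg (by linarith) _
  have hZ0 : 0 ≤ 2 * d.rho k / den + 1 := by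
    have : 0 ≤ d.rho k := mul_nonneg (by linarith) (hb_nonneg h _)
    positivity
  have hNσ := hb_nonneg h σ
  generalize (20 * d.K + 5) ^ (2 * (d.J + 1) * (k + 1)) = Pk at *
  generalize (20 * d.K + 5) ^ (4 * (d.J + 1) * (d.n + 1)) = PP at *
  generalize 2 * d.rho k / den + 1 = Z at *
  generalize (8 * 2 ^ d.J * (d.J ! : ℝ) * (1200 * d.K) ^ d.J * (76 * d.K + 12) + 1) = G at *
  generalize d.N ^ (d.η - 1 / (d.n : ℝ)) = Y2 at *
  generalize d.N ^ (-(1 / ((d.n : ℝ) * m))) = Y1 at *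
  generalize d.N ^ σ = Nσ at *
  generalize (2 : ℝ) ^ (d.kT - d.kk (k + 1)) = L1 at *
  generalize (2 : ℝ) ^ (d.kT - d.kk k) = L0 at *
  have eL : 2 * ((d.K * 30 / L0) ^ 2 * Nσ * Pk * (Pk * Mch * L1 * (2 * Z)))
      = 3600 * d.K ^ 2 * Nσ * Mch * (Pk * Pk * (L1 / L0) * (1 / L0 * Z)) := by
    field_simp
    ring
  have eR : 3 / 5 * (12000 * d.K ^ 2 * PP * G * Nσ * Mch * (Y1 * Y2))
      = 3600 * d.K ^ 2 * Nσ * Mch * (PP * (2 * Y1) * (G * Y2)) := by ring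
  rw [eL, eR]
  refine mul_le_mul_of_nonneg_left ?_ (by positivity)
  have q1 : 0 ≤ L1 / L0 := div_nonneg hL1.le hL0.le
  have q2 : 0 ≤ 1 / L0 * Z := mul_nonneg (by positivity) hZ0
  have q3 : 0 ≤ PP := le_trans (mul_nonneg hP0 hP0) hCC
  have q4 : 0 ≤ 2 * Y1 := q1.trans hA
  exact mul_le_mul (mul_le_mul hCC hA q1 q3) hB q2 (mul_nonneg q3 q4)

/-- **THE INCREMENT** -/
theorem step (h : d.OK D) (s : d.Stp q C k k0 m) (hσ : 0 ≤ σ) (hbad : k3mP d.p (d.bad C k k0 m σ) ≤ 1 / 10)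
    (hch : ∀ A : K3mSt, ((d.st (k + 1) '' {ω | d.p ω ≠ 0 ∧ d.st k ω = A}).ncard : ℝ) ≤ Mch)
    (h32 : 32 * d.K ≤ d.N ^ (2 / (d.n : ℝ) - d.η)) (hN : 1200 * d.K ≤ d.N ^ 2) :
    1 ≤ k3mTheta d.J d.n d.K * d.N ^ σ * Mch * d.N ^ (d.η - (1 / (d.n : ℝ)) * (1 + 1 / (m : ℝ))) := by
  have hM : 0 ≤ Mch := le_trans (Nat.cast_nonneg _) (hch (fun _ => (0, fun _ _ => 0)))
  have h1 := k3m_chain (d.chn_ok h s hσ hbad hch h32 hN)
  have h2 := d.step_arith h s hσ hM hN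
  have h3 : (1 : ℝ) - 3 * (1 / 30) - 1 / 10 - 2 * (1 / 10) ≤
      2 * ((d.K * 30 / 2 ^ (d.kT - d.kk k)) ^ 2 * d.N ^ σ * (20 * d.K + 5) ^ (2 * (d.J + 1) * (k + 1)) * d.vv k m Mch) := h1
  linarith

end K3mDat

end

end Claimed.Agent.R252

end PkS3mStep

section PkS3mMain

/-!
# ROW 252, unit S3m (L3.3 two-colour matching, architect helper93), file Main: EXIT STATEMENTS OF THE UNIT (as `Prop`s; proofs in `Sum.lean`, `Beta.lean`).

* `K3mUniform`  (T2) : no discrete configuration with UNIFORM gap exponents `β` (`K3mDat.OK`), list `true` of size `≤ N^(d0 + ε)`, `K ≤ N^ε`, `η ≤ ε`, `N` large.   Proof: `Sum.lean`.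
* `K3mDiscrete` (T1) : no discrete configuration (`K3mDat.Raw`: values `K/N`-close, some derivative gap of order `1..D` is `≥ 1/K`).   Proof: pigeonholing of the gaps (03 l.323-333) + T2: `Beta.lean`.
The continuous statement (density on `[0,1]`) is `k3a_matching` (`S3a/Contract.lean`, helper10) = discretisation of the time + T1.
In `Raw` the fields `n`, `η`, `β` of `K3mDat` are NOT used.
-/

set_option autoImplicit false
set_option linter.unusedSectionVars false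

namespace Claimed.Agent.R252

open scoped BigOperators Nat
open Finset

noncomputable section

/-- hypotheses on a discrete configuration, before the pigeonholing of the gaps -/
structure K3mDat.Raw {Ω : Type} [Fintype Ω] (d : K3mDat Ω) (D : ℕ) : Prop where
  hD : 1 ≤ D
  hJ : D < d.J
  N_ge : 2 ≤ d.N
  K_ge : 1 ≤ d.K
  kT_ge : d.N ^ 3 ≤ 2 ^ d.kT
  law : K3mLaw d.p
  jet : ∀ col i, K3mJet (d.F col i) (d.J + 1)
  bound : ∀ col i j, j ≤ d.J + 1 → ∀ t ∈ Set.Icc (0 : ℝ) 1, |d.F col i j t| ≤ d.K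
  idx_lt : ∀ ω, d.p ω ≠ 0 → ∀ col, d.idx col ω < d.nn col
  tc_lt : ∀ ω, d.tc ω < 2 ^ d.kT
  val : ∀ ω, d.p ω ≠ 0 → d.gap 0 ω ≤ d.K / d.N
  der : ∀ ω, d.p ω ≠ 0 → ∃ j, 1 ≤ j ∧ j ≤ D ∧ 1 / d.K ≤ d.gap j ω
  π_nonneg : ∀ col i, 0 ≤ d.π col i
  π_sum : ∀ col, ∑ i ∈ range (d.nn col), d.π col i ≤ 1
  marg : ∀ col i c, k3mP d.p {ω | d.idx col ω = i ∧ d.tc ω = c} ≤ d.K * d.π col i / 2 ^ d.kT

/-- **T2** -/
def K3mUniform (D J : ℕ) (d0 : ℝ) : Prop :=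
  ∃ (n : ℕ) (ε N0 : ℝ), 1 ≤ n ∧ 0 < ε ∧ ∀ (Ω : Type) [Fintype Ω] (d : K3mDat Ω), d.J = J → d.n = n → d.OK D → N0 ≤ d.N → d.K ≤ d.N ^ ε → d.η ≤ ε →
    (d.nn true : ℝ) ≤ d.N ^ (d0 + ε) → False

/-- **T1** -/
def K3mDiscrete (D J : ℕ) (d0 : ℝ) : Prop :=
  ∃ (ε N0 : ℝ), 0 < ε ∧ ∀ (Ω : Type) [Fintype Ω] (d : K3mDat Ω), d.J = J → d.Raw D → N0 ≤ d.N → d.K ≤ d.N ^ ε →
    (d.nn true : ℝ) ≤ d.N ^ (d0 + ε) → False

theorem k3m_main_eqns_cite : True := by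
  have := @K3mUniform.eq_1
  have := @K3mDiscrete.eq_1
  trivial

end

end Claimed.Agent.R252

end PkS3mMain

section PkS3mSum

/-!
# ROW 252, unit S3m (L3.3 two-colour matching, architect helper93), file Sum.     CONTRACT file: the `sorry`s are the leaves L-252-K3M-U*.

PROOF OF T2 (`K3mUniform`): selection of a uniform tree (`reselect`), most steps are good (`gd_card`), increment on the good steps (`incr`), summation (`k3m_sum`), support bound (`logb_ssz`),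
choice of the constants (`k3m_numerics`).      03 l.431-462, l.742-775.
-/

set_option autoImplicit false
set_option linter.unusedSectionVars false

namespace Claimed.Agent.R252

open scoped BigOperators Nat
open Finset

noncomputable section

namespace K3mDat

variable {Ω : Type} [Fintype Ω] {d : K3mDat Ω} {D : ℕ}

/-- change of the law and of the loss -/
def upd (d : K3mDat Ω) (p' : Ω → ℝ) (K' : ℝ) : K3mDat Ω := { d with p := p', K := K' }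

/-- bound for the number of states of the last level -/
def ssz (d : K3mDat Ω) : ℝ := d.nn true * 2 ^ d.kk d.n * (10 * d.K + 3) ^ ((d.J + 1) * (d.n + 1))

/-- loss of the selection -/
def cs (d : K3mDat Ω) (ηs : ℝ) : ℝ := 2 * (Real.logb d.N (2 * d.ssz) / ηs + 1) ^ (d.n + 1)

/-- the good steps -/
def gd (d : K3mDat Ω) (q C : ℕ) (σ : ℝ) : Set ℕ := {k | k < d.n ∧ ∃ m k0, d.Stp q C k k0 m ∧ k3mP d.p (d.bad C k k0 m σ) ≤ 1 / 10}

theorem k3m_sum_eqns_cite : True := by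
  have := @K3mDat.upd.eq_1
  have := @K3mDat.ssz.eq_1
  have := @K3mDat.cs.eq_1
  have := @K3mDat.gd.eq_1
  trivial

theorem upd_st (d : K3mDat Ω) (p' : Ω → ℝ) (K' : ℝ) : (d.upd p' K').st = d.st := rfl

/-- **U1** `1 ≤ ssz` (it bounds the `ncard` of a nonempty set: `st_supp_card`, the support is nonempty), hence `0 ≤ logb N (2 ssz)` and `2 ≤ cs`. -/
theorem cs_ge (h : d.OK D) {ηs : ℝ} (hηs : 0 < ηs) : 1 ≤ d.ssz ∧ 0 ≤ Real.logb d.N (2 * d.ssz) ∧ 2 ≤ d.cs ηs := by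
  have hsupp : ∃ ω, d.p ω ≠ 0 := by
    by_contra hne
    push Not at hne
    have h1 := h.law.sum_one
    rw [Finset.sum_congr rfl (fun ω _ => hne ω), Finset.sum_const_zero] at h1
    exact zero_ne_one h1
  obtain ⟨ω, hω⟩ := hsupp
  have hne : (d.st d.n '' {ω | d.p ω ≠ 0}).Nonempty := ⟨_, ω, hω, rfl⟩
  have hfin : (d.st d.n '' {ω | d.p ω ≠ 0}).Finite := (Set.toFinite _).image _
  have hpos : 0 < (d.st d.n '' {ω | d.p ω ≠ 0}).ncard := (Set.ncard_pos hfin).2 hne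
  have h1 : 1 ≤ d.ssz := by
    have h2 : (1 : ℝ) ≤ ((d.st d.n '' {ω | d.p ω ≠ 0}).ncard : ℝ) := by exact_mod_cast hpos
    exact h2.trans (K3mDat.st_supp_card h)
  have h2 : 0 ≤ Real.logb d.N (2 * d.ssz) := Real.logb_nonneg (by linarith [h.N_ge]) (by linarith)
  refine ⟨h1, h2, ?_⟩
  unfold K3mDat.cs
  have h3 : 0 ≤ Real.logb d.N (2 * d.ssz) / ηs := div_nonneg h2 hηs.le
  have h4 : (1 : ℝ) ≤ (Real.logb d.N (2 * d.ssz) / ηs + 1) ^ (d.n + 1) := one_le_pow₀ (by linarith)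
  linarith

/-- **U1** a law `p' ≤ c p` (`c ≥ 1`) gives again a configuration, with the loss `K c`.  Field by field; `p' ω ≠ 0 → p ω ≠ 0`; `marg`: `k3mP p' A ≤ c * k3mP p A`. -/
theorem upd_ok (h : d.OK D) {p' : Ω → ℝ} (hp' : K3mLaw p') {c : ℝ} (hc : 1 ≤ c) (hle : ∀ ω, p' ω ≤ c * d.p ω) : (d.upd p' (d.K * c)).OK D := by
  have hK0 : 0 ≤ d.K := by linarith [h.K_ge]
  have hKc : d.K ≤ d.K * c := le_mul_of_one_le_right hK0 hc
  have hN0 : 0 < d.N := d.N_pos h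
  have hsupp : ∀ ω, p' ω ≠ 0 → d.p ω ≠ 0 := fun ω hω h0 => by
    have h1 := hle ω
    rw [h0, mul_zero] at h1
    exact hω (le_antisymm h1 (hp'.nonneg ω))
  have hP : ∀ A : Set Ω, k3mP p' A ≤ c * k3mP d.p A := fun A => by
    unfold k3mP
    rw [Finset.mul_sum]
    refine Finset.sum_le_sum fun ω _ => ?_
    by_cases hω : ω ∈ A
    · rw [Set.indicator_of_mem hω, Set.indicator_of_mem hω]
      exact hle ω
    · rw [Set.indicator_of_notMem hω, Set.indicator_of_notMem hω, mul_zero]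
  exact
    { beta := h.beta
      n_pos := h.n_pos
      N_ge := h.N_ge
      K_ge := h.K_ge.trans hKc
      η_pos := h.η_pos
      kT_ge := h.kT_ge
      law := hp'
      jet := h.jet
      bound := fun col i j hj t ht => (h.bound col i j hj t ht).trans hKc
      idx_lt := fun ω hω => h.idx_lt ω (hsupp ω hω)
      tc_lt := h.tc_lt
      gap_le := fun ω hω j hj => (h.gap_le ω (hsupp ω hω) j hj).trans (mul_le_mul_of_nonneg_right hKc (Real.rpow_nonneg hN0.le _))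
      gap_ge := fun ω hω => h.gap_ge ω (hsupp ω hω)
      π_nonneg := h.π_nonneg
      π_sum := h.π_sum
      marg := fun col i t => by
        have h1 := hP {ω | d.idx col ω = i ∧ d.tc ω = t}
        have h2 := mul_le_mul_of_nonneg_left (h.marg col i t) (by linarith : (0 : ℝ) ≤ c)
        have h3 : c * (d.K * d.π col i / 2 ^ d.kT) = d.K * c * d.π col i / 2 ^ d.kT := by ring
        rw [h3] at h2
        exact h1.trans h2 }

/-- **selection**: `k3m_select` for `F = d.st` (`st_nest`, `st_supp_card`) + `upd_ok` -/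
theorem reselect (h : d.OK D) {ηs : ℝ} (hηs : 0 < ηs) :
    ∃ (p' : Ω → ℝ) (u : ℕ → ℝ), (d.upd p' (d.K * d.cs ηs)).OK D ∧ (∀ k, k < d.n → u k ≤ u (k + 1)) ∧ 0 ≤ u 0 ∧ u d.n ≤ Real.logb d.N (2 * d.ssz) ∧
      ∀ k, k + 1 ≤ d.n → ∀ A : K3mSt, ((d.st (k + 1) '' {ω | p' ω ≠ 0 ∧ d.st k ω = A}).ncard : ℝ) ≤ d.N ^ (u (k + 1) - u k + ηs) := by
  obtain ⟨p', u, hp', hle, hu, hu0, hun, hch⟩ := k3m_select h.law d.n d.st d.st_nest (N := d.N) (η := ηs) (Ssz := d.ssz)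
    (by linarith [h.N_ge]) hηs (K3mDat.st_supp_card h)
  refine ⟨p', u, d.upd_ok h hp' (by linarith [(d.cs_ge h hηs).2.2]) hle, hu, hu0, hun, fun k hk A => hch k (k + 1) (Nat.le_succ k) hk A⟩

/-- **U2** most steps are good.  `{k < n, k ∉ gd} ⊆ {unusable} ∪ ⋃_{1 ≤ m ≤ J} B m`, `B m` = usable steps with order `m` where the palette anchored at `k0 m` := the FIRST usable step of order `m` is bad.
`k3m_unusable_card`;  `k3m_palette_bad` with `F = d.st`, `Z = d.pal (k0 m) m`, `k0 = k0 m`, `L = n - k0 m`, `M = (N^(2/n)+2)^2` (`pal_card`), `T = (n+C)^2`, `Γ = N^σ`, `ζ = 1/10`: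
`(C v + L (L + C)/T)/ζ ≤ 10 (C v + 1)`. -/
theorem gd_card (h : d.OK D) {q C v : ℕ} (hC : 2 * d.J ≤ C) (hq : 2 * d.J ≤ q) {σ : ℝ} (hσ : 0 ≤ σ)
    (hv : (d.N ^ (2 / (d.n : ℝ)) + 2) ^ 2 * (((d.n : ℝ) + C) ^ 2) ^ (d.n + 1) < (d.N ^ σ) ^ (v + 1)) :
    (({k | k < d.n ∧ k ∉ d.gd q C σ} : Set ℕ).ncard : ℝ) ≤ ((d.J : ℝ) + 1) * (q + C) + d.J * (10 * (C * v + 1)) := by
  classical
  have hJ1 : 1 ≤ d.J := d.J_pos h
  have hC1 : 1 ≤ C := by omega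
  have hN1 : 1 ≤ d.N := by linarith [h.N_ge]
  have hN0 : 0 < d.N := by linarith
  have hn1 : (1 : ℝ) ≤ d.n := by exact_mod_cast h.n_pos
  obtain ⟨k0, hk0⟩ : ∃ k0 : ℕ → ℕ, ∀ m, (∃ k, K3mUs d.J d.n d.β q C k m) →
      K3mUs d.J d.n d.β q C (k0 m) m ∧ ∀ k, K3mUs d.J d.n d.β q C k m → k0 m ≤ k := by
    refine ⟨fun m => if hm : ∃ k, K3mUs d.J d.n d.β q C k m then Nat.find hm else 0, fun m hm => ?_⟩
    simp only [dif_pos hm]
    exact ⟨Nat.find_spec hm, fun k hk => Nat.find_min' hm hk⟩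
  obtain ⟨U, hU⟩ : ∃ U : Set ℕ, U = {k | k < d.n ∧ ¬ ∃ m, K3mUs d.J d.n d.β q C k m} := ⟨_, rfl⟩
  obtain ⟨B, hB⟩ : ∃ B : ℕ → Set ℕ, B = fun m => {k | k < d.n ∧ K3mUs d.J d.n d.β q C k m ∧ 1 / 10 < k3mP d.p (d.bad C k (k0 m) m σ)} := ⟨_, rfl⟩
  have hsub : ({k | k < d.n ∧ k ∉ d.gd q C σ} : Set ℕ) ⊆ U ∪ ⋃ i : Fin d.J, B ((i : ℕ) + 1) := by
    rintro k ⟨hkn, hkg⟩
    by_cases hus : ∃ m, K3mUs d.J d.n d.β q C k m
    · obtain ⟨m, hm⟩ := hus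
      right
      obtain ⟨h0, hmin⟩ := hk0 m ⟨k, hm⟩
      have hm1 : 1 ≤ m := hm.1
      have hmJ : m ≤ d.J := hm.2.1
      refine Set.mem_iUnion.2 ⟨⟨m - 1, by omega⟩, ?_⟩
      have e : (m - 1) + 1 = m := by omega
      show k ∈ B ((m - 1) + 1)
      rw [e, hB]
      refine ⟨hkn, hm, ?_⟩
      by_contra hle
      exact hkg ⟨hkn, m, k0 m, ⟨hC, hq, hm, h0, hmin k hm⟩, not_lt.1 hle⟩
    · left
      rw [hU]
      exact ⟨hkn, hus⟩
  have hBfin : ∀ m, (B m).Finite := fun m => (Set.finite_lt_nat d.n).subset (by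
    rw [hB]
    exact fun k hk => hk.1)
  have hUfin : U.Finite := (Set.finite_lt_nat d.n).subset (by
    rw [hU]
    exact fun k hk => hk.1)
  have hBm : ∀ m, ((B m).ncard : ℝ) ≤ 10 * (C * v + 1) := fun m => by
    by_cases hm : ∃ k, K3mUs d.J d.n d.β q C k m
    · obtain ⟨h0, hmin⟩ := hk0 m hm
      obtain ⟨L, hL⟩ : ∃ L, L = d.n - k0 m := ⟨_, rfl⟩
      have hLn : L ≤ d.n := by omega
      have hLn' : (L : ℝ) ≤ d.n := by exact_mod_cast hLn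
      have hT1 : (1 : ℝ) ≤ ((d.n : ℝ) + C) ^ 2 := one_le_pow₀ (by
        have : (0 : ℝ) ≤ C := Nat.cast_nonneg C
        linarith)
      have hv' : (d.N ^ (2 / (d.n : ℝ)) + 2) ^ 2 * (((d.n : ℝ) + C) ^ 2) ^ (L + 1) < (d.N ^ σ) ^ (v + 1) :=
        lt_of_le_of_lt (mul_le_mul_of_nonneg_left (pow_le_pow_right₀ hT1 (by omega)) (by positivity)) hv
      have hpb := k3m_palette_bad h.law d.st d.st_nest (d.pal (k0 m) m) (k0 m) L C v hC1 (M := (d.N ^ (2 / (d.n : ℝ)) + 2) ^ 2)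
        (T := ((d.n : ℝ) + C) ^ 2) (Γ := d.N ^ σ) (ζ := 1 / 10) hT1 (Real.one_le_rpow hN1 hσ) (by norm_num) (fun ω => d.pal_card h h0 ω) hv'
      set S : Set ℕ := {k | k < L ∧ 1 / 10 < k3mP d.p {ω | d.N ^ σ * k3mX d.p (d.st (k0 m + k)) (d.pal (k0 m) m) ω
        < k3mX d.p (d.st (k0 m + k + C)) (d.pal (k0 m) m) ω}} with hS
      have hSfin : S.Finite := (Set.finite_lt_nat L).subset fun k hk => hk.1
      have hBS : B m ⊆ (fun k => k0 m + k) '' S := by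
        rw [hB]
        rintro k ⟨hkn, hkm, hkb⟩
        have hk0k := hmin k hkm
        have e : k0 m + (k - k0 m) = k := by omega
        refine ⟨k - k0 m, ⟨by omega, ?_⟩, e⟩
        rw [e]
        exact hkb
      have h1 : (B m).ncard ≤ S.ncard := (Set.ncard_le_ncard hBS (hSfin.image _)).trans (Set.ncard_image_le hSfin)
      have h2 : ((B m).ncard : ℝ) ≤ S.ncard := by exact_mod_cast h1
      refine h2.trans (hpb.trans ?_)
      have hT0 : (0 : ℝ) < ((d.n : ℝ) + C) ^ 2 := by linarith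
      have h3 : (L : ℝ) * (L + C) / ((d.n : ℝ) + C) ^ 2 ≤ 1 := by
        rw [div_le_one hT0, sq]
        have hC0 : (0 : ℝ) ≤ C := Nat.cast_nonneg C
        have hL0 : (0 : ℝ) ≤ L := Nat.cast_nonneg L
        exact mul_le_mul (by linarith) (by linarith) (by linarith) (by linarith)
      rw [div_le_iff₀ (by norm_num)]
      linarith
    · have : B m = ∅ := by
        rw [hB]
        ext k
        exact ⟨fun hk => hm ⟨k, hk.2.1⟩, fun hk => hk.elim⟩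
      rw [this, Set.ncard_empty, Nat.cast_zero]
      positivity
  have hUc : (U.ncard : ℝ) ≤ ((d.J : ℝ) + 1) * (q + C) := by
    have := k3m_unusable_card h.beta h.n_pos q C
    rw [← hU] at this
    exact_mod_cast this
  have hfin : (U ∪ ⋃ i : Fin d.J, B ((i : ℕ) + 1)).Finite := hUfin.union (Set.finite_iUnion fun i => hBfin _)
  calc (({k | k < d.n ∧ k ∉ d.gd q C σ} : Set ℕ).ncard : ℝ) ≤ ((U ∪ ⋃ i : Fin d.J, B ((i : ℕ) + 1)).ncard : ℝ) := by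
        exact_mod_cast Set.ncard_le_ncard hsub hfin
    _ ≤ (U.ncard : ℝ) + ((⋃ i : Fin d.J, B ((i : ℕ) + 1)).ncard : ℝ) := by exact_mod_cast Set.ncard_union_le _ _
    _ ≤ (U.ncard : ℝ) + ((∑ i : Fin d.J, (B ((i : ℕ) + 1)).ncard : ℕ) : ℝ) := by
        have := Set.ncard_iUnion_le_of_fintype fun i : Fin d.J => B ((i : ℕ) + 1)
        have h2 : ((⋃ i : Fin d.J, B ((i : ℕ) + 1)).ncard : ℝ) ≤ ((∑ i : Fin d.J, (B ((i : ℕ) + 1)).ncard : ℕ) : ℝ) := by exact_mod_cast this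
        linarith
    _ = (U.ncard : ℝ) + ∑ i : Fin d.J, ((B ((i : ℕ) + 1)).ncard : ℝ) := by push_cast; rfl
    _ ≤ ((d.J : ℝ) + 1) * (q + C) + ∑ _i : Fin d.J, (10 * ((C : ℝ) * v + 1)) := add_le_add hUc (Finset.sum_le_sum fun i _ => hBm _)
    _ = ((d.J : ℝ) + 1) * (q + C) + d.J * (10 * (C * v + 1)) := by
        rw [Finset.sum_const, Finset.card_univ, Fintype.card_fin, nsmul_eq_mul]

/-- **U3** the increment in exponent form: `step` and `1 ≤ N^x → 0 ≤ x`. -/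
theorem incr (h : d.OK D) {q C k : ℕ} {σ ηs θ x : ℝ} (hσ : 0 ≤ σ) (hk : k ∈ d.gd q C σ)
    (hch : ∀ A : K3mSt, ((d.st (k + 1) '' {ω | d.p ω ≠ 0 ∧ d.st k ω = A}).ncard : ℝ) ≤ d.N ^ (x + ηs))
    (h32 : 32 * d.K ≤ d.N ^ (2 / (d.n : ℝ) - d.η)) (hN : 1200 * d.K ≤ d.N ^ 2) (hΘ : k3mTheta d.J d.n d.K ≤ d.N ^ θ) :
    ∃ m, K3mUs d.J d.n d.β q C k m ∧ (1 / (d.n : ℝ)) * (1 + 1 / (m : ℝ)) - (σ + ηs + d.η + θ) ≤ x := by
  obtain ⟨-, m, k0, s, hbad⟩ := hk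
  refine ⟨m, s.us, ?_⟩
  have hN0 : 0 < d.N := d.N_pos h
  have hN1 : 1 < d.N := by linarith [h.N_ge]
  have h1 := d.step h s hσ hbad hch h32 hN
  have hp1 : 0 ≤ d.N ^ σ * d.N ^ (x + ηs) * d.N ^ (d.η - (1 / (d.n : ℝ)) * (1 + 1 / (m : ℝ))) := by positivity
  have h2 : (1 : ℝ) ≤ d.N ^ θ * (d.N ^ σ * d.N ^ (x + ηs) * d.N ^ (d.η - (1 / (d.n : ℝ)) * (1 + 1 / (m : ℝ)))) := by
    refine le_trans ?_ (mul_le_mul_of_nonneg_right hΘ hp1)
    calc (1 : ℝ) ≤ _ := h1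
      _ = _ := by ring
  rw [← Real.rpow_add hN0, ← Real.rpow_add hN0, ← Real.rpow_add hN0] at h2
  have h3 : d.N ^ (0 : ℝ) ≤ d.N ^ (θ + (σ + (x + ηs) + (d.η - (1 / (d.n : ℝ)) * (1 + 1 / (m : ℝ))))) := by
    rw [Real.rpow_zero]
    exact h2
  rw [Real.rpow_le_rpow_left_iff hN1] at h3
  linarith

/-- **U4** `2 ssz ≤ 2 N^(d0+ε) (2 N^(r 1)) (10K+3)^(..)`   (`ell_ge` at `k = n`, `a n = 1`) -/
theorem logb_ssz (h : d.OK D) {d0 ε θ1 : ℝ} (hnn : (d.nn true : ℝ) ≤ d.N ^ (d0 + ε)) (h5 : 4 * (10 * d.K + 3) ^ ((d.J + 1) * (d.n + 1)) ≤ d.N ^ θ1) :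
    Real.logb d.N (2 * d.ssz) ≤ d0 + ε + k3mR d.J d.β 1 + θ1 := by
  have hN0 : 0 < d.N := d.N_pos h
  have hN1 : 1 < d.N := by linarith [h.N_ge]
  have hs1 : 1 ≤ d.ssz := (d.cs_ge h one_pos).1
  have han : d.a d.n = 1 := by
    have hn0 : (d.n : ℝ) ≠ 0 := Nat.cast_ne_zero.2 (by have := h.n_pos; omega)
    unfold K3mDat.a k3mA
    exact div_self hn0
  have hr : d.r (d.a d.n) = k3mR d.J d.β 1 := by rw [han]; rfl
  have hkk : (2 : ℝ) ^ d.kk d.n ≤ 2 * d.N ^ (k3mR d.J d.β 1) := by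
    have h1 := d.ell_ge h d.n
    rw [hr] at h1
    have h2 := d.ell_mul_pow d.n
    have h3 : (0 : ℝ) < 2 ^ d.kk d.n := by positivity
    have h4 : d.N ^ (-k3mR d.J d.β 1) / 2 * 2 ^ d.kk d.n ≤ 1 := by
      have h9 := mul_le_mul_of_nonneg_right h1 h3.le
      rwa [h2] at h9
    have h5 : d.N ^ (k3mR d.J d.β 1) * d.N ^ (-k3mR d.J d.β 1) = 1 := d.N_rpow_mul_neg h _
    have h6 : 0 < d.N ^ (k3mR d.J d.β 1) := Real.rpow_pos_of_pos hN0 _
    have h7 := mul_le_mul_of_nonneg_left h4 h6.le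
    have h8 : d.N ^ (k3mR d.J d.β 1) * (d.N ^ (-k3mR d.J d.β 1) / 2 * 2 ^ d.kk d.n) = (d.N ^ (k3mR d.J d.β 1) * d.N ^ (-k3mR d.J d.β 1)) * 2 ^ d.kk d.n / 2 := by ring
    rw [h8, h5] at h7
    linarith
  have hB0 : (0 : ℝ) ≤ (10 * d.K + 3) ^ ((d.J + 1) * (d.n + 1)) := by
    have := h.K_ge
    positivity
  have hle : 2 * d.ssz ≤ d.N ^ (d0 + ε + k3mR d.J d.β 1 + θ1) := by
    rw [Real.rpow_add hN0, Real.rpow_add hN0]
    unfold K3mDat.ssz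
    have h1 : (d.nn true : ℝ) * 2 ^ d.kk d.n ≤ d.N ^ (d0 + ε) * (2 * d.N ^ (k3mR d.J d.β 1)) :=
      mul_le_mul hnn hkk (by positivity) (Real.rpow_nonneg hN0.le _)
    have h2 := mul_le_mul_of_nonneg_right h1 hB0
    have h3 : 0 ≤ d.N ^ (d0 + ε) * d.N ^ (k3mR d.J d.β 1) := by positivity
    have h4 := mul_le_mul_of_nonneg_left h5 h3
    nlinarith
  calc Real.logb d.N (2 * d.ssz) ≤ Real.logb d.N (d.N ^ (d0 + ε + k3mR d.J d.β 1 + θ1)) :=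
        Real.logb_le_logb_of_le hN1 (by linarith) hle
    _ = d0 + ε + k3mR d.J d.β 1 + θ1 := Real.logb_rpow hN0 hN1.ne'

/-- **the core of T2** (glue) -/
theorem uniform_core (h : d.OK D) {q C v : ℕ} {σ ηs θ θ1 d0 ε : ℝ} (hC : 2 * d.J ≤ C) (hq : 2 * d.J ≤ q) (hσ : 0 ≤ σ) (hηs : 0 < ηs) (hθ : 0 ≤ θ)
    (hnn : (d.nn true : ℝ) ≤ d.N ^ (d0 + ε)) (h5 : 4 * (10 * d.K + 3) ^ ((d.J + 1) * (d.n + 1)) ≤ d.N ^ θ1)
    (c1 : 32 * (d.K * d.cs ηs) ≤ d.N ^ (2 / (d.n : ℝ) - d.η)) (c2 : 1200 * (d.K * d.cs ηs) ≤ d.N ^ 2)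
    (c3 : k3mTheta d.J d.n (d.K * d.cs ηs) ≤ d.N ^ θ)
    (c4 : (d.N ^ (2 / (d.n : ℝ)) + 2) ^ 2 * (((d.n : ℝ) + C) ^ 2) ^ (d.n + 1) < (d.N ^ σ) ^ (v + 1)) :
    1 - 2 * (((d.J : ℝ) + 1) * (q + C) + d.J * (10 * (C * v + 1))) / d.n - d.n * (σ + ηs + d.η + θ) ≤ d0 + ε + θ1 := by
  obtain ⟨p', u, hok, hu, hu0, hun, hch⟩ := d.reselect h hηs
  set d' := d.upd p' (d.K * d.cs ηs) with hd'
  have hJ1 : 1 ≤ d.J := d.J_pos h
  have hC1 : 1 ≤ C := by omega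
  have hcard := d'.gd_card hok (q := q) (C := C) (v := v) hC hq hσ c4
  have hδ : 0 ≤ σ + ηs + d.η + θ := by have := h.η_pos; positivity
  have hsum := k3m_sum (q := q) (C := C) h.beta h.n_pos hC1 u hu hu0 (d'.gd q C σ) hδ
    (fun k hk => ⟨hk.1, d'.incr hok hσ hk (hch k hk.1) c1 c2 c3⟩) hcard
  have hl := d.logb_ssz h hnn h5
  have hJe : (d'.J : ℝ) = d.J := rfl
  rw [hJe] at hsum
  linarith

end K3mDat

/-! ## the constants      (leaves L-252-K3M-U5, U6) -/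

/-- **U5** a constant times a power of `K ≤ N^ε` is a small power of `N`.  (`ε = θ/(2 (deg + 1))`, `N0` with `c ≤ N0^(θ/2)`.) -/
theorem k3m_big (c : ℝ) (deg : ℕ) {θ : ℝ} (hθ : 0 < θ) :
    ∃ ε : ℝ, 0 < ε ∧ ∃ N0 : ℝ, 2 ≤ N0 ∧ ∀ N : ℝ, N0 ≤ N → ∀ K : ℝ, 1 ≤ K → K ≤ N ^ ε → c * K ^ deg ≤ N ^ θ := by
  have hd : (0 : ℝ) < 2 * ((deg : ℝ) + 1) := by positivity
  have hc1 : (1 : ℝ) ≤ max c 1 := le_max_right _ _
  have hc0 : (0 : ℝ) < max c 1 := by linarith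
  refine ⟨θ / (2 * ((deg : ℝ) + 1)), by positivity, max 2 ((max c 1) ^ (2 / θ)), le_max_left _ _, fun N hN K hK hKN => ?_⟩
  have hN2 : 2 ≤ N := (le_max_left _ _).trans hN
  have hN0 : 0 < N := by linarith
  have hN1 : 1 ≤ N := by linarith
  have hK0 : 0 ≤ K := by linarith
  have h1 : max c 1 ≤ N ^ (θ / 2) := by
    have h2 : (max c 1) ^ (2 / θ) ≤ N := (le_max_right _ _).trans hN
    have h3 := Real.rpow_le_rpow (Real.rpow_nonneg hc0.le _) h2 (by positivity : 0 ≤ θ / 2)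
    rw [← Real.rpow_mul hc0.le] at h3
    have h4 : 2 / θ * (θ / 2) = 1 := by field_simp
    rwa [h4, Real.rpow_one] at h3
  have h2 : K ^ deg ≤ N ^ (θ / 2) := by
    calc K ^ deg ≤ (N ^ (θ / (2 * ((deg : ℝ) + 1)))) ^ deg := pow_le_pow_left₀ hK0 hKN deg
      _ = N ^ (θ / (2 * ((deg : ℝ) + 1)) * deg) := by rw [← Real.rpow_natCast, ← Real.rpow_mul hN0.le]
      _ ≤ N ^ (θ / 2) := by
          refine Real.rpow_le_rpow_of_exponent_le hN1 ?_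
          rw [div_mul_eq_mul_div, div_le_div_iff₀ hd (by norm_num)]
          nlinarith
  calc c * K ^ deg ≤ max c 1 * K ^ deg := mul_le_mul_of_nonneg_right (le_max_left _ _) (pow_nonneg hK0 _)
    _ ≤ N ^ (θ / 2) * N ^ (θ / 2) := mul_le_mul h1 h2 (pow_nonneg hK0 _) (Real.rpow_nonneg hN0.le _)
    _ = N ^ θ := by rw [← Real.rpow_add hN0]; congr 1; ring

/-- **U5** `k3mTheta` is bounded by a monomial -/
theorem k3mTheta_le (J n : ℕ) : ∃ c : ℝ, 0 ≤ c ∧ ∀ K, 1 ≤ K → k3mTheta J n K ≤ c * K ^ (2 + 4 * (J + 1) * (n + 1) + J + 1) := by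
  refine ⟨12000 * 25 ^ (4 * (J + 1) * (n + 1)) * (8 * 2 ^ J * (J ! : ℝ) * 1200 ^ J * 88 + 1), by positivity, fun K hK => ?_⟩
  have hK0 : 0 ≤ K := by linarith
  unfold k3mTheta
  have h1 : (20 * K + 5) ^ (4 * (J + 1) * (n + 1)) ≤ 25 ^ (4 * (J + 1) * (n + 1)) * K ^ (4 * (J + 1) * (n + 1)) := by
    rw [← mul_pow]
    exact pow_le_pow_left₀ (by positivity) (by linarith) _
  have h2 : 8 * 2 ^ J * (J ! : ℝ) * (1200 * K) ^ J * (76 * K + 12) + 1 ≤ (8 * 2 ^ J * (J ! : ℝ) * 1200 ^ J * 88 + 1) * K ^ (J + 1) := by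
    have h3 : (1 : ℝ) ≤ K ^ (J + 1) := one_le_pow₀ hK
    have h4 : 8 * 2 ^ J * (J ! : ℝ) * (1200 * K) ^ J * (76 * K + 12) ≤ 8 * 2 ^ J * (J ! : ℝ) * (1200 * K) ^ J * (88 * K) :=
      mul_le_mul_of_nonneg_left (by linarith) (by positivity)
    have h5 : 8 * 2 ^ J * (J ! : ℝ) * (1200 * K) ^ J * (88 * K) = 8 * 2 ^ J * (J ! : ℝ) * 1200 ^ J * 88 * K ^ (J + 1) := by
      rw [mul_pow, pow_succ]
      ring
    rw [h5] at h4
    linarith
  calc 12000 * K ^ 2 * (20 * K + 5) ^ (4 * (J + 1) * (n + 1)) * (8 * 2 ^ J * (J ! : ℝ) * (1200 * K) ^ J * (76 * K + 12) + 1)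
      ≤ 12000 * K ^ 2 * (25 ^ (4 * (J + 1) * (n + 1)) * K ^ (4 * (J + 1) * (n + 1))) * ((8 * 2 ^ J * (J ! : ℝ) * 1200 ^ J * 88 + 1) * K ^ (J + 1)) :=
        mul_le_mul (mul_le_mul_of_nonneg_left h1 (by positivity)) h2 (by positivity) (by positivity)
    _ = 12000 * 25 ^ (4 * (J + 1) * (n + 1)) * (8 * 2 ^ J * (J ! : ℝ) * 1200 ^ J * 88 + 1) * K ^ (2 + 4 * (J + 1) * (n + 1) + J + 1) := by
        rw [show 2 + 4 * (J + 1) * (n + 1) + J + 1 = 2 + 4 * (J + 1) * (n + 1) + (J + 1) by ring, pow_add, pow_add]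
        ring

/-- **U6** all the largeness conditions at once (from `k3m_big`, `k3mTheta_le`; `cs0` = the bound for the loss of the selection; take the minimum of the `ε`s and the maximum of the `N0`s).
For the fourth: `(N^(2/n) + 2)^2 ≤ 4 N^(4/n)` as soon as `N^(2/n) ≥ 2`, `(N^σ)^(v+1) = N^(σ (v+1)) ≥ N^(5/n)`, and `4 ((n+C)^2)^(n+1) < N^(1/n)` for large `N`. -/
theorem k3m_numerics (J n C v : ℕ) (hn : 1 ≤ n) {σ θ θ1 cs0 : ℝ} (hσ : 0 < σ) (hθ : 0 < θ) (hθ1 : 0 < θ1) (hcs0 : 1 ≤ cs0) (hσv : 5 / (n : ℝ) ≤ σ * (v + 1)) :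
    ∃ ε : ℝ, 0 < ε ∧ ∃ N0 : ℝ, 2 ≤ N0 ∧ ε ≤ θ1 ∧ ∀ N : ℝ, N0 ≤ N → ∀ K η c : ℝ, 1 ≤ K → K ≤ N ^ ε → η ≤ ε → 1 ≤ c → c ≤ cs0 →
      32 * (K * c) ≤ N ^ (2 / (n : ℝ) - η) ∧ 1200 * (K * c) ≤ N ^ 2 ∧ k3mTheta J n (K * c) ≤ N ^ θ ∧
      (N ^ (2 / (n : ℝ)) + 2) ^ 2 * (((n : ℝ) + C) ^ 2) ^ (n + 1) < (N ^ σ) ^ (v + 1) ∧ 4 * (10 * K + 3) ^ ((J + 1) * (n + 1)) ≤ N ^ θ1 := by
  have hn0 : (0 : ℝ) < n := by exact_mod_cast hn
  have hcs00 : (0 : ℝ) ≤ cs0 := by linarith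
  obtain ⟨ε1, hε1, N1, -, H1⟩ := k3m_big (32 * cs0) 1 (θ := 1 / (n : ℝ)) (by positivity)
  obtain ⟨ε2, hε2, N2, hN2, H2⟩ := k3m_big (1200 * cs0) 1 (θ := 2) (by norm_num)
  obtain ⟨cθ, hcθ, Hθ⟩ := k3mTheta_le J n
  obtain ⟨ε3, hε3, N3, -, H3⟩ := k3m_big (cθ * cs0 ^ (2 + 4 * (J + 1) * (n + 1) + J + 1)) (2 + 4 * (J + 1) * (n + 1) + J + 1) hθ
  obtain ⟨ε4, hε4, N4, -, H4⟩ := k3m_big (4 * (((n : ℝ) + C) ^ 2) ^ (n + 1) + 1) 0 (θ := 1 / (n : ℝ)) (by positivity)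
  obtain ⟨ε5, hε5, N5, -, H5⟩ := k3m_big 2 0 (θ := 2 / (n : ℝ)) (by positivity)
  obtain ⟨ε6, hε6, N6, -, H6⟩ := k3m_big (4 * 13 ^ ((J + 1) * (n + 1))) ((J + 1) * (n + 1)) hθ1
  obtain ⟨ε, hεdef⟩ : ∃ ε, ε = min ε1 (min ε2 (min ε3 (min ε6 (min θ1 (1 / (n : ℝ)))))) := ⟨_, rfl⟩
  obtain ⟨N0, hN0def⟩ : ∃ N0, N0 = max N1 (max N2 (max N3 (max N4 (max N5 N6)))) := ⟨_, rfl⟩
  have e1 : ε ≤ ε1 := by rw [hεdef]; exact min_le_left _ _
  have e2 : ε ≤ ε2 := by rw [hεdef]; exact (min_le_right _ _).trans (min_le_left _ _)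
  have e3 : ε ≤ ε3 := by rw [hεdef]; exact (min_le_right _ _).trans ((min_le_right _ _).trans (min_le_left _ _))
  have e6 : ε ≤ ε6 := by rw [hεdef]; exact (min_le_right _ _).trans ((min_le_right _ _).trans ((min_le_right _ _).trans (min_le_left _ _)))
  have e7 : ε ≤ θ1 := by
    rw [hεdef]; exact (min_le_right _ _).trans ((min_le_right _ _).trans ((min_le_right _ _).trans ((min_le_right _ _).trans (min_le_left _ _))))
  have e8 : ε ≤ 1 / (n : ℝ) := by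
    rw [hεdef]; exact (min_le_right _ _).trans ((min_le_right _ _).trans ((min_le_right _ _).trans ((min_le_right _ _).trans (min_le_right _ _))))
  have hεpos : 0 < ε := by
    rw [hεdef]; exact lt_min hε1 (lt_min hε2 (lt_min hε3 (lt_min hε6 (lt_min hθ1 (by positivity)))))
  have n1 : N1 ≤ N0 := by rw [hN0def]; exact le_max_left _ _
  have n2 : N2 ≤ N0 := by rw [hN0def]; exact (le_max_left _ _).trans (le_max_right _ _)
  have n3 : N3 ≤ N0 := by rw [hN0def]; exact (le_max_left _ _).trans ((le_max_right _ _).trans (le_max_right _ _))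
  have n4 : N4 ≤ N0 := by rw [hN0def]; exact (le_max_left _ _).trans ((le_max_right _ _).trans ((le_max_right _ _).trans (le_max_right _ _)))
  have n5 : N5 ≤ N0 := by
    rw [hN0def]; exact (le_max_left _ _).trans ((le_max_right _ _).trans ((le_max_right _ _).trans ((le_max_right _ _).trans (le_max_right _ _))))
  have n6 : N6 ≤ N0 := by
    rw [hN0def]; exact (le_max_right _ _).trans ((le_max_right _ _).trans ((le_max_right _ _).trans ((le_max_right _ _).trans (le_max_right _ _))))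
  refine ⟨ε, hεpos, N0, hN2.trans n2, e7, fun N hN K η c hK hKN hη hc hccs => ?_⟩
  have hNge2 : 2 ≤ N := (hN2.trans n2).trans hN
  have hN0 : 0 < N := by linarith
  have hN1 : 1 ≤ N := by linarith
  have hK0 : 0 ≤ K := by linarith
  have hc0 : 0 ≤ c := by linarith
  have hKi : ∀ ε', ε ≤ ε' → K ≤ N ^ ε' := fun ε' he => hKN.trans (Real.rpow_le_rpow_of_exponent_le hN1 he)
  have hKc : K * c ≤ cs0 * K := by rw [mul_comm]; exact mul_le_mul_of_nonneg_right hccs hK0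
  have hone : ∀ ε' : ℝ, 0 < ε' → (1 : ℝ) ≤ N ^ ε' := fun ε' he => Real.one_le_rpow hN1 he.le
  refine ⟨?_, ?_, ?_, ?_, ?_⟩
  · have h1 := H1 N (n1.trans hN) K hK (hKi _ e1)
    rw [pow_one] at h1
    have h2 : N ^ (1 / (n : ℝ)) ≤ N ^ (2 / (n : ℝ) - η) := by
      refine Real.rpow_le_rpow_of_exponent_le hN1 ?_
      have h3 : 2 / (n : ℝ) = 1 / n + 1 / n := by ring
      rw [h3]
      linarith
    calc 32 * (K * c) ≤ 32 * cs0 * K := by linarith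
      _ ≤ _ := h1.trans h2
  · have h1 := H2 N (n2.trans hN) K hK (hKi _ e2)
    rw [pow_one, Real.rpow_two] at h1
    linarith
  · have h1 := H3 N (n3.trans hN) K hK (hKi _ e3)
    have h2 := Hθ (K * c) (one_le_mul_of_one_le_of_one_le hK hc)
    refine h2.trans (le_trans ?_ h1)
    generalize 2 + 4 * (J + 1) * (n + 1) + J + 1 = E
    rw [mul_pow, mul_assoc cθ]
    refine mul_le_mul_of_nonneg_left ?_ hcθ
    rw [mul_comm]
    exact mul_le_mul_of_nonneg_right (pow_le_pow_left₀ hc0 hccs _) (pow_nonneg hK0 _)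
  · have h4 := H4 N (n4.trans hN) 1 le_rfl (hone _ hε4)
    have h5 := H5 N (n5.trans hN) 1 le_rfl (hone _ hε5)
    rw [pow_zero, mul_one] at h4 h5
    set A : ℝ := N ^ (2 / (n : ℝ)) with hA
    set T' : ℝ := (((n : ℝ) + C) ^ 2) ^ (n + 1) with hT'
    have hT0 : 0 ≤ T' := by positivity
    have hA0 : 0 < A := by linarith
    have hsq : (A + 2) ^ 2 ≤ 4 * A ^ 2 := by nlinarith
    have hpow : A ^ 2 * N ^ (1 / (n : ℝ)) = N ^ (5 / (n : ℝ)) := by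
      rw [hA, ← Real.rpow_natCast, ← Real.rpow_mul hN0.le, ← Real.rpow_add hN0]
      congr 1
      push_cast
      ring
    have hfin : N ^ (5 / (n : ℝ)) ≤ (N ^ σ) ^ (v + 1) := by
      rw [← Real.rpow_natCast (N ^ σ), ← Real.rpow_mul hN0.le]
      refine Real.rpow_le_rpow_of_exponent_le hN1 ?_
      push_cast
      exact hσv
    calc (A + 2) ^ 2 * T' ≤ 4 * A ^ 2 * T' := mul_le_mul_of_nonneg_right hsq hT0
      _ = A ^ 2 * (4 * T') := by ring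
      _ < A ^ 2 * N ^ (1 / (n : ℝ)) := mul_lt_mul_of_pos_left (by linarith) (by positivity)
      _ = N ^ (5 / (n : ℝ)) := hpow
      _ ≤ _ := hfin
  · have h1 := H6 N (n6.trans hN) K hK (hKi _ e6)
    refine le_trans ?_ h1
    rw [mul_assoc, ← mul_pow]
    exact mul_le_mul_of_nonneg_left (pow_le_pow_left₀ (by positivity) (by linarith) _) (by norm_num)

/-- **T2** -/
theorem k3m_uniform (D J : ℕ) (hD : 1 ≤ D) (hJ : D < J) (d0 : ℝ) (hd0 : d0 < 1) : K3mUniform D J d0 := by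
  have hg : 0 < 1 - d0 := by linarith
  obtain ⟨g, hgdef⟩ : ∃ g, g = 1 - d0 := ⟨_, rfl⟩
  rw [← hgdef] at hg
  obtain ⟨v, hv⟩ : ∃ v : ℕ, 5 / (g / 8) ≤ (v : ℝ) := exists_nat_ge _
  obtain ⟨Bd, hBd⟩ : ∃ Bd : ℝ, Bd = ((J : ℝ) + 1) * (((2 * J : ℕ) : ℝ) + ((2 * J : ℕ) : ℝ)) + J * (10 * (((2 * J : ℕ) : ℝ) * v + 1)) := ⟨_, rfl⟩
  have hBd0 : 0 ≤ Bd := by rw [hBd]; positivity
  obtain ⟨n, hn1, hn⟩ : ∃ n : ℕ, 1 ≤ n ∧ 16 * Bd / g ≤ (n : ℝ) := by
    obtain ⟨n, hn⟩ := exists_nat_ge (16 * Bd / g)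
    exact ⟨n + 1, by omega, by push_cast; linarith⟩
  have hnpos : (0 : ℝ) < n := by exact_mod_cast hn1
  have hn1' : (1 : ℝ) ≤ n := by exact_mod_cast hn1
  have hσ : 0 < g / 8 / n := by positivity
  have hs : 0 < g / (32 * n) := by positivity
  have hσv : 5 / (n : ℝ) ≤ g / 8 / n * ((v : ℝ) + 1) := by
    have h1 : 5 ≤ g / 8 * ((v : ℝ) + 1) := by
      have h2 : 5 / (g / 8) * (g / 8) = 5 := by field_simp
      nlinarith [mul_le_mul_of_nonneg_right hv (by positivity : (0 : ℝ) ≤ g / 8)]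
    rw [div_mul_eq_mul_div]
    exact div_le_div_of_nonneg_right h1 hnpos.le
  have hcs0 : (1 : ℝ) ≤ 2 * (4 / (g / (32 * n)) + 1) ^ (n + 1) := by
    have h0 : 0 ≤ 4 / (g / (32 * n)) := by positivity
    have h1 : (1 : ℝ) ≤ (4 / (g / (32 * n)) + 1) ^ (n + 1) := one_le_pow₀ (by linarith)
    linarith
  obtain ⟨ε, hε, N0, hN0, hεθ, hnum⟩ := k3m_numerics J n (2 * J) v hn1 hσ hs hs hcs0 hσv
  refine ⟨n, ε, N0, hn1, hε, ?_⟩
  intro Ω _ d hJd hnd h hN hK hη hnn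
  subst hJd
  subst hnd
  have hs1 : g / (32 * (d.n : ℝ)) ≤ g / 32 := by
    rw [div_le_div_iff₀ (by positivity) (by norm_num)]
    nlinarith
  obtain ⟨-, -, -, -, h5⟩ := hnum d.N hN d.K d.η 1 h.K_ge hK hη le_rfl hcs0
  have hl := d.logb_ssz h hnn h5
  have hr1 : k3mR d.J d.β 1 ≤ 1 := k3mR_le_self h.beta zero_le_one
  obtain ⟨-, hl0, hcs2⟩ := d.cs_ge h hs
  have hl4 : Real.logb d.N (2 * d.ssz) ≤ 4 := by linarith
  have hcsle : d.cs (g / (32 * (d.n : ℝ))) ≤ 2 * (4 / (g / (32 * (d.n : ℝ))) + 1) ^ (d.n + 1) := by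
    unfold K3mDat.cs
    have h1 : Real.logb d.N (2 * d.ssz) / (g / (32 * (d.n : ℝ))) ≤ 4 / (g / (32 * (d.n : ℝ))) :=
      div_le_div_of_nonneg_right hl4 hs.le
    have h2 : 0 ≤ Real.logb d.N (2 * d.ssz) / (g / (32 * (d.n : ℝ))) := div_nonneg hl0 hs.le
    have h3 := pow_le_pow_left₀ (by linarith : 0 ≤ Real.logb d.N (2 * d.ssz) / (g / (32 * (d.n : ℝ))) + 1)
      (by linarith : Real.logb d.N (2 * d.ssz) / (g / (32 * (d.n : ℝ))) + 1 ≤ 4 / (g / (32 * (d.n : ℝ))) + 1) (d.n + 1)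
    linarith
  obtain ⟨c1, c2, c3, c4, -⟩ := hnum d.N hN d.K d.η (d.cs (g / (32 * (d.n : ℝ)))) h.K_ge hK hη (by linarith) hcsle
  have hcore := d.uniform_core h (q := 2 * d.J) (C := 2 * d.J) (v := v) le_rfl le_rfl hσ.le hs hs.le hnn h5 c1 c2 c3 c4
  rw [← hBd] at hcore
  have e1 : 2 * Bd / (d.n : ℝ) ≤ g / 8 := by
    rw [div_le_iff₀ hnpos]
    have := (div_le_iff₀ hg).1 hn
    linarith
  have e2 : (d.n : ℝ) * (g / 8 / d.n + g / (32 * d.n) + d.η + g / (32 * d.n)) ≤ g / 8 + g / 32 + g / 32 + g / 32 := by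
    have hη' : d.η ≤ g / (32 * d.n) := hη.trans hεθ
    have h1 : (d.n : ℝ) * (g / 8 / d.n) = g / 8 := by field_simp
    have h2 : (d.n : ℝ) * (g / (32 * d.n)) = g / 32 := by field_simp
    have h3 : (d.n : ℝ) * d.η ≤ g / 32 := by rw [← h2]; exact mul_le_mul_of_nonneg_left hη' hnpos.le
    rw [mul_add, mul_add, mul_add, h1, h2]
    linarith
  have e3 : ε ≤ g / 32 := hεθ.trans hs1
  linarith

end

end Claimed.Agent.R252

end PkS3mSum

section PkS3mBeta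

/-!
# ROW 252, unit S3m (L3.3 two-colour matching), file Beta: PIGEONHOLING OF THE DERIVATIVE GAPS (03 l.323-333):  `K3mUniform → K3mDiscrete`.     (architects helper10, helper93; proofs helper50; no open leaf)

PAPER-FREE.   `d : K3mDat Ω` with `d.Raw D`.   Width `η > 0`, cutoff `cm = ⌈2/η⌉₊` (so `cm η ≥ 2`).   Class of a gap `g ∈ [0, 2K]`:  `k3mCl N K η cm g = cm` if `g ≤ 2 K N^(-cm η)`, else `⌊logb N (2K/g)/η⌋₊`.
Label `ω ↦ (class of gap j ω)_{1 ≤ j ≤ J}`: at most `(cm+1)^J` values; `k3m_pigeon` gives `ω0`; `R` = events with the label of `ω0`; new law `k3mRes d.p R ≤ (cm+1)^J d.p`;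
`β 0 = 1`, `β j = η * class of gap j ω0` (`1 ≤ j ≤ J`), `β j = 0` (`j > J`);   new slack `K' = 2 (cm+1)^J K`.
-/

set_option autoImplicit false
set_option linter.unusedSectionVars false

namespace Claimed.Agent.R252

open scoped BigOperators Nat
open Finset

noncomputable section

open Classical in
/-- class of a gap -/
def k3mCl (N K η : ℝ) (cm : ℕ) (g : ℝ) : ℕ := if g ≤ 2 * K * N ^ (-((cm : ℝ) * η)) then cm else ⌊Real.logb N (2 * K / g) / η⌋₊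

variable {Ω : Type} [Fintype Ω]

/-- the classes of the gaps of an event -/
def K3mDat.cls (d : K3mDat Ω) (η : ℝ) (cm : ℕ) (ω : Ω) : Fin d.J → ℕ := fun j => k3mCl d.N d.K η cm (d.gap ((j : ℕ) + 1) ω)

/-- the exponents read off from the event `ω0` -/
def K3mDat.bet (d : K3mDat Ω) (η : ℝ) (cm : ℕ) (ω0 : Ω) : ℕ → ℝ := fun j =>
  if j = 0 then 1 else if j ≤ d.J then η * (k3mCl d.N d.K η cm (d.gap j ω0) : ℝ) else 0

/-- the uniformised configuration -/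
def K3mDat.uni (d : K3mDat Ω) (n : ℕ) (η : ℝ) (cm : ℕ) (ω0 : Ω) : K3mDat Ω :=
  { d with
    n := n
    η := η
    β := d.bet η cm ω0
    K := 2 * ((cm : ℝ) + 1) ^ d.J * d.K
    p := k3mRes d.p {ω | d.cls η cm ω = d.cls η cm ω0} }

theorem k3m_beta_eqns_cite : True := by
  have := @k3mCl.eq_1
  have := @K3mDat.cls.eq_1
  have := @K3mDat.bet.eq_1
  have := @K3mDat.uni.eq_1
  trivial

/-! ## 1. the classes      (leaf L-252-K3M-B1) -/

theorem k3mCl_aux {N K : ℝ} (hN : 1 < N) (hK : 0 < K) {g x : ℝ} (hg : 0 < g) :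
    (2 * K * N ^ (-x) < g ↔ 2 * K / g < N ^ x) ∧ (g ≤ 2 * K * N ^ (-x) ↔ N ^ x ≤ 2 * K / g) := by
  have hN0 : 0 < N := by linarith
  have hp : 0 < N ^ x := Real.rpow_pos_of_pos hN0 x
  rw [Real.rpow_neg hN0.le, div_lt_iff₀ hg, le_div_iff₀ hg, ← div_eq_mul_inv, div_lt_iff₀ hp,
    le_div_iff₀ hp]
  constructor
  · rw [mul_comm g]
  · rw [mul_comm g]

/-- in the second case `2K/g < N^(cm η)`, so `logb N (2K/g)/η < cm` -/
theorem k3mCl_le {N K η : ℝ} (hN : 1 < N) (hK : 0 < K) (hη : 0 < η) (cm : ℕ) {g : ℝ} (hg : 0 ≤ g) : k3mCl N K η cm g ≤ cm := by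
  unfold k3mCl
  split_ifs with h
  · exact le_rfl
  · rw [not_le] at h
    have hN0 : 0 < N := by linarith
    have hg0 : 0 < g := lt_of_le_of_lt (by positivity) h
    have h1 := (k3mCl_aux hN hK hg0 (x := (cm : ℝ) * η)).1.1 h
    have h2 : Real.logb N (2 * K / g) < (cm : ℝ) * η :=
      (Real.logb_lt_iff_lt_rpow hN (by positivity)).2 h1
    apply Nat.floor_le_of_le
    rw [div_le_iff₀ hη]
    exact h2.le

/-- upper bound of the gap by its class (second case: `g > 0`, `c ≤ logb N (2K/g)/η` (`Nat.floor_le`; the quotient is `≥ 0` because `g ≤ 2K`), so `N^(c η) ≤ 2K/g`) -/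
theorem k3mCl_upper {N K η : ℝ} (hN : 1 < N) (hK : 0 < K) (hη : 0 < η) (cm : ℕ) {g : ℝ} (hg : 0 ≤ g) (hg2 : g ≤ 2 * K) :
    g ≤ 2 * K * N ^ (-(η * (k3mCl N K η cm g : ℝ))) := by
  unfold k3mCl
  split_ifs with h
  · rw [mul_comm η]
    exact h
  · rw [not_le] at h
    have hN0 : 0 < N := by linarith
    have hg0 : 0 < g := lt_of_le_of_lt (by positivity) h
    have h1 : 1 ≤ 2 * K / g := by rw [le_div_iff₀ hg0]; linarith
    have h2 : 0 ≤ Real.logb N (2 * K / g) / η := div_nonneg (Real.logb_nonneg hN h1) hη.le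
    have h3 := Nat.floor_le h2
    rw [le_div_iff₀ hη, mul_comm] at h3
    exact (k3mCl_aux hN hK hg0).2.2 ((Real.le_logb_iff_rpow_le hN (by positivity)).1 h3)

/-- lower bound of the gap below the cutoff (`Nat.lt_floor_add_one`) -/
theorem k3mCl_lower {N K η : ℝ} (hN : 1 < N) (hK : 0 < K) (hη : 0 < η) (cm : ℕ) {g : ℝ} (hg : 0 ≤ g) (hc : k3mCl N K η cm g < cm) :
    2 * K * N ^ (-(η * (k3mCl N K η cm g : ℝ)) - η) < g := by
  unfold k3mCl at hc ⊢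
  split_ifs at hc ⊢ with h
  · exact absurd hc (lt_irrefl _)
  · rw [not_le] at h
    have hN0 : 0 < N := by linarith
    have hg0 : 0 < g := lt_of_le_of_lt (by positivity) h
    have h3 := Nat.lt_floor_add_one (Real.logb N (2 * K / g) / η)
    rw [div_lt_iff₀ hη] at h3
    have h4 := (Real.logb_lt_iff_lt_rpow hN (by positivity)).1 h3
    have e : -(η * ((⌊Real.logb N (2 * K / g) / η⌋₊ : ℕ) : ℝ)) - η =
        -((((⌊Real.logb N (2 * K / g) / η⌋₊ : ℕ) : ℝ) + 1) * η) := by ring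
    rw [e]
    exact (k3mCl_aux hN hK hg0).1.2 h4

/-- a large gap has class `0`   (`1 ≤ cm`;  `2K/g ≤ 2K² < N^η`) -/
theorem k3mCl_zero {N K η : ℝ} (hN : 1 < N) (hK : 1 ≤ K) (hη : 0 < η) {cm : ℕ} (hcm : 1 ≤ cm) {g : ℝ} (hg : 1 / K ≤ g) (hsm : 2 * K ^ 2 < N ^ η) :
    k3mCl N K η cm g = 0 := by
  have hN0 : 0 < N := by linarith
  have hK0 : 0 < K := by linarith
  have hg0 : 0 < g := lt_of_lt_of_le (by positivity) hg
  have h1 : 2 * K / g ≤ 2 * K ^ 2 := by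
    rw [div_le_iff₀ hg0]
    rw [div_le_iff₀ hK0] at hg
    nlinarith
  have h2 : 2 * K / g < N ^ η := lt_of_le_of_lt h1 hsm
  unfold k3mCl
  rw [if_neg, Nat.floor_eq_zero, div_lt_one hη]
  · exact (Real.logb_lt_iff_lt_rpow hN (by positivity)).2 h2
  · rw [not_le]
    refine (k3mCl_aux hN hK0 hg0).1.2 (lt_of_lt_of_le h2 ?_)
    refine Real.rpow_le_rpow_of_exponent_le hN.le ?_
    have : (1 : ℝ) ≤ cm := by exact_mod_cast hcm
    nlinarith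

/-! ## 2. the uniformised configuration      (leaves L-252-K3M-B2, B3) -/

/-- the gaps do not change (`rfl`) -/
theorem K3mDat.uni_gap (d : K3mDat Ω) (n : ℕ) (η : ℝ) (cm : ℕ) (ω0 : Ω) (j : ℕ) (ω : Ω) : (d.uni n η cm ω0).gap j ω = d.gap j ω := rfl

/-- the gaps are `≤ 2K` on the support: `tm (tc ω) ∈ [0,1]` (`tc_lt`), `bound` -/
theorem K3mDat.Raw.gap_le {d : K3mDat Ω} {D : ℕ} (h : d.Raw D) (ω : Ω) {j : ℕ} (hj : j ≤ d.J) : 0 ≤ d.gap j ω ∧ d.gap j ω ≤ 2 * d.K := by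
  refine ⟨abs_nonneg _, ?_⟩
  have ht : d.tm (d.tc ω) ∈ Set.Icc (0:ℝ) 1 := by
    unfold K3mDat.tm
    have h1 := h.tc_lt ω
    have h2 : ((d.tc ω : ℕ) : ℝ) < 2 ^ d.kT := by exact_mod_cast h1
    constructor
    · positivity
    · rw [div_le_one (by positivity)]; exact h2.le
  have h1 := h.bound true (d.idx true ω) j (by omega) _ ht
  have h2 := h.bound false (d.idx false ω) j (by omega) _ ht
  unfold K3mDat.gap K3mDat.arm
  refine le_trans (abs_sub _ _) ?_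
  linarith

/-- **B2** the pigeonhole.   `k3m_pigeon h.law Set.univ (d.cls η cm)` with `m = (cm+1)^J`:  the values lie in `Fintype.piFinset fun _ => Finset.range (cm+1)` (`k3mCl_le`), of cardinality `(cm+1)^J`;   `k3mP d.p univ = 1`. -/
theorem K3mDat.Raw.pigeon {d : K3mDat Ω} {D : ℕ} (h : d.Raw D) {η : ℝ} (hη : 0 < η) (cm : ℕ) :
    ∃ ω0, d.p ω0 ≠ 0 ∧ 1 / ((cm : ℝ) + 1) ^ d.J ≤ k3mP d.p {ω | d.cls η cm ω = d.cls η cm ω0} := by
  classical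
  have hN : 1 < d.N := by linarith [h.N_ge]
  have hK : 0 < d.K := by linarith [h.K_ge]
  have hm : (0:ℝ) < ((cm : ℝ) + 1) ^ d.J := by positivity
  have hX : (((d.cls η cm) '' {ω | ω ∈ Set.univ ∧ d.p ω ≠ 0}).ncard : ℝ) ≤ ((cm : ℝ) + 1) ^ d.J := by
    have hsub : (d.cls η cm) '' {ω | ω ∈ Set.univ ∧ d.p ω ≠ 0} ⊆
        ↑(Fintype.piFinset fun _ : Fin d.J => Finset.range (cm+1)) := by
      rintro _ ⟨ω, -, rfl⟩
      rw [Finset.mem_coe, Fintype.mem_piFinset]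
      intro j
      rw [Finset.mem_range, Nat.lt_succ_iff]
      exact k3mCl_le hN hK hη cm (h.gap_le ω (by have := j.2; omega)).1
    have h1 := Set.ncard_le_ncard hsub (Finset.finite_toSet _)
    rw [Set.ncard_coe_finset, Fintype.card_piFinset] at h1
    simp only [Finset.card_range, Finset.prod_const, Finset.card_univ, Fintype.card_fin] at h1
    exact_mod_cast h1
  obtain ⟨ω0, -, h0, h1⟩ := k3m_pigeon h.law Set.univ (d.cls η cm) hm hX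
    (by rw [k3mP_univ h.law]; exact one_pos)
  refine ⟨ω0, h0, ?_⟩
  rw [k3mP_univ h.law] at h1
  simpa using h1

/-- **B3** the uniformised configuration satisfies `OK`.   `R = {cls = cls ω0}`, `c = (cm+1)^J ≥ 1`, `K' = 2 c K`.
`beta`: `b0` by definition; `nonneg`; `zero`: `h.der ω0` gives `j ≤ D < J` with `gap j ω0 ≥ 1/K`, `k3mCl_zero`.     `law`: `k3mRes_law`.     support: `k3mRes_ne_zero` (so `ω ∈ R`, `d.p ω ≠ 0`).
`gap_le`: `j = 0`: `h.val`, `N^(-1) = 1/N`;  `1 ≤ j ≤ J`: the class of `gap j ω` equals that of `gap j ω0` (`congrFun` at `⟨j-1, _⟩`), `k3mCl_upper`, `2K ≤ K'`.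
`gap_ge`: `β j ≤ 1 < 2 ≤ cm η` gives class `< cm`; `k3mCl_lower`, `2K ≥ 1`.     `marg`: `k3mP (k3mRes p R) A ≤ c k3mP p A` (termwise `k3mRes_le`), `h.marg`, `c K ≤ K'`.     `bound`: `K ≤ K'`. -/
theorem K3mDat.Raw.uni_ok {d : K3mDat Ω} {D : ℕ} (h : d.Raw D) {n : ℕ} (hn : 1 ≤ n) {η : ℝ} (hη : 0 < η) {cm : ℕ} (hcm : 2 ≤ (cm : ℝ) * η)
    (hsm : 2 * d.K ^ 2 < d.N ^ η) {ω0 : Ω} (h0 : d.p ω0 ≠ 0) (hR : 1 / ((cm : ℝ) + 1) ^ d.J ≤ k3mP d.p {ω | d.cls η cm ω = d.cls η cm ω0}) :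
    (d.uni n η cm ω0).OK D := by
  have hN : 1 < d.N := by linarith [h.N_ge]
  have hN0 : 0 < d.N := by linarith
  have hK1 := h.K_ge
  have hK : 0 < d.K := by linarith
  obtain ⟨c, hc⟩ : ∃ c : ℝ, c = ((cm : ℝ) + 1) ^ d.J := ⟨_, rfl⟩
  have hc1 : 1 ≤ c := by
    rw [hc]
    exact one_le_pow₀ (by have : (0:ℝ) ≤ cm := Nat.cast_nonneg _; linarith)
  have hc0 : 0 < c := by linarith
  have hR0 : 0 < k3mP d.p {ω | d.cls η cm ω = d.cls η cm ω0} := lt_of_lt_of_le (by positivity) hR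
  have hcm1 : 1 ≤ cm := by
    by_contra hh
    have h00 : cm = 0 := by omega
    subst h00
    simp at hcm
    linarith
  have hKe : (d.uni n η cm ω0).K = 2 * c * d.K := by rw [hc]; rfl
  have hcK : c * d.K ≤ 2 * c * d.K := by nlinarith [mul_pos hc0 hK]
  have hKK : d.K ≤ 2 * c * d.K := by nlinarith [mul_pos hc0 hK]
  have h2K : 2 * d.K ≤ 2 * c * d.K := by nlinarith [mul_pos hc0 hK]
  have hsupp : ∀ ω, (d.uni n η cm ω0).p ω ≠ 0 → d.cls η cm ω = d.cls η cm ω0 ∧ d.p ω ≠ 0 :=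
    fun ω hω => k3mRes_ne_zero hω
  have hcls : ∀ ω, d.cls η cm ω = d.cls η cm ω0 → ∀ j, 1 ≤ j → j ≤ d.J →
      k3mCl d.N d.K η cm (d.gap j ω) = k3mCl d.N d.K η cm (d.gap j ω0) := by
    intro ω e j h1 h2
    have := congrFun e ⟨j - 1, by omega⟩
    unfold K3mDat.cls at this
    simp only at this
    rwa [Nat.sub_add_cancel h1] at this
  have hbet : ∀ j, 1 ≤ j → j ≤ d.J → d.bet η cm ω0 j = η * (k3mCl d.N d.K η cm (d.gap j ω0) : ℝ) := by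
    intro j h1 h2
    unfold K3mDat.bet
    rw [if_neg (by omega), if_pos h2]
  have hbet0 : d.bet η cm ω0 0 = 1 := by
    unfold K3mDat.bet
    rw [if_pos rfl]
  refine { beta := ?_, n_pos := hn, N_ge := h.N_ge, K_ge := ?_, η_pos := hη, kT_ge := h.kT_ge,
           law := k3mRes_law h.law hR0, jet := h.jet, bound := ?_, idx_lt := ?_, tc_lt := h.tc_lt,
           gap_le := ?_, gap_ge := ?_, π_nonneg := h.π_nonneg, π_sum := h.π_sum, marg := ?_ }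
  · -- beta
    refine ⟨h.hD, h.hJ, hbet0, ?_, ?_⟩
    · intro j
      show 0 ≤ d.bet η cm ω0 j
      unfold K3mDat.bet
      split_ifs
      · exact zero_le_one
      · positivity
      · exact le_rfl
    · obtain ⟨j, h1, h2, h3⟩ := h.der ω0 h0
      refine ⟨j, h1, h2, ?_⟩
      show d.bet η cm ω0 j = 0
      rw [hbet j h1 (le_trans h2 h.hJ.le), k3mCl_zero hN hK1 hη hcm1 h3 hsm]
      simp
  · rw [hKe]; linarith
  · intro col i j hj t ht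
    rw [hKe]
    exact le_trans (h.bound col i j hj t ht) hKK
  · intro ω hω col
    exact h.idx_lt ω (hsupp ω hω).2 col
  · intro ω hω j hj
    obtain ⟨e, hp⟩ := hsupp ω hω
    rw [hKe]
    show d.gap j ω ≤ 2 * c * d.K * d.N ^ (-(d.bet η cm ω0 j))
    rcases Nat.eq_zero_or_pos j with rfl | h1
    · rw [hbet0, Real.rpow_neg_one, ← div_eq_mul_inv]
      refine le_trans (h.val ω hp) ?_
      gcongr
    · have hj' : j ≤ d.J := hj
      rw [hbet j h1 hj', ← hcls ω e j h1 hj']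
      obtain ⟨g0, g1⟩ := h.gap_le ω hj'
      refine le_trans (k3mCl_upper hN hK hη cm g0 g1) ?_
      gcongr
  · intro ω hω j h1 hj hb
    obtain ⟨e, hp⟩ := hsupp ω hω
    have hj' : j ≤ d.J := hj
    have hb' : d.bet η cm ω0 j ≤ 1 := hb
    show d.N ^ (-(d.bet η cm ω0 j) - η) ≤ d.gap j ω
    rw [hbet j h1 hj', ← hcls ω e j h1 hj'] at hb' ⊢
    obtain ⟨g0, g1⟩ := h.gap_le ω hj'
    have hlt : k3mCl d.N d.K η cm (d.gap j ω) < cm := by
      have : ((k3mCl d.N d.K η cm (d.gap j ω) : ℕ) : ℝ) < (cm : ℝ) := by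
        by_contra hh
        rw [not_lt] at hh
        nlinarith
      exact_mod_cast this
    have h3 := k3mCl_lower hN hK hη cm g0 hlt
    have hpos : 0 < d.N ^ (-(η * (k3mCl d.N d.K η cm (d.gap j ω) : ℝ)) - η) := Real.rpow_pos_of_pos hN0 _
    nlinarith
  · intro col i cc
    rw [hKe]
    show k3mP (k3mRes d.p {ω | d.cls η cm ω = d.cls η cm ω0}) {ω | d.idx col ω = i ∧ d.tc ω = cc} ≤
      2 * c * d.K * d.π col i / 2 ^ d.kT
    have h1 : k3mP (k3mRes d.p {ω | d.cls η cm ω = d.cls η cm ω0}) {ω | d.idx col ω = i ∧ d.tc ω = cc} ≤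
        c * k3mP d.p {ω | d.idx col ω = i ∧ d.tc ω = cc} := by
      unfold k3mP
      rw [Finset.mul_sum]
      refine Finset.sum_le_sum fun ω _ => ?_
      by_cases hm : ω ∈ {ω | d.idx col ω = i ∧ d.tc ω = cc}
      · rw [Set.indicator_of_mem hm, Set.indicator_of_mem hm]
        exact k3mRes_le h.law hc0 (by rw [hc]; exact hR) ω
      · rw [Set.indicator_of_notMem hm, Set.indicator_of_notMem hm, mul_zero]
    refine le_trans h1 ?_
    have h2 := h.marg col i cc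
    have h3 : 0 ≤ d.π col i / 2 ^ d.kT := div_nonneg (h.π_nonneg col i) (by positivity)
    calc c * k3mP d.p {ω | d.idx col ω = i ∧ d.tc ω = cc} ≤ c * (d.K * d.π col i / 2 ^ d.kT) := by gcongr
      _ = (c * d.K) * (d.π col i / 2 ^ d.kT) := by ring
      _ ≤ (2 * c * d.K) * (d.π col i / 2 ^ d.kT) := by gcongr
      _ = _ := by ring

/-! ## 3. the exit      (leaf L-252-K3M-B4) -/

/-- **EXIT.**   `n, ε, N0` from `K3mUniform`;   `η = ε`, `cm = ⌈2/ε⌉₊`, `c = (cm+1)^J`;   `ε' = ε/4`,  `N0' = max N0 (max 2 ((4 c)^(4/ε)))`.   For `N ≥ N0'`, `K ≤ N^ε'`: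
`2 K² ≤ 2 N^(ε/2) < N^ε` (`4 ≤ N^(ε/4)`),   `2 c K ≤ 2 c N^(ε/4) ≤ N^ε`,   `nn true ≤ N^(d0 + ε/4) ≤ N^(d0 + ε)`.   `Raw.pigeon`, `Raw.uni_ok`; the fields `J`, `N`, `nn` of `uni` are those of `d` (`rfl`). -/
theorem k3m_beta {D J : ℕ} {d0 : ℝ} (h : K3mUniform D J d0) : K3mDiscrete D J d0 := by
  obtain ⟨n, ε, N0, hn, hε, H⟩ := h
  obtain ⟨cm, hcm⟩ : ∃ cm : ℕ, cm = ⌈2/ε⌉₊ := ⟨_, rfl⟩
  obtain ⟨c, hc⟩ : ∃ c : ℝ, c = ((cm:ℝ)+1)^J := ⟨_, rfl⟩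
  have hc1 : 1 ≤ c := by
    rw [hc]
    exact one_le_pow₀ (by have : (0:ℝ) ≤ cm := Nat.cast_nonneg _; linarith)
  refine ⟨ε/4, max N0 (max 2 ((4*c)^(4/ε))), by positivity, ?_⟩
  intro Ω _ d hJ hraw hN hK hnn
  have hN0 : N0 ≤ d.N := le_trans (le_max_left _ _) hN
  have hN2 : 2 ≤ d.N := le_trans (le_trans (le_max_left _ _) (le_max_right _ _)) hN
  have hN4 : (4*c)^(4/ε) ≤ d.N := le_trans (le_trans (le_max_right _ _) (le_max_right _ _)) hN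
  have hNp : 0 < d.N := by linarith
  have h4c : 4 * c ≤ d.N ^ (ε/4) := by
    calc 4*c = ((4*c)^(4/ε))^(ε/4) := by
          rw [← Real.rpow_mul (by positivity)]
          have : 4 / ε * (ε / 4) = 1 := by field_simp
          rw [this, Real.rpow_one]
      _ ≤ d.N^(ε/4) := Real.rpow_le_rpow (by positivity) hN4 (by positivity)
  obtain ⟨x, hx⟩ : ∃ x : ℝ, x = d.N^(ε/4) := ⟨_, rfl⟩
  rw [← hx] at h4c hK
  have hx4 : d.N^ε = x^4 := by
    rw [hx, ← Real.rpow_natCast, ← Real.rpow_mul hNp.le]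
    congr 1
    push_cast
    ring
  have hx1 : 4 ≤ x := by linarith
  have hK1 := hraw.K_ge
  have hcmε : 2 ≤ (cm : ℝ) * ε := by
    have := Nat.le_ceil (2/ε)
    rw [← hcm, div_le_iff₀ hε] at this
    exact this
  have hsm : 2 * d.K ^ 2 < d.N ^ ε := by
    rw [hx4]
    have h1 : d.K ^ 2 ≤ x ^ 2 := by gcongr
    have h2 : 16 ≤ x ^ 2 := by nlinarith
    nlinarith
  obtain ⟨ω0, h0, hR⟩ := hraw.pigeon hε cm
  have hok := hraw.uni_ok hn hε (cm := cm) hcmε hsm h0 hR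
  refine H Ω (d.uni n ε cm ω0) hJ rfl hok hN0 ?_ le_rfl ?_
  · show 2 * ((cm : ℝ) + 1) ^ d.J * d.K ≤ d.N ^ ε
    rw [hJ, ← hc, hx4]
    have h1 : 2 * c * d.K ≤ x * x := by
      have : 2 * c ≤ x := by linarith
      have h0c : 0 ≤ 2 * c := by linarith
      exact mul_le_mul this hK (by linarith) (by linarith)
    have h2 : 16 ≤ x ^ 2 := by nlinarith
    nlinarith
  · show (d.nn true : ℝ) ≤ d.N ^ (d0 + ε)
    refine le_trans hnn ?_
    exact Real.rpow_le_rpow_of_exponent_le (by linarith) (by linarith)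

/-- **T1 from T2** (name of helper93) -/
theorem k3m_discrete_of_uniform {D J : ℕ} {d0 : ℝ} (hU : K3mUniform D J d0) : K3mDiscrete D J d0 := k3m_beta hU

/-- **T1** -/
theorem k3m_discrete (D J : ℕ) (hD : 1 ≤ D) (hJ : D < J) (d0 : ℝ) (hd0 : d0 < 1) : K3mDiscrete D J d0 :=
  k3m_beta (k3m_uniform D J hD hJ d0 hd0)

end

end Claimed.Agent.R252

end PkS3mBeta
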